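import Vale.Agent.P335.Mixing

/-!
# The switch chain on simple graphs with a prescribed degree vector

A uniform ordered quadruple of distinct vertices `(a, b, c, e)` gives a uniform four-element set
together with a uniform ordered pair of distinct matchings on it, namely `{ab, ce}` and `{ac, be}`.
-/

noncomputable section

namespace Vale.P335

open Finset Matrix

variable {n : ℕ}

/-- The labelled simple graphs with degree `d v` at each vertex `v`. -/
abbrev Omega (d : Fin n → ℕ) := {G : SimpleGraph (Fin n) // ∀ v, (G.neighborSet v).ncard = d v}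

/-- The pair of edges `{ab, ce}` of a quadruple. -/
def pairSet (a b c e : Fin n) : Set (Sym2 (Fin n)) := {s(a, b), s(c, e)}

/-- The quadruple `σ` switches `G` into `H`: both old edges are present, both new ones are absent,
and the old pair is replaced by the new one. -/
def Switches (σ : Fin 4 ↪ Fin n) (G H : SimpleGraph (Fin n)) : Prop :=
  G.Adj (σ 0) (σ 1) ∧ G.Adj (σ 2) (σ 3) ∧ ¬G.Adj (σ 0) (σ 2) ∧ ¬G.Adj (σ 1) (σ 3) ∧
    H.edgeSet = G.edgeSet \ pairSet (σ 0) (σ 1) (σ 2) (σ 3) ∪ pairSet (σ 0) (σ 2) (σ 1) (σ 3)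

open scoped Classical in
/-- The number of quadruples switching `G` into `H`. -/
def weight (G H : SimpleGraph (Fin n)) : ℕ :=
  (Finset.univ.filter fun σ : Fin 4 ↪ Fin n => Switches σ G H).card

open scoped Classical in
/-- The probability that a step which is not lazy moves from `G` to `H`. -/
def moveProb (d : Fin n → ℕ) (G H : Omega d) : ℝ :=
  weight G.1 H.1 / (Fintype.card (Fin 4 ↪ Fin n) : ℝ)

open scoped Classical in
/-- The transition matrix of the lazy switch chain. -/
def switchChain (d : Fin n → ℕ) : Matrix (Omega d) (Omega d) ℝ := fun G H =>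
  if G = H then 1 - (1 / 2) * ∑ K, moveProb d G K else (1 / 2) * moveProb d G H

theorem switches_ne {σ : Fin 4 ↪ Fin n} {G H : SimpleGraph (Fin n)} (h : Switches σ G H) :
    G ≠ H := by
  intro e
  subst e
  obtain ⟨-, -, hac, -, he⟩ := h
  refine hac ?_
  rw [← SimpleGraph.mem_edgeSet, he]
  exact Or.inr (Set.mem_insert _ _)

theorem switches_unique {σ : Fin 4 ↪ Fin n} {G H H' : SimpleGraph (Fin n)} (h : Switches σ G H)
    (h' : Switches σ G H') : H = H' :=
  SimpleGraph.edgeSet_inj.1 (h.2.2.2.2.trans h'.2.2.2.2.symm)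

/-- Exchanging the two matchings of a quadruple. -/
def flipQuad : (Fin 4 ↪ Fin n) ≃ (Fin 4 ↪ Fin n) where
  toFun σ := (Equiv.swap (1 : Fin 4) 2).toEmbedding.trans σ
  invFun σ := (Equiv.swap (1 : Fin 4) 2).toEmbedding.trans σ
  left_inv σ := by ext i; simp
  right_inv σ := by ext i; simp

theorem switches_flip {σ : Fin 4 ↪ Fin n} {G H : SimpleGraph (Fin n)} (h : Switches σ G H) :
    Switches (flipQuad σ) H G := by
  have e1 : Equiv.swap (1 : Fin 4) 2 3 = 3 := by decide
  have e2 : Equiv.swap (1 : Fin 4) 2 0 = 0 := by decide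
  obtain ⟨hab, hce, hac, hbe, he⟩ := h
  simp only [Switches, flipQuad, Equiv.coe_fn_mk, Function.Embedding.trans_apply,
    Equiv.coe_toEmbedding, Equiv.swap_apply_left, Equiv.swap_apply_right, e1, e2]
  have hne : ∀ i j : Fin 4, i ≠ j → σ i ≠ σ j := fun i j hij h => hij (σ.injective h)
  have key : ∀ p q, (p = s(σ 0, σ 1) ∨ p = s(σ 2, σ 3)) → (q = s(σ 0, σ 2) ∨ q = s(σ 1, σ 3)) →
      p ≠ q := by
    rintro p q (rfl | rfl) (rfl | rfl) <;>
      simp [hne 0 1 (by decide), hne 1 2 (by decide), hne 0 2 (by decide),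
        hne 2 0 (by decide), hne 2 1 (by decide), hne 3 2 (by decide), hne 3 1 (by decide),
        hne 2 3 (by decide), hne 1 0 (by decide)]
  refine ⟨?_, ?_, ?_, ?_, ?_⟩
  · rw [← SimpleGraph.mem_edgeSet, he]; exact Or.inr (Or.inl rfl)
  · rw [← SimpleGraph.mem_edgeSet, he]; exact Or.inr (Or.inr rfl)
  · rw [← SimpleGraph.mem_edgeSet, he]
    rintro (⟨-, h⟩ | h)
    · exact h (Or.inl rfl)
    · exact key _ _ (Or.inl rfl) h rfl
  · rw [← SimpleGraph.mem_edgeSet, he]
    rintro (⟨-, h⟩ | h)
    · exact h (Or.inr rfl)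
    · exact key _ _ (Or.inr rfl) h rfl
  · ext z
    rw [he]
    constructor
    · intro hz
      by_cases hp : z ∈ pairSet (σ 0) (σ 1) (σ 2) (σ 3)
      · exact Or.inr hp
      · refine Or.inl ⟨Or.inl ⟨hz, hp⟩, ?_⟩
        rintro (rfl | rfl)
        · exact hac hz
        · exact hbe hz
    · rintro (⟨⟨hz, -⟩ | hz, hn⟩ | hz)
      · exact hz
      · exact absurd hz hn
      · rcases hz with rfl | rfl
        exacts [hab, hce]

theorem weight_comm (G H : SimpleGraph (Fin n)) : weight G H = weight H G := by
  classical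
  refine Finset.card_equiv flipQuad fun σ => ?_
  simp only [Finset.mem_filter, Finset.mem_univ, true_and]
  refine ⟨switches_flip, fun h => ?_⟩
  have := switches_flip h
  rwa [show flipQuad (flipQuad σ) = σ from flipQuad.left_inv σ] at this

theorem weight_self (G : SimpleGraph (Fin n)) : weight G G = 0 := by
  classical
  simp only [weight, Finset.card_eq_zero, Finset.filter_eq_empty_iff]
  exact fun σ _ h => switches_ne h rfl

theorem moveProb_nonneg (d : Fin n → ℕ) (G H : Omega d) : 0 ≤ moveProb d G H := by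
  unfold moveProb; positivity

theorem moveProb_comm (d : Fin n → ℕ) (G H : Omega d) : moveProb d G H = moveProb d H G := by
  rw [moveProb, moveProb, weight_comm]

theorem moveProb_self (d : Fin n → ℕ) (G : Omega d) : moveProb d G G = 0 := by
  simp [moveProb, weight_self]

theorem sum_moveProb_le_one (d : Fin n → ℕ) (G : Omega d) : ∑ H, moveProb d G H ≤ 1 := by
  classical
  simp only [moveProb, ← Finset.sum_div]
  refine div_le_one_of_le₀ ?_ (Nat.cast_nonneg _)
  rw [← Nat.cast_sum]
  refine Nat.cast_le.2 ?_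
  unfold weight
  rw [← Finset.card_biUnion]
  · exact Finset.card_le_univ _
  · intro H _ H' _ hne
    refine Finset.disjoint_left.2 fun σ h h' => hne ?_
    simp only [Finset.mem_filter, Finset.mem_univ, true_and] at h h'
    exact Subtype.ext (switches_unique h h')

theorem switchChain_isSymm (d : Fin n → ℕ) : (switchChain d).IsSymm := by
  refine Matrix.IsSymm.ext fun G H => ?_
  rcases eq_or_ne G H with rfl | h
  · rfl
  · simp [switchChain, h, h.symm, moveProb_comm d H G]

theorem switchChain_row (d : Fin n → ℕ) (G : Omega d) : ∑ H, switchChain d G H = 1 := by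
  classical
  have e : ∀ H, switchChain d G H = (if G = H then 1 - (1 / 2) * ∑ K, moveProb d G K else 0)
      + (1 / 2) * moveProb d G H := fun H => by
    by_cases h : G = H
    · subst h; simp [switchChain, moveProb_self]
    · simp [switchChain, h]
  simp [e, Finset.sum_add_distrib, ← Finset.mul_sum]

/-- The Dirichlet form of the moves. -/
def dirichlet (d : Fin n → ℕ) (f : Omega d → ℝ) : ℝ :=
  (1 / 2) * ∑ G, ∑ H, moveProb d G H * (f G - f H) ^ 2

theorem ip_switchChain (d : Fin n → ℕ) (f : Omega d → ℝ) :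
    ip f (switchChain d *ᵥ f) = ip f f - (1 / 2) * dirichlet d f := by
  classical
  have h1 : ∀ G, (switchChain d *ᵥ f) G = f G - (1 / 2) * ∑ H, moveProb d G H * (f G - f H) := by
    intro G
    have e : ∀ H, switchChain d G H * f H
        = (if G = H then (1 - (1 / 2) * ∑ K, moveProb d G K) * f H else 0)
          + (1 / 2) * (moveProb d G H * f H) := fun H => by
      by_cases h : G = H
      · subst h; simp [switchChain, moveProb_self]
      · simp [switchChain, h]; ring
    simp only [Matrix.mulVec, dotProduct, e, Finset.sum_add_distrib, Finset.sum_ite_eq,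
      Finset.mem_univ, if_true, ← Finset.mul_sum, mul_sub, Finset.sum_sub_distrib,
      ← Finset.sum_mul]
    ring
  have h2 : ∑ G, ∑ H, moveProb d G H * (f G - f H) ^ 2
      = 2 * ∑ G, f G * ∑ H, moveProb d G H * (f G - f H) := by
    have hs : ∑ G, ∑ H, moveProb d G H * (f G - f H) * f H
        = -∑ G, ∑ H, moveProb d G H * (f G - f H) * f G := by
      rw [Finset.sum_comm, ← Finset.sum_neg_distrib]
      refine Finset.sum_congr rfl fun G _ => ?_
      rw [← Finset.sum_neg_distrib]
      refine Finset.sum_congr rfl fun H _ => ?_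
      rw [moveProb_comm d H G]; ring
    calc ∑ G, ∑ H, moveProb d G H * (f G - f H) ^ 2
        = ∑ G, ∑ H, moveProb d G H * (f G - f H) * f G
          - ∑ G, ∑ H, moveProb d G H * (f G - f H) * f H := by
          simp only [← Finset.sum_sub_distrib]
          exact Finset.sum_congr rfl fun G _ => Finset.sum_congr rfl fun H _ => by ring
      _ = 2 * ∑ G, ∑ H, moveProb d G H * (f G - f H) * f G := by rw [hs]; ring
      _ = _ := by
          congr 1
          refine Finset.sum_congr rfl fun G _ => ?_
          rw [Finset.mul_sum]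
          exact Finset.sum_congr rfl fun H _ => by ring
  simp only [ip, h1, dirichlet, h2]
  simp only [mul_sub, Finset.sum_sub_distrib, ← mul_assoc, mul_comm _ (1 / 2 : ℝ)]
  simp only [mul_assoc, ← Finset.mul_sum]
  ring

theorem dirichlet_le (d : Fin n → ℕ) (f : Omega d → ℝ) : dirichlet d f ≤ 2 * ip f f := by
  have h : ∀ G H, moveProb d G H * (f G - f H) ^ 2
      ≤ 2 * (moveProb d G H * f G ^ 2 + moveProb d H G * f H ^ 2) := fun G H => by
    rw [moveProb_comm d H G]
    nlinarith [mul_nonneg (moveProb_nonneg d G H) (sq_nonneg (f G + f H))]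
  have h' : ∑ G, ∑ H, moveProb d G H * (f G - f H) ^ 2
      ≤ ∑ G, ∑ H, 2 * (moveProb d G H * f G ^ 2 + moveProb d H G * f H ^ 2) :=
    Finset.sum_le_sum fun G _ => Finset.sum_le_sum fun H _ => h G H
  simp only [← Finset.mul_sum, Finset.sum_add_distrib] at h'
  rw [Finset.sum_comm (f := fun G H => moveProb d H G * f H ^ 2)] at h'
  have : ∑ G, ∑ H, moveProb d G H * f G ^ 2 ≤ ip f f := Finset.sum_le_sum fun G _ => by
    rw [← Finset.sum_mul, ← sq]
    exact mul_le_of_le_one_left (sq_nonneg _) (sum_moveProb_le_one d G)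
  simp only [dirichlet]
  linarith

theorem switchChain_pos (d : Fin n → ℕ) (f : Omega d → ℝ) : 0 ≤ ip f (switchChain d *ᵥ f) := by
  rw [ip_switchChain]; linarith [dirichlet_le d f]

open scoped Classical in
theorem card_omega_le (d : Fin n → ℕ) : Fintype.card (Omega d) ≤ 2 ^ (n * n) := by
  refine (Fintype.card_le_of_injective (fun G : Omega d => fun p : Fin n × Fin n =>
    decide (G.1.Adj p.1 p.2)) fun G H h => Subtype.ext ?_).trans (by simp)
  ext u v
  have := congrFun h (u, v)
  simpa using this

open scoped Classical in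
/-- A lower bound on the Dirichlet form bounds the mixing time of the switch chain. -/
theorem tv_of_dirichlet (d : Fin n → ℕ) {g : ℝ} (hg1 : g ≤ 1)
    (hgap : ∀ f : Omega d → ℝ, ∑ G, f G = 0 → g * ip f f ≤ (1 / 2) * dirichlet d f)
    {t : ℕ} (ht : ((n * n : ℕ) : ℝ) + 2 ≤ g * t) (G : Omega d) :
    (1 / 2 : ℝ) * ∑ H, |(switchChain d ^ t) G H - 1 / (Fintype.card (Omega d) : ℝ)| ≤ 1 / 4 :=
  tv_le_quarter (switchChain_isSymm d) (switchChain_row d) (switchChain_pos d)
    (fun f hf => by rw [ip_switchChain]; linarith [hgap f hf])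
    (four_mul_card_le hg1 (card_omega_le d) ht) G

end Vale.P335
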