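import Vale.Agent.P335.Slots

/-!
# Two disjoint vertex pairs

The inner product of the complements of two disjoint pairs is bounded below through the switches of
the four slots between them and the partial averages of the pairs.
-/

noncomputable section

set_option linter.unusedSectionVars false

namespace Vale.P335

open Finset

variable {n : ℕ} {d : Fin n → ℕ}

/-- The slots with exactly one end in `P` and not exactly one in `Q`. -/
def partE (P Q : Finset (Fin n)) (i j : Fin n) : Bool := crossE P i j && !crossE Q i j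

/-- The slots between `P` and `Q`. -/
def blockE (P Q : Finset (Fin n)) (i j : Fin n) : Bool := crossE P i j && crossE Q i j

/-- The classes of realisations agreeing outside `partE P Q`. -/
def partKey (P Q : Finset (Fin n)) (G : Omega d) : Fin n → Fin n → Bool := outsideE (partE P Q) G

/-- The edges between `P` and `Q` form a matching of two edges. -/
def Diag (P Q : Finset (Fin n)) (G : Omega d) : Prop :=
  (∀ i ∈ P, ∑ j ∈ Q, (adjB G i j).toNat = 1) ∧ ∀ j ∈ Q, ∑ i ∈ P, (adjB G i j).toNat = 1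

instance (P Q : Finset (Fin n)) : DecidablePred (Diag (d := d) P Q) := fun _ =>
  inferInstanceAs (Decidable (_ ∧ _))

theorem partE_comm (P Q : Finset (Fin n)) (i j : Fin n) : partE P Q i j = partE P Q j i := by
  simp [partE, crossE_comm P i j, crossE_comm Q i j]

theorem blockE_comm (P Q : Finset (Fin n)) (i j : Fin n) : blockE P Q i j = blockE P Q j i := by
  simp [blockE, crossE_comm P i j, crossE_comm Q i j]

theorem blockE_swap (P Q : Finset (Fin n)) : blockE P Q = blockE Q P := by
  funext i j; simp [blockE, Bool.and_comm]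

theorem Diag.swap {P Q : Finset (Fin n)} {G : Omega d} (h : Diag P Q G) : Diag Q P G :=
  ⟨fun i hi => (Finset.sum_congr rfl fun j _ => by rw [adjB_comm]).trans (h.2 i hi),
    fun j hj => (Finset.sum_congr rfl fun i _ => by rw [adjB_comm]).trans (h.1 j hj)⟩

theorem diag_swap {P Q : Finset (Fin n)} {G : Omega d} : Diag Q P G ↔ Diag P Q G :=
  ⟨Diag.swap, Diag.swap⟩

theorem sum_toNat_flip {α : Type*} {s : Finset α} (hs : s.card = 2) (a : α → Bool)
    (h : ∑ x ∈ s, (a x).toNat = 1) : ∑ x ∈ s, (!a x).toNat = 1 := by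
  have : ∑ x ∈ s, ((a x).toNat + (!a x).toNat) = 2 := by
    rw [← hs, Finset.card_eq_sum_ones]
    exact Finset.sum_congr rfl fun x _ => by cases a x <;> rfl
  rw [Finset.sum_add_distrib, h] at this
  omega

theorem blockE_of_mem {P Q : Finset (Fin n)} (hPQ : Disjoint P Q) {i j : Fin n} (hi : i ∈ P)
    (hj : j ∈ Q) : blockE P Q i j = true := by
  simp [blockE, crossE, hi, hj, Finset.disjoint_left.1 hPQ hi, Finset.disjoint_right.1 hPQ hj]

theorem blockE_row {P Q : Finset (Fin n)} (hPQ : Disjoint P Q) (i : Fin n) :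
    (univ.filter fun j => blockE P Q i j = true) = if i ∈ P then Q else if i ∈ Q then P else ∅ := by
  ext j
  by_cases h1 : i ∈ P <;> by_cases h2 : i ∈ Q <;> by_cases h3 : j ∈ P <;> by_cases h4 : j ∈ Q <;>
    simp [blockE, crossE, h1, h2, h3, h4] <;>
    first
      | exact Finset.disjoint_left.1 hPQ h1 h2
      | exact Finset.disjoint_left.1 hPQ h3 h4

theorem flip_margins {P Q : Finset (Fin n)} (hP : P.card = 2) (hQ : Q.card = 2)
    (hPQ : Disjoint P Q) {G : Omega d} (h : Diag P Q G) (i : Fin n) :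
    ∑ j, (if blockE P Q i j then !adjB G i j else adjB G i j).toNat = d i := by
  have h1 := sum_adjB G i
  rw [← Finset.sum_filter_add_sum_filter_not univ fun j => blockE P Q i j = true] at h1 ⊢
  rw [Finset.sum_congr rfl fun j (hj : j ∈ univ.filter fun j => ¬blockE P Q i j = true) =>
    congrArg Bool.toNat (if_neg (Finset.mem_filter.1 hj).2),
    Finset.sum_congr rfl fun j (hj : j ∈ univ.filter fun j => blockE P Q i j = true) =>
    congrArg Bool.toNat (if_pos (Finset.mem_filter.1 hj).2)]
  have e : ∑ j ∈ univ.filter (fun j => blockE P Q i j = true), (!adjB G i j).toNat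
      = ∑ j ∈ univ.filter (fun j => blockE P Q i j = true), (adjB G i j).toNat := by
    rw [blockE_row hPQ i]
    split_ifs with h1 h2
    · rw [sum_toNat_flip hQ _ (h.1 i h1), h.1 i h1]
    · have h' := h.swap.1 i h2
      rw [sum_toNat_flip hP _ h', h']
    · rfl
  rw [e]
  exact h1

open scoped Classical in
/-- Switch the two diagonals between `P` and `Q`. -/
def flipPQ (P Q : Finset (Fin n)) (G : Omega d) : Omega d :=
  if h : P.card = 2 ∧ Q.card = 2 ∧ Disjoint P Q ∧ Diag P Q G then
    mkOmega (fun i j => if blockE P Q i j then !adjB G i j else adjB G i j)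
      (fun i j => by rw [blockE_comm P Q i j, adjB_comm G i j])
      (fun i => by simp [blockE, crossE, adjB_self])
      (flip_margins h.1 h.2.1 h.2.2.1 h.2.2.2)
  else G

/-- The hypotheses on a disjoint pair of vertex pairs. -/
def TwoPairs (P Q : Finset (Fin n)) : Prop := P.card = 2 ∧ Q.card = 2 ∧ Disjoint P Q

theorem TwoPairs.swap {P Q : Finset (Fin n)} (h : TwoPairs P Q) : TwoPairs Q P :=
  ⟨h.2.1, h.1, h.2.2.symm⟩

theorem adjB_flip {P Q : Finset (Fin n)} (h : TwoPairs P Q) (G : Omega d) (i j : Fin n) :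
    adjB (flipPQ P Q G) i j
      = if Diag P Q G ∧ blockE P Q i j = true then !adjB G i j else adjB G i j := by
  by_cases hd : Diag P Q G
  · rw [flipPQ, dif_pos ⟨h.1, h.2.1, h.2.2, hd⟩, adjB_mkOmega]
    simp [hd]
  · rw [flipPQ, dif_neg fun e => hd e.2.2.2]
    simp [hd]

theorem flipPQ_swap {P Q : Finset (Fin n)} (h : TwoPairs P Q) (G : Omega d) :
    flipPQ Q P G = flipPQ P Q G :=
  omega_ext fun i j => by simp [adjB_flip h, adjB_flip h.swap, diag_swap, blockE_swap Q P]

theorem diag_flip {P Q : Finset (Fin n)} (h : TwoPairs P Q) (G : Omega d) :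
    Diag P Q (flipPQ P Q G) ↔ Diag P Q G := by
  by_cases hd : Diag P Q G
  · refine iff_of_true ⟨fun i hi => ?_, fun j hj => ?_⟩ hd
    · refine (Finset.sum_congr rfl fun j hj => ?_).trans (sum_toNat_flip h.2.1 _ (hd.1 i hi))
      simp [adjB_flip h, hd, blockE_of_mem h.2.2 hi hj]
    · refine (Finset.sum_congr rfl fun i hi => ?_).trans (sum_toNat_flip h.1 _ (hd.2 j hj))
      simp [adjB_flip h, hd, blockE_of_mem h.2.2 hi hj]
  · rw [flipPQ, dif_neg fun e => hd e.2.2.2]

theorem flip_involutive {P Q : Finset (Fin n)} (h : TwoPairs P Q) :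
    Function.Involutive (flipPQ (d := d) P Q) := fun G => omega_ext fun i j => by
  simp only [adjB_flip h, diag_flip h]
  split_ifs <;> simp

theorem pairKey_flip {P Q : Finset (Fin n)} (h : TwoPairs P Q) (G : Omega d) :
    pairKey P (flipPQ P Q G) = pairKey P G :=
  outsideE_eq_iff.2 fun i j hF => by simp [adjB_flip h, blockE, hF]

theorem pairKey_flip' {P Q : Finset (Fin n)} (h : TwoPairs P Q) (G : Omega d) :
    pairKey Q (flipPQ P Q G) = pairKey Q G := by
  rw [← flipPQ_swap h]; exact pairKey_flip h.swap G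

theorem diag_congr {P Q : Finset (Fin n)} (h : TwoPairs P Q) {F : Fin n → Fin n → Bool}
    (hF : ∀ i j, blockE P Q i j = true → F i j = false) {G H : Omega d}
    (e : outsideE F H = outsideE F G) : Diag P Q H ↔ Diag P Q G := by
  have hb : ∀ i ∈ P, ∀ j ∈ Q, adjB H i j = adjB G i j := fun i hi j hj =>
    outsideE_eq_iff.1 e i j (hF i j (blockE_of_mem h.2.2 hi hj))
  refine and_congr (forall₂_congr fun i hi => ?_) (forall₂_congr fun j hj => ?_)
  · rw [Finset.sum_congr rfl fun j hj => by rw [hb i hi j hj]]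
  · rw [Finset.sum_congr rfl fun i hi => by rw [hb i hi j hj]]

theorem outsideE_flip {P Q : Finset (Fin n)} (h : TwoPairs P Q) {F : Fin n → Fin n → Bool}
    (hF : ∀ i j, blockE P Q i j = true → F i j = false) {G H : Omega d}
    (e : outsideE F H = outsideE F G) :
    outsideE F (flipPQ P Q H) = outsideE F (flipPQ P Q G) := by
  refine outsideE_eq_iff.2 fun i j hij => ?_
  simp [adjB_flip h, diag_congr h hF e, outsideE_eq_iff.1 e i j hij]

theorem block_not_part {P Q : Finset (Fin n)} (i j : Fin n) (h : blockE P Q i j = true) :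
    partE P Q i j = false ∧ partE Q P i j = false := by
  simp only [blockE, Bool.and_eq_true] at h
  simp [partE, h.1, h.2]

/-- The signed switch difference on the diagonal states. -/
def zdiff (P Q : Finset (Fin n)) (f : Omega d → ℝ) : Omega d → ℝ :=
  fun G => if Diag P Q G then f G - f (flipPQ P Q G) else 0

/-- The switch mean on the diagonal states. -/
def zbar (P Q : Finset (Fin n)) (f : Omega d → ℝ) : Omega d → ℝ :=
  fun G => if Diag P Q G then (f G + f (flipPQ P Q G)) / 2 else 0

theorem zdiff_swap {P Q : Finset (Fin n)} (h : TwoPairs P Q) (f : Omega d → ℝ) :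
    zdiff Q P f = zdiff P Q f := by
  funext G; simp [zdiff, diag_swap, flipPQ_swap h]

theorem zbar_swap {P Q : Finset (Fin n)} (h : TwoPairs P Q) (f : Omega d → ℝ) :
    zbar Q P f = zbar P Q f := by
  funext G; simp [zbar, diag_swap, flipPQ_swap h]

theorem avg_zdiff {P Q : Finset (Fin n)} (h : TwoPairs P Q) {F : Fin n → Fin n → Bool}
    (hF : ∀ i j, blockE P Q i j = true → F i j = false) (f : Omega d → ℝ) :
    avg (outsideE F) (zdiff P Q f) = zdiff P Q (avg (outsideE F) f) := by
  unfold zdiff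
  rw [avg_indicator (Diag P Q) (fun _ _ e => diag_congr h hF e)]
  funext G
  rw [show (fun G => f G - f (flipPQ P Q G)) = f - fun G => f (flipPQ P Q G) from rfl, map_sub,
    avg_comp_invol (flip_involutive h) (fun _ _ e => outsideE_flip h hF e)]
  rfl

theorem avg_zbar {P Q : Finset (Fin n)} (h : TwoPairs P Q) {F : Fin n → Fin n → Bool}
    (hF : ∀ i j, blockE P Q i j = true → F i j = false) (f : Omega d → ℝ) :
    avg (outsideE F) (zbar P Q f) = zbar P Q (avg (outsideE F) f) := by
  unfold zbar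
  rw [avg_indicator (Diag P Q) (fun _ _ e => diag_congr h hF e)]
  funext G
  rw [show (fun G => (f G + f (flipPQ P Q G)) / 2)
      = (1 / 2 : ℝ) • (f + fun G => f (flipPQ P Q G)) from funext fun G => by
        simp only [Pi.smul_apply, Pi.add_apply, smul_eq_mul]; ring,
    map_smul, map_add, avg_comp_invol (flip_involutive h) (fun _ _ e => outsideE_flip h hF e)]
  simp only [Pi.smul_apply, Pi.add_apply, smul_eq_mul]
  split_ifs <;> ring

theorem sum_diag_flip {P Q : Finset (Fin n)} (h : TwoPairs P Q) (φ : Omega d → ℝ) :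
    ∑ G, (if Diag P Q G then φ (flipPQ P Q G) else 0) = ∑ G, if Diag P Q G then φ G else 0 :=
  Fintype.sum_equiv (flip_involutive h).toPerm _ _ fun G => by
    simp [diag_flip h]

/-- The switch gradient is at most four times the norm. -/
theorem ip_zdiff_le {P Q : Finset (Fin n)} (h : TwoPairs P Q) (g : Omega d → ℝ) :
    ip (zdiff P Q g) (zdiff P Q g) ≤ 4 * ip g g := by
  have h1 : ip (zdiff P Q g) (zdiff P Q g)
      ≤ ∑ G, (2 * (if Diag P Q G then g G * g G else 0)
        + 2 * (if Diag P Q G then g (flipPQ P Q G) * g (flipPQ P Q G) else 0)) :=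
    Finset.sum_le_sum fun G _ => by
      simp only [zdiff]
      split_ifs
      · nlinarith [sq_nonneg (g G + g (flipPQ P Q G))]
      · simp
  rw [Finset.sum_add_distrib, ← Finset.mul_sum, ← Finset.mul_sum,
    sum_diag_flip h fun G => g G * g G] at h1
  have h2 : ∑ G, (if Diag P Q G then g G * g G else 0) ≤ ip g g := Finset.sum_le_sum fun G _ => by
    split_ifs
    · exact le_rfl
    · exact mul_self_nonneg _
  linarith

theorem sum_diag_mul {P Q : Finset (Fin n)} (h : TwoPairs P Q) (g g' : Omega d → ℝ) :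
    ∑ G, (if Diag P Q G then g G * g' G else 0)
      = 1 / 4 * ip (zdiff P Q g) (zdiff P Q g') + ip (zbar P Q g) (zbar P Q g') := by
  have e := sum_diag_flip h fun G => g G * g' G
  have : 1 / 4 * ip (zdiff P Q g) (zdiff P Q g') + ip (zbar P Q g) (zbar P Q g')
      = ∑ G, ((if Diag P Q G then g G * g' G else 0) / 2
        + (if Diag P Q G then g (flipPQ P Q G) * g' (flipPQ P Q G) else 0) / 2) := by
    simp only [ip, Finset.mul_sum, ← Finset.sum_add_distrib, zdiff, zbar]
    exact Finset.sum_congr rfl fun G _ => by split_ifs <;> ring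
  rw [this, Finset.sum_add_distrib, ← Finset.sum_div, ← Finset.sum_div, e]
  ring

/-- The number of edges between `P` and `Q`. -/
def blockCount (P Q : Finset (Fin n)) (G : Omega d) : ℕ := ∑ i ∈ P, ∑ j ∈ Q, (adjB G i j).toNat

open scoped Classical in
/-- The class map of `P`, refined to points where the block count is even. -/
def oddKey (P Q P' : Finset (Fin n)) (G : Omega d) : (Fin n → Fin n → Bool) × Option (Omega d) :=
  (pairKey P' G, if blockCount P Q G % 2 = 1 then none else some G)

theorem free_cross {P : Finset (Fin n)} {w : Fin n} (hw : w ∉ P) :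
    (univ.filter fun j => crossE P w j = true) = P := by
  ext j; by_cases h : j ∈ P <;> simp [crossE, hw, h]

/-- Realisations equal outside the slots at `P` agree on the sum into `P` from each other vertex. -/
theorem colSum_eq {P : Finset (Fin n)} {G H : Omega d} (e : pairKey P G = pairKey P H) {w : Fin n}
    (hw : w ∉ P) : ∑ i ∈ P, (adjB G i w).toNat = ∑ i ∈ P, (adjB H i w).toNat := by
  have := sum_free_eq e w
  rw [free_cross hw] at this
  simpa [adjB_comm _ w] using this

theorem blockCount_swap (P Q : Finset (Fin n)) (G : Omega d) :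
    blockCount Q P G = blockCount P Q G := by
  rw [blockCount, blockCount, Finset.sum_comm]
  exact Finset.sum_congr rfl fun i _ => Finset.sum_congr rfl fun j _ => by rw [adjB_comm]

theorem blockCount_congr {P Q : Finset (Fin n)} (h : TwoPairs P Q) {G H : Omega d}
    (e : pairKey P G = pairKey P H) : blockCount P Q G = blockCount P Q H := by
  rw [← blockCount_swap P Q G, ← blockCount_swap P Q H]
  refine Finset.sum_congr rfl fun j hj => ?_
  have := colSum_eq e (Finset.disjoint_right.1 h.2.2 hj)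
  simpa [adjB_comm _ j] using this

/-- The entry of the recombined block. -/
def blockBit (r c t : ℕ) : Bool := decide ((t + 3) / 2 ≤ r + c)

theorem blockBit_sums : ∀ r1 r2 c1 c2 : Fin 3, r1.1 + r2.1 = c1.1 + c2.1 →
    (r1.1 + r2.1) % 2 = 1 →
    (blockBit r1 c1 (r1.1 + r2.1)).toNat + (blockBit r1 c2 (r1.1 + r2.1)).toNat = r1.1 ∧
    (blockBit r1 c1 (r1.1 + r2.1)).toNat + (blockBit r2 c1 (r1.1 + r2.1)).toNat = c1.1 := by
  decide

theorem block_inj : ∀ a b c e a' b' c' e' : Bool,
    (a.toNat + b.toNat + c.toNat + e.toNat) % 2 = 1 →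
    a.toNat + b.toNat = a'.toNat + b'.toNat → c.toNat + e.toNat = c'.toNat + e'.toNat →
    a.toNat + c.toNat = a'.toNat + c'.toNat → b.toNat + e.toNat = b'.toNat + e'.toNat →
    a = a' ∧ b = b' ∧ c = c' ∧ e = e' := by decide

theorem sum_four {u v x y : Fin n} (huv : u ≠ v) (hux : u ≠ x) (huy : u ≠ y) (hvx : v ≠ x)
    (hvy : v ≠ y) (hxy : x ≠ y) (φ : Fin n → ℕ) :
    ∑ j, φ j = φ u + φ v + φ x + φ y + ∑ j ∈ ({u, v, x, y} : Finset (Fin n))ᶜ, φ j := by
  rw [← Finset.sum_add_sum_compl ({u, v, x, y} : Finset (Fin n)),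
    Finset.sum_insert (by simp [huv, hux, huy]), Finset.sum_insert (by simp [hvx, hvy]),
    Finset.sum_pair hxy]
  ring

/-- Two pair classes with an odd block recombine. -/
theorem exists_odd_recombine {P Q : Finset (Fin n)} (h : TwoPairs P Q) {X Y Z : Omega d}
    (hodd : blockCount P Q X % 2 = 1) (hY : pairKey P Y = pairKey P X)
    (hZ : pairKey Q Z = pairKey Q Y) :
    ∃ W : Omega d, pairKey Q W = pairKey Q X ∧ pairKey P Z = pairKey P W := by
  have h2 := h
  obtain ⟨hP, hQ, hPQ⟩ := h
  obtain ⟨u, v, huv, rfl⟩ := Finset.card_eq_two.1 hP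
  obtain ⟨x, y, hxy, rfl⟩ := Finset.card_eq_two.1 hQ
  simp only [Finset.disjoint_insert_left, Finset.disjoint_singleton_left, Finset.mem_insert,
    Finset.mem_singleton, not_or] at hPQ
  obtain ⟨⟨(hux : u ≠ x), (huy : u ≠ y)⟩, (hvx : v ≠ x), (hvy : v ≠ y)⟩ := hPQ
  have hcard : ∀ (G : Omega d) (i p q : Fin n), (adjB G i p).toNat + (adjB G i q).toNat < 3 :=
    fun G i p q => by cases adjB G i p <;> cases adjB G i q <;> simp
  have hTY := blockCount_congr h2 hY
  have hTZ := blockCount_congr h2.swap hZ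
  rw [blockCount_swap {u, v} {x, y}, blockCount_swap {u, v} {x, y}, hTY] at hTZ
  simp only [blockCount, Finset.sum_pair huv, Finset.sum_pair hxy] at hTZ hodd
  obtain ⟨T, hT⟩ : ∃ T, T = (adjB X u x).toNat + (adjB X u y).toNat
      + ((adjB X v x).toNat + (adjB X v y).toNat) := ⟨_, rfl⟩
  obtain ⟨r, hr⟩ : ∃ r : Fin n → ℕ, r = fun i => (adjB X i x).toNat + (adjB X i y).toNat :=
    ⟨_, rfl⟩
  obtain ⟨c, hc⟩ : ∃ c : Fin n → ℕ, c = fun j => (adjB Z u j).toNat + (adjB Z v j).toNat :=
    ⟨_, rfl⟩
  obtain ⟨A, hA⟩ : ∃ A : Fin n → Fin n → Bool, A = fun i j =>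
      if blockE {u, v} {x, y} i j then
        (if i = u ∨ i = v then blockBit (r i) (c j) T else blockBit (r j) (c i) T)
      else if crossE {x, y} i j then adjB Z i j else adjB X i j := ⟨_, rfl⟩
  have hsym : ∀ i j, A i j = A j i := fun i j => by
    simp only [hA, blockE_comm _ _ j i, crossE_comm _ j i, adjB_comm Z j i, adjB_comm X j i]
    by_cases hb : blockE {u, v} {x, y} i j = true
    · simp only [hb, if_true]
      have hb' := hb
      simp [blockE, crossE] at hb'
      by_cases hi : i = u ∨ i = v <;> by_cases hj : j = u ∨ j = v <;> simp [hi, hj]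
      · rcases hi with rfl | rfl <;> rcases hj with rfl | rfl <;> simp at hb'
      · simp only [not_or] at hi hj
        simp [hi.1, hi.2, hj.1, hj.2] at hb'
    · simp [hb]
  have b1 := blockBit_sums ⟨r u, by rw [hr]; exact hcard X u x y⟩
    ⟨r v, by rw [hr]; exact hcard X v x y⟩
    ⟨c x, by simp only [hc, adjB_comm Z _ x]; exact hcard Z x u v⟩
    ⟨c y, by simp only [hc, adjB_comm Z _ y]; exact hcard Z y u v⟩
    (by simp only [hr, hc]; omega) (by simp only [hr]; omega)
  have b2 := blockBit_sums ⟨r v, by rw [hr]; exact hcard X v x y⟩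
    ⟨r u, by rw [hr]; exact hcard X u x y⟩
    ⟨c y, by simp only [hc, adjB_comm Z _ y]; exact hcard Z y u v⟩
    ⟨c x, by simp only [hc, adjB_comm Z _ x]; exact hcard Z x u v⟩
    (by simp only [hr, hc]; omega) (by simp only [hr]; omega)
  simp only at b1 b2
  rw [show r v + r u = T by simp only [hT, hr]; omega] at b2
  rw [show r u + r v = T by simp only [hT, hr]] at b1
  have hcomp : ∀ j ∈ ({u, v, x, y} : Finset (Fin n))ᶜ, j ≠ u ∧ j ≠ v ∧ j ≠ x ∧ j ≠ y :=
    fun j hj => by simpa [not_or] using hj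
  refine ⟨mkOmega A hsym (fun i => by simp [hA, blockE, crossE, adjB_self]) (fun i => ?_),
    outsideE_eq_iff.2 fun i j hF => ?_, outsideE_eq_iff.2 fun i j hF => ?_⟩
  · have e1 := sum_four huv hux huy hvx hvy hxy fun j => (A i j).toNat
    rw [e1]
    simp only [hA]
    by_cases hiu : i = u
    · subst hiu
      have := sum_adjB X i
      rw [sum_four huv hux huy hvx hvy hxy] at this
      rw [Finset.sum_congr rfl (g := fun j => (adjB X i j).toNat) fun j hj => by
        obtain ⟨a1, a2, a3, a4⟩ := hcomp j hj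
        simp [blockE, crossE, a1, a2, a3, a4, hux, huy, huv] ]
      simp [blockE, crossE, hr, huv, hux, huy, hvx, hvy, huv.symm, hux.symm, huy.symm, hvx.symm,
        hvy.symm, adjB_self] at this b1 ⊢
      omega
    by_cases hiv : i = v
    · subst hiv
      have := sum_adjB X i
      rw [sum_four huv hux huy hvx hvy hxy] at this
      rw [Finset.sum_congr rfl (g := fun j => (adjB X i j).toNat) fun j hj => by
        obtain ⟨a1, a2, a3, a4⟩ := hcomp j hj
        simp [blockE, crossE, a1, a2, a3, a4, hvx, hvy, huv.symm] ]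
      simp [blockE, crossE, hr, huv, hux, huy, hvx, hvy, huv.symm, hux.symm, huy.symm, hvx.symm,
        hvy.symm, adjB_self] at this b2 ⊢
      omega
    have hXYuv : outsideE (crossE {u, v}) Y = outsideE (crossE {u, v}) X := hY
    have hYZxy : outsideE (crossE {x, y}) Z = outsideE (crossE {x, y}) Y := hZ
    by_cases hix : i = x
    · subst hix
      have := sum_adjB Z i
      rw [sum_four huv hux huy hvx hvy hxy] at this
      have exy : adjB X i y = adjB Z i y := by
        rw [outsideE_eq_iff.1 hYZxy i y (by simp [crossE, hxy]),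
          outsideE_eq_iff.1 hXYuv i y (by simp [crossE, hux.symm, huy.symm, hvx.symm, hvy.symm])]
      rw [Finset.sum_congr rfl (g := fun j => (adjB Z i j).toNat) fun j hj => by
        obtain ⟨a1, a2, a3, a4⟩ := hcomp j hj
        simp [blockE, crossE, a1, a2, a3, a4, hiu, hiv] ]
      simp [blockE, crossE, hc, huv, hux, huy, hvx, hvy, huv.symm, hux.symm, huy.symm, hvx.symm,
        hvy.symm, hxy, hxy.symm, adjB_self, exy, adjB_comm Z i u, adjB_comm Z i v] at this b1 ⊢
      omega
    by_cases hiy : i = y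
    · subst hiy
      have := sum_adjB Z i
      rw [sum_four huv hux huy hvx hvy hxy] at this
      have exy : adjB X i x = adjB Z i x := by
        rw [outsideE_eq_iff.1 hYZxy i x (by simp [crossE, hxy, hxy.symm]),
          outsideE_eq_iff.1 hXYuv i x (by simp [crossE, hux.symm, huy.symm, hvx.symm, hvy.symm])]
      rw [Finset.sum_congr rfl (g := fun j => (adjB Z i j).toNat) fun j hj => by
        obtain ⟨a1, a2, a3, a4⟩ := hcomp j hj
        simp [blockE, crossE, a1, a2, a3, a4, hiu, hiv] ]
      simp [blockE, crossE, hc, huv, hux, huy, hvx, hvy, huv.symm, hux.symm, huy.symm, hvx.symm,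
        hvy.symm, hxy, hxy.symm, adjB_self, exy, adjB_comm Z i u, adjB_comm Z i v] at this b2 ⊢
      omega
    have := sum_adjB X i
    rw [sum_four huv hux huy hvx hvy hxy] at this
    have hzx := colSum_eq (P := {x, y}) hZ (w := i) (by simp [hix, hiy])
    rw [Finset.sum_pair hxy, Finset.sum_pair hxy,
      outsideE_eq_iff.1 hXYuv x i (by simp [crossE, hiu, hiv, hux.symm, hvx.symm]),
      outsideE_eq_iff.1 hXYuv y i (by simp [crossE, hiu, hiv, huy.symm, hvy.symm]),
      adjB_comm Z x i, adjB_comm Z y i, adjB_comm X x i, adjB_comm X y i] at hzx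
    rw [Finset.sum_congr rfl (g := fun j => (adjB X i j).toNat) fun j hj => by
      obtain ⟨a1, a2, a3, a4⟩ := hcomp j hj
      simp [blockE, crossE, a1, a2, a3, a4, hiu, hiv, hix, hiy] ]
    simp [blockE, crossE, hiu, hiv, hix, hiy, hux, huy, hvx, hvy, hux.symm, huy.symm, hvx.symm,
      hvy.symm] at this ⊢
    omega
  · simp [adjB_mkOmega, hA, blockE, hF]
  · simp only [adjB_mkOmega, hA, blockE, hF, Bool.false_and, Bool.false_eq_true, if_false]
    cases hF' : crossE {x, y} i j
    · simp only [Bool.false_eq_true, if_false]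
      rw [outsideE_eq_iff.1 hZ i j hF', outsideE_eq_iff.1 hY i j hF]
    · simp

open scoped Classical in
theorem oddKey_eq_iff {P Q P' : Finset (Fin n)} {G H : Omega d} :
    oddKey P Q P' G = oddKey P Q P' H ↔ pairKey P' G = pairKey P' H ∧
      ((blockCount P Q G % 2 = 1 ∧ blockCount P Q H % 2 = 1) ∨
        (blockCount P Q G % 2 ≠ 1 ∧ blockCount P Q H % 2 ≠ 1 ∧ G = H)) := by
  by_cases h1 : blockCount P Q G % 2 = 1 <;> by_cases h2 : blockCount P Q H % 2 = 1 <;>
    simp [oddKey, h1, h2]

open scoped Classical in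
theorem odd_comm {P Q : Finset (Fin n)} (h : TwoPairs P Q) (f : Omega d → ℝ) :
    avg (oddKey P Q P) (avg (oddKey P Q Q) f) = avg (oddKey P Q Q) (avg (oddKey P Q P) f) := by
  refine avg_comm ?_ ?_ ?_ f
  · intro G H h1 h2
    obtain ⟨e1, ho⟩ := oddKey_eq_iff.1 h1
    obtain ⟨e2, -⟩ := oddKey_eq_iff.1 h2
    rcases ho with ⟨ho, -⟩ | ⟨-, -, rfl⟩
    swap
    · rfl
    obtain ⟨u, v, huv, hP⟩ := Finset.card_eq_two.1 h.1
    obtain ⟨x, y, hxy, hQ⟩ := Finset.card_eq_two.1 h.2.1
    have a := colSum_eq e1 (Finset.disjoint_right.1 h.2.2 (show x ∈ Q by simp [hQ]))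
    have b := colSum_eq e1 (Finset.disjoint_right.1 h.2.2 (show y ∈ Q by simp [hQ]))
    have c := colSum_eq e2 (Finset.disjoint_left.1 h.2.2 (show u ∈ P by simp [hP]))
    have e := colSum_eq e2 (Finset.disjoint_left.1 h.2.2 (show v ∈ P by simp [hP]))
    simp only [hP, hQ, Finset.sum_pair huv, Finset.sum_pair hxy, blockCount] at a b c e ho
    rw [adjB_comm G x u, adjB_comm G y u, adjB_comm H x u, adjB_comm H y u] at c
    rw [adjB_comm G x v, adjB_comm G y v, adjB_comm H x v, adjB_comm H y v] at e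
    obtain ⟨k1, k2, k3, k4⟩ := block_inj _ _ _ _ _ _ _ _ (by omega :
      ((adjB G u x).toNat + (adjB G u y).toNat + (adjB G v x).toNat + (adjB G v y).toNat) % 2 = 1)
      c e a b
    refine omega_ext fun i j => ?_
    cases hp : crossE P i j
    · exact outsideE_eq_iff.1 e1 i j hp
    cases hq : crossE Q i j
    · exact outsideE_eq_iff.1 e2 i j hq
    have : (i ∈ P ∧ j ∈ Q) ∨ (j ∈ P ∧ i ∈ Q) := by
      by_cases p1 : i ∈ P <;> by_cases p2 : j ∈ P <;> by_cases q1 : i ∈ Q <;>
        by_cases q2 : j ∈ Q <;> simp [crossE, p1, p2, q1, q2] at hp hq ⊢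
      all_goals first
        | exact absurd q1 (Finset.disjoint_left.1 h.2.2 p1)
        | exact absurd q2 (Finset.disjoint_left.1 h.2.2 p2)
    simp only [hP, hQ, Finset.mem_insert, Finset.mem_singleton] at this
    rcases this with ⟨rfl | rfl, rfl | rfl⟩ | ⟨rfl | rfl, rfl | rfl⟩
    all_goals first
      | assumption
      | (rw [adjB_comm G, adjB_comm H]; assumption)
  · intro X Y Z h1 h2
    obtain ⟨e1, ho⟩ := oddKey_eq_iff.1 h1
    obtain ⟨e2, ho'⟩ := oddKey_eq_iff.1 h2
    rcases ho with ⟨hoY, hoX⟩ | ⟨-, -, rfl⟩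
    swap
    · exact ⟨Z, h2, rfl⟩
    obtain ⟨W, hWQ, hWP⟩ := exists_odd_recombine h hoX e1 e2
    have hoW : blockCount P Q W % 2 = 1 := by
      rw [← blockCount_swap, blockCount_congr h.swap hWQ, blockCount_swap]; exact hoX
    refine ⟨W, oddKey_eq_iff.2 ⟨hWQ, Or.inl ⟨hoW, hoX⟩⟩, oddKey_eq_iff.2 ⟨hWP, Or.inl ⟨?_, hoW⟩⟩⟩
    rw [blockCount_congr h hWP]; exact hoW
  · intro X Y Z h1 h2
    obtain ⟨e1, ho⟩ := oddKey_eq_iff.1 h1
    obtain ⟨e2, ho'⟩ := oddKey_eq_iff.1 h2
    rcases ho with ⟨hoY, hoX⟩ | ⟨-, -, rfl⟩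
    swap
    · exact ⟨Z, h2, rfl⟩
    obtain ⟨W, hWP, hWQ⟩ := exists_odd_recombine h.swap (by rw [blockCount_swap]; exact hoX) e1 e2
    have hoW : blockCount P Q W % 2 = 1 := by
      rw [blockCount_congr h hWP]; exact hoX
    refine ⟨W, oddKey_eq_iff.2 ⟨hWP, Or.inl ⟨hoW, hoX⟩⟩, oddKey_eq_iff.2 ⟨hWQ, Or.inl ⟨?_, hoW⟩⟩⟩
    rw [← blockCount_swap, blockCount_congr h.swap hWQ, blockCount_swap]; exact hoW

/-- Where the block is neither odd nor diagonal, one of the two complements vanishes. -/
theorem mul_eq_zero_of_even {P Q : Finset (Fin n)} (h : TwoPairs P Q) {g : Omega d → ℝ}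
    (hgP : ∀ G H, partKey P Q H = partKey P Q G → g H = g G)
    (hgQ : ∀ G H, partKey Q P H = partKey Q P G → g H = g G) {G : Omega d}
    (ho : blockCount P Q G % 2 ≠ 1) (hd : ¬Diag P Q G) :
    gdev P g G * gdev Q g G = 0 := by
  -- a class map all of whose block entries are forced sees a constant function
  have key : ∀ P Q : Finset (Fin n), TwoPairs P Q →
      (∀ G H : Omega d, partKey P Q H = partKey P Q G → g H = g G) →
      (∀ j ∈ Q, ∑ i ∈ P, (adjB G i j).toNat ≠ 1) → gdev P g G = 0 := by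
    intro P Q h hgP hc
    have hall : ∀ H ∈ cls (pairKey P) G, g H = g G := by
      intro H hH
      refine hgP G H (outsideE_eq_iff.2 fun i j hij => ?_)
      cases hp : crossE P i j
      · exact outsideE_eq_iff.1 (mem_cls.1 hH) i j hp
      obtain ⟨u, v, huv, hP⟩ := Finset.card_eq_two.1 h.1
      have hq : crossE Q i j = true := by simpa [partE, hp] using hij
      have pq : ∀ a ∈ P, ∀ b ∈ Q, adjB H a b = adjB G a b := fun a ha b hb => by
        have e := colSum_eq (mem_cls.1 hH) (Finset.disjoint_right.1 h.2.2 hb)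
        have hne := hc b hb
        simp only [hP, Finset.sum_pair huv] at e hne
        simp only [hP, Finset.mem_insert, Finset.mem_singleton] at ha
        revert e hne
        rcases ha with rfl | rfl <;>
          cases adjB H a b <;> cases adjB G a b <;> simp <;>
          first
            | (cases adjB H v b <;> cases adjB G v b <;> simp)
            | (cases adjB H u b <;> cases adjB G u b <;> simp)
      by_cases p1 : i ∈ P
      · have : j ∈ Q := by simpa [crossE, Finset.disjoint_left.1 h.2.2 p1] using hq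
        exact pq i p1 j this
      · have p2 : j ∈ P := by simpa [crossE, p1] using hp
        have : i ∈ Q := by simpa [crossE, Finset.disjoint_left.1 h.2.2 p2] using hq
        rw [adjB_comm H, adjB_comm G]; exact pq j p2 i this
    rw [gdev, dev_apply, Pi.sub_apply, avg_apply, Finset.sum_congr rfl hall, Finset.sum_const,
      nsmul_eq_mul, mul_div_cancel_left₀ _ (card_cls_pos _ G).ne', sub_self]
  obtain ⟨u, v, huv, hP⟩ := Finset.card_eq_two.1 h.1
  obtain ⟨x, y, hxy, hQ⟩ := Finset.card_eq_two.1 h.2.1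
  by_cases h1 : ∀ j ∈ Q, ∑ i ∈ P, (adjB G i j).toNat ≠ 1
  · rw [key P Q h hgP h1, zero_mul]
  by_cases h2 : ∀ i ∈ P, ∑ j ∈ Q, (adjB G j i).toNat ≠ 1
  · rw [key Q P h.swap hgQ h2, mul_zero]
  exfalso
  simp only [hP, hQ, Finset.forall_mem_insert, Finset.mem_singleton, forall_eq, Finset.sum_pair huv,
    Finset.sum_pair hxy, Diag, blockCount, adjB_comm G x, adjB_comm G y] at h1 h2 ho hd
  revert h1 h2 ho hd
  cases adjB G u x <;> cases adjB G u y <;> cases adjB G v x <;> cases adjB G v y <;> simp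

open scoped Classical in
theorem dev_oddKey {P Q P' : Finset (Fin n)}
    (hcong : ∀ G H : Omega d, pairKey P' G = pairKey P' H → blockCount P Q G = blockCount P Q H)
    (g : Omega d → ℝ) (G : Omega d) :
    dev (oddKey P Q P') g G = if blockCount P Q G % 2 = 1 then gdev P' g G else 0 := by
  split_ifs with ho
  · rw [gdev, dev_apply, dev_apply, Pi.sub_apply, Pi.sub_apply, avg_apply, avg_apply]
    have : cls (oddKey P Q P') G = cls (pairKey P') G := by
      ext H
      simp only [mem_cls, oddKey_eq_iff]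
      exact ⟨fun e => e.1, fun e => ⟨e, Or.inl ⟨by rw [hcong H G e]; exact ho, ho⟩⟩⟩
    rw [this]
  · rw [dev_apply, Pi.sub_apply, avg_apply]
    have : cls (oddKey P Q P') G = {G} := by
      ext H
      simp only [mem_cls, oddKey_eq_iff, Finset.mem_singleton]
      refine ⟨fun e => ?_, fun e => by subst e; exact ⟨rfl, Or.inr ⟨ho, ho, rfl⟩⟩⟩
      rcases e.2 with ⟨-, h⟩ | ⟨-, -, h⟩
      exacts [absurd h ho, h]
    simp [this]

open scoped Classical in
/-- On functions fixed by both partial averages only the diagonal states can count negatively. -/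
theorem diag_part_le {P Q : Finset (Fin n)} (h : TwoPairs P Q) {g : Omega d → ℝ}
    (hgP : ∀ G H, partKey P Q H = partKey P Q G → g H = g G)
    (hgQ : ∀ G H, partKey Q P H = partKey Q P G → g H = g G) :
    ∑ G, (if Diag P Q G then gdev P g G * gdev Q g G else 0) ≤ ip (gdev P g) (gdev Q g) := by
  have ho : 0 ≤ ip (dev (oddKey P Q P) g) (dev (oddKey P Q Q) g) :=
    ip_dev_dev_nonneg (odd_comm h) g
  have hcQ : ∀ G H : Omega d, pairKey Q G = pairKey Q H → blockCount P Q G = blockCount P Q H :=
    fun G H e => by rw [← blockCount_swap, blockCount_congr h.swap e, blockCount_swap]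
  simp only [ip, dev_oddKey (fun G H e => blockCount_congr h e) g, dev_oddKey hcQ g] at ho
  have hpt : ∀ G, gdev P g G * gdev Q g G = (if Diag P Q G then gdev P g G * gdev Q g G else 0)
      + ((if blockCount P Q G % 2 = 1 then gdev P g G else 0)
        * (if blockCount P Q G % 2 = 1 then gdev Q g G else 0)) := by
    intro G
    by_cases hd : Diag P Q G
    · have : blockCount P Q G % 2 ≠ 1 := by
        rw [blockCount, Finset.sum_congr rfl hd.1, Finset.sum_const, h.1]; norm_num
      simp [hd, this]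
    by_cases ho : blockCount P Q G % 2 = 1
    · simp [hd, ho]
    · simp [hd, ho, mul_eq_zero_of_even h hgP hgQ ho hd]
  rw [show ip (gdev P g) (gdev Q g) = ∑ G, gdev P g G * gdev Q g G from rfl,
    Finset.sum_congr rfl fun G _ => hpt G, Finset.sum_add_distrib]
  exact le_add_of_nonneg_right ho

theorem avg_gdev_comm {κ : Type*} [DecidableEq κ] {key : Omega d → κ} {P : Finset (Fin n)}
    (hc : ∀ f, avg key (avg (pairKey P) f) = avg (pairKey P) (avg key f)) (f : Omega d → ℝ) :
    avg key (gdev P f) = gdev P (avg key f) := by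
  rw [gdev, dev_apply, dev_apply, map_sub, hc]

theorem zdiff_gdev {P Q : Finset (Fin n)} (h : TwoPairs P Q) (g : Omega d → ℝ) :
    zdiff P Q (gdev P g) = zdiff P Q g := by
  funext G
  simp only [zdiff, gdev, dev_apply, Pi.sub_apply, avg_congr _ g (pairKey_flip h G)]
  split_ifs <;> ring

theorem zdiff_gdev' {P Q : Finset (Fin n)} (h : TwoPairs P Q) (g : Omega d → ℝ) :
    zdiff P Q (gdev Q g) = zdiff P Q g := by
  rw [← zdiff_swap h, zdiff_gdev h.swap, zdiff_swap h]

/-- The lower bound for two disjoint pairs. -/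
theorem disjoint_bound {P Q : Finset (Fin n)} (h : TwoPairs P Q) (f : Omega d → ℝ) :
    1 / 4 * ip (zdiff P Q f) (zdiff P Q f)
      - 1 / 2 * ip (avg (partKey P Q) (zbar P Q (gdev P f)))
          (avg (partKey P Q) (zbar P Q (gdev P f)))
      - 1 / 2 * ip (avg (partKey Q P) (zbar Q P (gdev Q f)))
          (avg (partKey Q P) (zbar Q P (gdev Q f)))
      ≤ ip (gdev P f) (gdev Q f) := by
  obtain ⟨A, hA⟩ : ∃ A : (Omega d → ℝ) →ₗ[ℝ] Omega d → ℝ, A = avg (partKey P Q) := ⟨_, rfl⟩
  obtain ⟨B, hB⟩ : ∃ B : (Omega d → ℝ) →ₗ[ℝ] Omega d → ℝ, B = avg (partKey Q P) := ⟨_, rfl⟩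
  rw [← hA, ← hB]
  have fineP : ∀ i j, partE P Q i j = true → crossE P i j = true := fun i j h => by
    simp only [partE, Bool.and_eq_true] at h; exact h.1
  have fineQ : ∀ i j, partE Q P i j = true → crossE Q i j = true := fun i j h => by
    simp only [partE, Bool.and_eq_true] at h; exact h.1
  have dPQ : ∀ i j, partE P Q i j = true → crossE Q i j = false := fun i j h => by
    simpa [partE] using (by simpa [partE] using h : crossE P i j = true ∧ crossE Q i j = false).2
  have dQP : ∀ i j, partE Q P i j = true → crossE P i j = false := fun i j h => by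
    simpa [partE] using (by simpa [partE] using h : crossE Q i j = true ∧ crossE P i j = false).2
  have dAB : ∀ i j, partE P Q i j = true → partE Q P i j = false := fun i j h => by
    simp [partE, dPQ i j h]
  have hAP : ∀ g, A (gdev P g) = gdev P (A g) := fun g => by
    rw [hA]
    exact avg_gdev_comm (avg_fine_comm fun x y e => outsideE_mono fineP e) g
  have hAQ : ∀ g, A (gdev Q g) = gdev Q (A g) := fun g => by
    rw [hA]
    exact avg_gdev_comm (avg_slots_comm (partE_comm P Q) (crossE_comm Q) dPQ) g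
  have hBP : ∀ g, B (gdev P g) = gdev P (B g) := fun g => by
    rw [hB]
    exact avg_gdev_comm (avg_slots_comm (partE_comm Q P) (crossE_comm P) dQP) g
  have hBQ : ∀ g, B (gdev Q g) = gdev Q (B g) := fun g => by
    rw [hB]
    exact avg_gdev_comm (avg_fine_comm fun x y e => outsideE_mono fineQ e) g
  have hAB : ∀ g, A (B g) = B (A g) := fun g => by
    rw [hA, hB]; exact avg_slots_comm (partE_comm P Q) (partE_comm Q P) dAB g
  have hAA : ∀ g, A (A g) = A g := fun g => by rw [hA, avg_avg]
  have hBB : ∀ g, B (B g) = B g := fun g => by rw [hB, avg_avg]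
  have hAd : ∀ g, A (zdiff P Q g) = zdiff P Q (A g) := fun g => by
    rw [hA]; exact avg_zdiff h (fun i j e => (block_not_part i j e).1) g
  have hAm : ∀ g, A (zbar P Q g) = zbar P Q (A g) := fun g => by
    rw [hA]; exact avg_zbar h (fun i j e => (block_not_part i j e).1) g
  have hBd : ∀ g, B (zdiff P Q g) = zdiff P Q (B g) := fun g => by
    rw [hB]; exact avg_zdiff h (fun i j e => (block_not_part i j e).2) g
  have hBm : ∀ g, B (zbar P Q g) = zbar P Q (B g) := fun g => by
    rw [hB]; exact avg_zbar h (fun i j e => (block_not_part i j e).2) g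
  have ipA : ∀ g g', ip (A g) g' = ip g (A g') := fun g g' => by rw [hA, ip_avg]
  have ipB : ∀ g g', ip (B g) g' = ip g (B g') := fun g g' => by rw [hB, ip_avg]
  have pythA : ∀ g, ip g g = ip (A g) (A g) + ip (g - A g) (g - A g) := fun g => by
    rw [hA]; exact ip_eq_avg_add_dev _ g
  have pythB : ∀ g, ip g g = ip (B g) (B g) + ip (g - B g) (g - B g) := fun g => by
    rw [hB]; exact ip_eq_avg_add_dev _ g
  -- functions killed by a partial average are fixed by the complement of its pair
  have killA : ∀ g, A g = 0 → gdev P g = g := fun g hg => by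
    rw [gdev, dev_apply, ← avg_avg_fine (r := partKey P Q) (s := pairKey P)
      (fun x y e => outsideE_mono fineP e) g, ← hA, hg, map_zero, sub_zero]
  have killB : ∀ g, B g = 0 → gdev Q g = g := fun g hg => by
    rw [gdev, dev_apply, ← avg_avg_fine (r := partKey Q P) (s := pairKey Q)
      (fun x y e => outsideE_mono fineQ e) g, ← hB, hg, map_zero, sub_zero]
  obtain ⟨φ, hφ⟩ : ∃ φ, φ = f - A f := ⟨_, rfl⟩
  obtain ⟨χ, hχ⟩ : ∃ χ, χ = A f - B (A f) := ⟨_, rfl⟩
  obtain ⟨ψ, hψ⟩ : ∃ ψ, ψ = B (A f) := ⟨_, rfl⟩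
  have hAφ : A φ = 0 := by rw [hφ, map_sub, hAA, sub_self]
  have hBχ : B χ = 0 := by rw [hχ, map_sub, hBB, sub_self]
  have hAψ : A ψ = ψ := by rw [hψ, hAB, hAA]
  have hBψ : B ψ = ψ := by rw [hψ, hBB]
  have hAχ : A χ = χ := by rw [hχ, map_sub, hAA, hAB, hAA]
  -- the three orthogonal parts
  have x1 : ∀ a, A a = a → ip (gdev P φ) (gdev Q a) = 0 := fun a ha => by
    rw [← ha, ← hAQ, ← ipA, hAP, hAφ, map_zero]; simp [ip]
  have x1' : ∀ a, A a = a → ip (gdev P a) (gdev Q φ) = 0 := fun a ha => by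
    rw [← ha, ← hAP, ipA, hAQ, hAφ, map_zero]; simp [ip]
  have split : ip (gdev P f) (gdev Q f) = ip (gdev P ψ) (gdev Q ψ)
      + ip (gdev P χ) (gdev P χ) + ip (gdev Q φ) (gdev Q φ) := by
    have ef : f = φ + (χ + ψ) := by rw [hφ, hχ, hψ]; abel
    have c1 : ip (gdev P χ) (gdev Q ψ) = 0 := by
      rw [← hBψ, ← hBQ, ← ipB, hBP, hBχ, map_zero]; simp [ip]
    have c2 : ip (gdev P ψ) (gdev Q χ) = 0 := by
      rw [← hBψ, ← hBP, ipB, hBQ, hBχ, map_zero]; simp [ip]
    have c3 : ip (gdev P χ) (gdev Q χ) = ip (gdev P χ) (gdev P χ) := by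
      rw [killB χ hBχ, gdev, ip_comm, ip_dev_self]
    have c4 : ip (gdev P φ) (gdev Q φ) = ip (gdev Q φ) (gdev Q φ) := by
      rw [killA φ hAφ, gdev, ip_dev_self]
    rw [ef]
    simp only [map_add, ip_add_left, ip_add_right, c1, c2, c3, c4, x1 χ hAχ, x1 ψ hAψ, x1' χ hAχ,
      x1' ψ hAψ]
    ring
  -- the switch gradients of the parts
  have g1 := ip_zdiff_le h (gdev Q φ)
  rw [zdiff_gdev' h] at g1
  have g2 := ip_zdiff_le h (gdev P χ)
  rw [zdiff_gdev h] at g2
  have hsum : ip (zdiff P Q f) (zdiff P Q f) = ip (zdiff P Q ψ) (zdiff P Q ψ)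
      + ip (zdiff P Q χ) (zdiff P Q χ) + ip (zdiff P Q φ) (zdiff P Q φ) := by
    have e1 : ∀ a b : Omega d → ℝ, zdiff P Q (a - b) = zdiff P Q a - zdiff P Q b := fun a b => by
      funext G; simp only [zdiff, Pi.sub_apply]; split_ifs <;> ring
    have p1 := pythA (zdiff P Q f)
    rw [hAd, ← e1, ← hφ] at p1
    have p2 := pythB (zdiff P Q (A f))
    rw [hBd, ← e1, ← hχ, ← hψ] at p2
    linarith
  -- the diagonal states of the common part
  have hd := diag_part_le h (g := ψ)
    (fun G H e => by rw [← hAψ, hA]; exact avg_congr _ _ e)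
    (fun G H e => by rw [← hBψ, hB]; exact avg_congr _ _ e)
  rw [sum_diag_mul h, zdiff_gdev h, zdiff_gdev' h] at hd
  have amgm : -(1 / 2 * ip (zbar P Q (gdev P ψ)) (zbar P Q (gdev P ψ)))
      - 1 / 2 * ip (zbar P Q (gdev Q ψ)) (zbar P Q (gdev Q ψ))
      ≤ ip (zbar P Q (gdev P ψ)) (zbar P Q (gdev Q ψ)) := by
    have h0 := ip_self_nonneg (zbar P Q (gdev P ψ) + zbar P Q (gdev Q ψ))
    simp only [ip_add_left, ip_add_right] at h0
    rw [ip_comm (zbar P Q (gdev Q ψ)) (zbar P Q (gdev P ψ))] at h0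
    linarith
  have jP : ip (zbar P Q (gdev P ψ)) (zbar P Q (gdev P ψ))
      ≤ ip (A (zbar P Q (gdev P f))) (A (zbar P Q (gdev P f))) := by
    rw [hψ, ← hBP, ← hBm, ← hAP, ← hAm, hB]
    exact ip_avg_self_le _ _
  have jQ : ip (zbar P Q (gdev Q ψ)) (zbar P Q (gdev Q ψ))
      ≤ ip (B (zbar Q P (gdev Q f))) (B (zbar Q P (gdev Q f))) := by
    rw [hψ, ← hAB, ← hAQ, ← hAm, ← hBQ, ← hBm, zbar_swap h, hA]
    exact ip_avg_self_le _ _
  rw [split]
  linarith

end Vale.P335
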