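import Vale.Agent.P335.Triple

/-!
# The gap of the switch chain on zero-one tables

For every margins the switch Laplacian has gap four in ordered column pairs: the pair complements
satisfy `H ≤ H ^ 2`, the tables are connected, and each pair class has gap four by the same
oscillation argument.
-/

noncomputable section

set_option linter.unusedSectionVars false

namespace Vale.P335

open Finset

variable {R C : Type*} [Fintype R] [Fintype C] [DecidableEq R] [DecidableEq C]
variable {r : R → ℕ} {s : C → ℕ}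

/-- The pair complements: the off-diagonal pairs contribute nonnegatively. -/
theorem pairs_le_sq (f : Table r s → ℝ) :
    ∑ p ∈ (univ : Finset R).powersetCard 2, ip f (dev (outside p) f)
      ≤ ∑ p ∈ (univ : Finset R).powersetCard 2, ∑ q ∈ (univ : Finset R).powersetCard 2,
          ip (dev (outside p) f) (dev (outside q) f) := by
  obtain ⟨P, hP⟩ : ∃ P, P = (univ : Finset R).powersetCard 2 := ⟨_, rfl⟩
  obtain ⟨v, hv⟩ : ∃ v : Finset R → Finset R → ℝ,
      v = fun p q => ip (dev (outside p) f) (dev (outside q) f) := ⟨_, rfl⟩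
  have hsplit : ∀ S : Finset (Finset R), ∑ p ∈ S, ∑ q ∈ S, v p q
      = ∑ p ∈ S, ip f (dev (outside p) f) + ∑ pq ∈ S.offDiag, v pq.1 pq.2 := fun S => by
    rw [← Finset.sum_product', ← Finset.diag_union_offDiag,
      Finset.sum_union (Finset.disjoint_diag_offDiag S), Finset.sum_diag]
    simp only [hv, ip_dev_self]
  rw [← hP]
  have := hsplit P
  simp only [hv] at this ⊢
  rw [this]
  simp only [le_add_iff_nonneg_right]
  rw [← Finset.sum_filter_add_sum_filter_not P.offDiag fun pq => Disjoint pq.1 pq.2]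
  refine add_nonneg (Finset.sum_nonneg fun pq h => ?_) ?_
  · exact ip_dev_dev_nonneg (avg_outside_comm (Finset.mem_filter.1 h).2) f
  have hcard : ∀ pq ∈ P.offDiag.filter fun pq => ¬Disjoint pq.1 pq.2,
      pq.1 ∪ pq.2 ∈ (univ : Finset R).powersetCard 3 := by
    intro pq h
    simp only [Finset.mem_filter, Finset.mem_offDiag, hP, Finset.mem_powersetCard] at h
    obtain ⟨⟨⟨-, h1⟩, ⟨-, h2⟩, hne⟩, hnd⟩ := h
    refine Finset.mem_powersetCard.2 ⟨Finset.subset_univ _, ?_⟩
    have := Finset.card_union_add_card_inter pq.1 pq.2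
    have hpos : 0 < (pq.1 ∩ pq.2).card :=
      Finset.card_pos.2 (Finset.not_disjoint_iff_nonempty_inter.1 hnd)
    have hlt : (pq.1 ∩ pq.2).card < 2 := by
      by_contra hge
      push Not at hge
      have a := Finset.eq_of_subset_of_card_le (Finset.inter_subset_left (s₁ := pq.1) (s₂ := pq.2))
        (by omega)
      have b := Finset.eq_of_subset_of_card_le (Finset.inter_subset_right (s₁ := pq.1) (s₂ := pq.2))
        (by omega)
      exact hne (a.symm.trans b)
    omega
  rw [← Finset.sum_fiberwise_of_maps_to hcard]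
  refine Finset.sum_nonneg fun T hT => ?_
  have hT3 : T.card = 3 := (Finset.mem_powersetCard.1 hT).2
  have key : ∑ pq ∈ (P.offDiag.filter fun pq => ¬Disjoint pq.1 pq.2) with pq.1 ∪ pq.2 = T,
      ip (dev (outside pq.1) f) (dev (outside pq.2) f)
      = ∑ kj ∈ T.offDiag, ip (dev (outside (T.erase kj.1)) f) (dev (outside (T.erase kj.2)) f) := by
    symm
    refine Finset.sum_bij (fun kj _ => (T.erase kj.1, T.erase kj.2)) ?_ ?_ ?_ fun _ _ => rfl
    · rintro ⟨k, j⟩ h
      simp only [Finset.mem_offDiag] at h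
      obtain ⟨hk, hj, hkj⟩ := h
      simp only [Finset.mem_filter, Finset.mem_offDiag, hP, Finset.mem_powersetCard,
        Finset.card_erase_of_mem hk, Finset.card_erase_of_mem hj, hT3, Finset.subset_univ,
        true_and]
      refine ⟨⟨fun e => hkj ?_, ?_⟩, ?_⟩
      · exact (Finset.erase_injOn T) hk hj e
      · rw [Finset.not_disjoint_iff_nonempty_inter, ← Finset.card_pos]
        have := Finset.card_union_add_card_inter (T.erase k) (T.erase j)
        have := Finset.card_le_card (Finset.union_subset (Finset.erase_subset k T)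
          (Finset.erase_subset j T))
        rw [Finset.card_erase_of_mem hk, Finset.card_erase_of_mem hj, hT3] at *
        omega
      · ext i
        simp only [Finset.mem_union, Finset.mem_erase]
        grind
    · intro a ha b hb e
      simp only [Finset.mem_offDiag] at ha hb
      simp only [Prod.mk.injEq] at e
      exact Prod.ext (Finset.erase_injOn T ha.1 hb.1 e.1) (Finset.erase_injOn T ha.2.1 hb.2.1 e.2)
    · rintro ⟨p, q⟩ h
      simp only [Finset.mem_filter, Finset.mem_offDiag, hP, Finset.mem_powersetCard] at h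
      obtain ⟨⟨⟨⟨-, hp⟩, ⟨-, hq⟩, hne⟩, -⟩, hu⟩ := h
      have get : ∀ p, p ⊆ T → p.card = 2 → ∃ k ∈ T, T.erase k = p := by
        intro p hpT hp
        have hne : (T \ p).Nonempty := by
          rw [← Finset.card_pos, Finset.card_sdiff_of_subset hpT]; omega
        obtain ⟨k, hk⟩ := hne
        obtain ⟨hk, hkp⟩ := Finset.mem_sdiff.1 hk
        exact ⟨k, hk, (Finset.eq_of_subset_of_card_le (Finset.subset_erase.2 ⟨hpT, hkp⟩)
          (by rw [Finset.card_erase_of_mem hk]; omega)).symm⟩
      obtain ⟨k, hk, rfl⟩ := get p (hu ▸ Finset.subset_union_left) hp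
      obtain ⟨j, hj, rfl⟩ := get q (hu ▸ Finset.subset_union_right) hq
      exact ⟨(k, j), Finset.mem_offDiag.2 ⟨hk, hj, fun e => hne (by simp only at e; rw [e])⟩, rfl⟩
  rw [key]
  have h := triple_le_sq (r := r) (s := s) hT3 f
  rw [← Finset.sum_product', ← Finset.diag_union_offDiag,
    Finset.sum_union (Finset.disjoint_diag_offDiag T), Finset.sum_diag] at h
  simp only [← ip_dev_self] at h
  linarith

/-- One step towards agreement on a further row. -/
theorem exists_closer {F : Finset R} {i : R} (hi : i ∉ F) {X Y : Table r s} {c e : C}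
    (hF : ∀ d, ∀ j ∈ F, X.1 d j = Y.1 d j) (hc1 : X.1 c i = true) (hc2 : Y.1 c i = false)
    (he1 : X.1 e i = false) (he2 : Y.1 e i = true)
    (hA : cnt Fᶜ X.1 c ≤ cnt Fᶜ X.1 e) :
    ∃ j, i ≠ j ∧ (∀ d, ∀ k ∈ F, (sw {i, j} c e X).1 d k = Y.1 d k) ∧
      (univ.filter fun d => (sw {i, j} c e X).1 d i ≠ Y.1 d i).card
        < (univ.filter fun d => X.1 d i ≠ Y.1 d i).card := by
  obtain ⟨j, hjF, hje, hjc⟩ : ∃ j ∈ Fᶜ, X.1 e j = true ∧ X.1 c j = false := by
    by_contra hno
    push Not at hno
    have : cnt Fᶜ X.1 e < cnt Fᶜ X.1 c := Finset.sum_lt_sum (fun k hk => by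
      cases hk' : X.1 e k
      · simp
      · have := hno k hk hk'
        cases hck : X.1 c k <;> simp_all) ⟨i, Finset.mem_compl.2 hi, by simp [hc1, he1]⟩
    omega
  have hij : i ≠ j := fun h => by rw [← h, he1] at hje; exact Bool.false_ne_true hje
  have hcnt : cnt {i, j} X.1 c = cnt {i, j} X.1 e := by
    simp [cnt, Finset.sum_pair hij, hc1, hjc, he1, hje]
  refine ⟨j, hij, fun d k hk => ?_, Finset.card_lt_card (Finset.ssubset_iff_of_subset ?_ |>.2
    ⟨c, by simp [hc1, hc2], ?_⟩)⟩
  · have h1 : k ≠ i := fun h => hi (h ▸ hk)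
    have h2 : k ≠ j := fun h => Finset.mem_compl.1 hjF (h ▸ hk)
    simp [sw_apply, h1, h2, hF d k hk]
  · intro d hd
    simp only [Finset.mem_filter, Finset.mem_univ, true_and] at hd ⊢
    rcases eq_or_ne d c with rfl | h1
    · simp [hc1, hc2]
    rcases eq_or_ne d e with rfl | h2
    · simp [he1, he2]
    simpa [sw_apply, hcnt, Equiv.swap_apply_of_ne_of_ne h1 h2] using hd
  · simp [sw_apply, hcnt, he1, hc2]

/-- A function unchanged by every switch is constant. -/
theorem eq_of_all_sw_invariant {f : Table r s → ℝ}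
    (hf : ∀ a b, a ≠ b → ∀ c e X, f (sw {a, b} c e X) = f X) (X Y : Table r s) : f X = f Y := by
  suffices ∀ (N : ℕ) (F : Finset R) (X Y : Table r s), Fᶜ.card = N →
      (∀ d, ∀ j ∈ F, X.1 d j = Y.1 d j) → f X = f Y from
    this _ ∅ X Y rfl (by simp)
  intro N
  induction N with
  | zero =>
    intro F X Y hN hF
    rw [Finset.card_eq_zero] at hN
    congr 1
    exact Subtype.ext (funext fun d => funext fun j => hF d j (by
      by_contra h
      simpa [hN] using Finset.mem_compl.2 h))
  | succ N ihN =>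
    intro F X Y hN hF
    obtain ⟨i, hi⟩ := Finset.card_pos.1 (show 0 < Fᶜ.card by omega)
    have hi' : i ∉ F := Finset.mem_compl.1 hi
    obtain ⟨m, hm⟩ : ∃ m, (univ.filter fun d => X.1 d i ≠ Y.1 d i).card = m := ⟨_, rfl⟩
    induction m using Nat.strong_induction_on generalizing X Y with
    | _ m ihm =>
      by_cases hall : ∀ d, X.1 d i = Y.1 d i
      · refine ihN (insert i F) X Y ?_ fun d j hj => ?_
        · rw [Finset.compl_insert, Finset.card_erase_of_mem hi, hN]; rfl
        · rcases Finset.mem_insert.1 hj with rfl | hj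
          exacts [hall d, hF d j hj]
      · have hsum := (X.2.1 i).trans (Y.2.1 i).symm
        push Not at hall
        obtain ⟨d0, hd0⟩ := hall
        obtain ⟨c, hc1, hc2⟩ : ∃ c, X.1 c i = true ∧ Y.1 c i = false := by
          by_contra hno
          push Not at hno
          exact hd0 (eq_of_comparable (U := univ) (F := fun d => X.1 d i) (G := fun d => Y.1 d i)
            (fun d _ h => by simpa using hno d h) hsum d0 (Finset.mem_univ d0))
        obtain ⟨e, he2, he1⟩ : ∃ e, Y.1 e i = true ∧ X.1 e i = false := by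
          by_contra hno
          push Not at hno
          exact hd0 (eq_of_comparable (U := univ) (F := fun d => Y.1 d i) (G := fun d => X.1 d i)
            (fun d _ h => by simpa using hno d h) hsum.symm d0 (Finset.mem_univ d0)).symm
        have hA : ∀ d, cnt Fᶜ X.1 d = cnt Fᶜ Y.1 d := fun d => by
          have e1 := cnt_add_compl F X d
          have e2 := cnt_add_compl F Y d
          have e3 : cnt F X.1 d = cnt F Y.1 d := Finset.sum_congr rfl fun j hj => by rw [hF d j hj]
          omega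
        rcases le_total (cnt Fᶜ X.1 c) (cnt Fᶜ X.1 e) with h | h
        · obtain ⟨j, hij, hF', hlt⟩ := exists_closer hi' hF hc1 hc2 he1 he2 h
          rw [← hf i j hij c e X]
          exact ihm _ (hm ▸ hlt) _ Y hF' rfl
        · obtain ⟨j, hij, hF', hlt⟩ := exists_closer hi' (fun d j hj => (hF d j hj).symm) he2 he1
            hc2 hc1 (by rw [← hA, ← hA]; exact h)
          rw [← hf i j hij e c Y]
          refine ihm _ ?_ X _ (fun d k hk => (hF' d k hk).symm) rfl
          rw [← hm]
          simpa only [ne_comm] using hlt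

/-- The mean-zero functions have Rayleigh quotient at least one for the pair complements. -/
theorem pairs_gap {f : Table r s → ℝ} (hf : ∑ X, f X = 0) :
    ip f f ≤ ∑ p ∈ (univ : Finset R).powersetCard 2, ip f (dev (outside p) f) := by
  obtain ⟨A, hA⟩ : ∃ A : (Table r s → ℝ) →ₗ[ℝ] Table r s → ℝ,
      A = ∑ p ∈ (univ : Finset R).powersetCard 2, dev (outside p) := ⟨_, rfl⟩
  have happ : ∀ g, A g = ∑ p ∈ (univ : Finset R).powersetCard 2, dev (outside p) g := fun g => by
    simp [hA]
  have hq : ∀ g, ip g (A g) = ∑ p ∈ (univ : Finset R).powersetCard 2, ip g (dev (outside p) g) :=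
    fun g => by rw [happ, ip_sum_right]
  rw [← hq]
  refine gap_of_le_sq (fun g h => ?_) (fun g => ?_) (fun g => ?_) (fun g hg => ?_) hf
  · rw [happ, happ, ip_sum_left, ip_sum_right]
    exact Finset.sum_congr rfl fun p _ => ip_dev _ _ _
  · rw [hq]
    exact Finset.sum_nonneg fun p _ => by rw [ip_dev_self]; exact ip_self_nonneg _
  · rw [hq, happ, ip_sum_left]
    simp only [ip_sum_right]
    exact pairs_le_sq g
  · have h0 : ip g (A g) = 0 := by simp [hg, ip]
    rw [hq, Finset.sum_eq_zero_iff_of_nonneg fun p _ => by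
      rw [ip_dev_self]; exact ip_self_nonneg _] at h0
    refine eq_of_all_sw_invariant fun a b hab c e X => ?_
    have h := h0 {a, b} (Finset.mem_powersetCard.2 ⟨Finset.subset_univ _, Finset.card_pair hab⟩)
    rw [ip_dev_self] at h
    have hz : dev (outside {a, b}) g = 0 := funext fun Z => mul_self_eq_zero.1
      ((Finset.sum_eq_zero_iff_of_nonneg fun x _ => mul_self_nonneg _).1 h Z (Finset.mem_univ Z))
    exact dev_eq_zero_iff.1 hz X _ (outside_sw _ c e X)

/-- The switch Laplacian within a set of rows, over ordered pairs of columns. -/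
def lap (S : Finset R) : (Table r s → ℝ) →ₗ[ℝ] Table r s → ℝ where
  toFun f X := ∑ c, ∑ e, (f X - f (sw S c e X))
  map_add' f g := by
    funext X
    simp only [Pi.add_apply, ← Finset.sum_add_distrib]
    exact Finset.sum_congr rfl fun c _ => Finset.sum_congr rfl fun e _ => by ring
  map_smul' a f := by funext X; simp [Finset.mul_sum, mul_sub, mul_left_comm]

theorem lap_apply (S : Finset R) (f : Table r s → ℝ) (X : Table r s) :
    lap S f X = ∑ c, ∑ e, (f X - f (sw S c e X)) := rfl

theorem ip_lap (S : Finset R) (f g : Table r s → ℝ) : ip (lap S f) g = ip f (lap S g) := by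
  simp only [ip, lap_apply, Finset.sum_mul, Finset.mul_sum, sub_mul, mul_sub,
    Finset.sum_sub_distrib]
  congr 1
  rw [Finset.sum_comm, Finset.sum_comm (s := univ) (t := univ)
    (f := fun X c => ∑ e, f X * g (sw S c e X))]
  refine Finset.sum_congr rfl fun c _ => ?_
  rw [Finset.sum_comm, Finset.sum_comm (s := univ) (t := univ)
    (f := fun X e => f X * g (sw S c e X))]
  refine Finset.sum_congr rfl fun e _ => ?_
  exact Fintype.sum_equiv (swEquiv S c e) _ _ fun X => by
    show f (sw S c e X) * g X = f (sw S c e X) * g (sw S c e (sw S c e X))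
    rw [sw_sw]

/-- The Laplacian as a sum of squared differences. -/
theorem ip_lap_self (S : Finset R) (f : Table r s → ℝ) :
    2 * ip f (lap S f) = ∑ c, ∑ e, ∑ X, (f X - f (sw S c e X)) ^ 2 := by
  have h : ip f (lap S f) = ∑ c, ∑ e, ∑ X, f X * (f X - f (sw S c e X)) := by
    simp only [ip, lap_apply, Finset.mul_sum]
    rw [Finset.sum_comm]
    exact Finset.sum_congr rfl fun c _ => Finset.sum_comm
  rw [h, Finset.mul_sum]
  refine Finset.sum_congr rfl fun c _ => ?_
  rw [Finset.mul_sum]
  refine Finset.sum_congr rfl fun e _ => ?_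
  have e2 : ∑ X, f (sw S c e X) * f (sw S c e X) = ∑ X, f X * f X :=
    Equiv.sum_comp (swEquiv S c e) fun X => f X * f X
  simp only [sq, sub_mul, mul_sub, Finset.sum_sub_distrib, e2, Finset.mul_sum]
  simp only [mul_comm (f (sw S c e _)) (f _), ← Finset.mul_sum]
  ring

theorem sw_conj {S : Finset R} {c₀ e₀ : C} {X : Table r s}
    (h : cnt S X.1 c₀ = cnt S X.1 e₀) (c e : C) :
    sw S (Equiv.swap c₀ e₀ c) (Equiv.swap c₀ e₀ e) (sw S c₀ e₀ X)
      = sw S c₀ e₀ (sw S c e X) := by
  have hπ : ∀ d, cnt S X.1 (Equiv.swap c₀ e₀ d) = cnt S X.1 d := fun d => by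
    rcases eq_or_ne d c₀ with rfl | h1
    · simp [h]
    rcases eq_or_ne d e₀ with rfl | h2
    · simp [h]
    rw [Equiv.swap_apply_of_ne_of_ne h1 h2]
  refine Subtype.ext (funext fun d => funext fun i => ?_)
  by_cases hi : i ∈ S <;> by_cases hce : cnt S X.1 c = cnt S X.1 e <;>
    simp [sw_apply, cnt_sw, hπ, hi, hce, h, Equiv.swap_apply_apply]

/-- An eigenfunction of the pair Laplacian with eigenvalue below four is unchanged by switches. -/
theorem sw_invariant_of_lap {S : Finset R} {g : Table r s → ℝ} {ν : ℝ} (hν : ν < 4)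
    (hg : lap S g = ν • g) (c e : C) (X : Table r s) : g (sw S c e X) = g X := by
  have : Nonempty (Table r s × C × C) := ⟨(X, c, e)⟩
  obtain ⟨⟨X₀, c₀, e₀⟩, hmax⟩ := Finite.exists_max fun z : Table r s × C × C =>
    |g (sw S z.2.1 z.2.2 z.1) - g z.1|
  obtain ⟨D, hD0⟩ : ∃ D, D = |g (sw S c₀ e₀ X₀) - g X₀| := ⟨_, rfl⟩
  have hD : ∀ (Y : Table r s) (c e : C), |g (sw S c e Y) - g Y| ≤ D := fun Y c e => by
    rw [hD0]; exact hmax (Y, c, e)
  by_contra hne
  have hDp : 0 < D := (abs_pos.2 (sub_ne_zero.2 hne)).trans_le (hD X c e)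
  have hcnt : cnt S X₀.1 c₀ = cnt S X₀.1 e₀ := by
    by_contra h; rw [hD0, sw_of_ne h] at hDp; simp at hDp
  have hce : c₀ ≠ e₀ := by
    rintro rfl; rw [hD0, sw_of_agree fun i _ => rfl] at hDp; simp at hDp
  obtain ⟨φ, hφ⟩ : ∃ φ : C × C → ℝ, φ = fun p =>
      g (sw S c₀ e₀ (sw S p.1 p.2 X₀)) - g (sw S p.1 p.2 X₀) := ⟨_, rfl⟩
  obtain ⟨δ, hδ⟩ : ∃ δ, δ = g (sw S c₀ e₀ X₀) - g X₀ := ⟨_, rfl⟩
  have e1 : ∀ Y, ν * g Y
      = ((univ : Finset (C × C)).card : ℝ) * g Y - ∑ p : C × C, g (sw S p.1 p.2 Y) := fun Y => by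
    have := congrFun hg Y
    rw [lap_apply, ← Fintype.sum_prod_type', Finset.sum_sub_distrib, Finset.sum_const,
      nsmul_eq_mul] at this
    exact this.symm
  have e2 : ∑ p : C × C, g (sw S p.1 p.2 (sw S c₀ e₀ X₀))
      = ∑ p : C × C, g (sw S c₀ e₀ (sw S p.1 p.2 X₀)) := by
    rw [← Equiv.sum_comp ((Equiv.swap c₀ e₀).prodCongr (Equiv.swap c₀ e₀))]
    exact Finset.sum_congr rfl fun p _ => congrArg g (sw_conj hcnt p.1 p.2)
  have e3 : (((univ : Finset (C × C)).card : ℝ) - ν) * δ = ∑ p, φ p := by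
    have := e1 (sw S c₀ e₀ X₀)
    have := e1 X₀
    simp only [hφ, hδ, Finset.sum_sub_distrib]
    linarith
  have hne' : (c₀, e₀) ≠ (e₀, c₀) := fun h => hce (congrArg Prod.fst h)
  have e4 : φ (c₀, e₀) = -δ ∧ φ (e₀, c₀) = -δ := by
    simp only [hφ, hδ, sw_comm S c₀ e₀, sw_sw, neg_sub, and_self]
  have hcard := Finset.card_sdiff_of_subset
    (Finset.subset_univ ({(c₀, e₀), (e₀, c₀)} : Finset (C × C)))
  have hle : ({(c₀, e₀), (e₀, c₀)} : Finset (C × C)).card ≤ (univ : Finset (C × C)).card :=
    Finset.card_le_univ _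
  have hR : |∑ p ∈ univ \ ({(c₀, e₀), (e₀, c₀)} : Finset (C × C)), φ p|
      ≤ (((univ : Finset (C × C)).card : ℝ) - 2) * D := by
    refine (Finset.abs_sum_le_sum_abs _ _).trans
      ((Finset.sum_le_card_nsmul _ _ D fun p _ => ?_).trans_eq ?_)
    · rw [hφ]; exact hD _ c₀ e₀
    · rw [Finset.card_pair hne'] at hcard hle
      rw [nsmul_eq_mul, hcard, Nat.cast_sub hle]
      norm_num
  rw [← Finset.sum_sdiff (Finset.subset_univ ({(c₀, e₀), (e₀, c₀)} : Finset (C × C))),
    Finset.sum_pair hne', e4.1, e4.2] at e3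
  rw [show ∑ p ∈ univ \ ({(c₀, e₀), (e₀, c₀)} : Finset (C × C)), φ p
      = (((univ : Finset (C × C)).card : ℝ) + 2 - ν) * δ by linarith, abs_mul, ← hδ.symm] at hR
  have h2 : (2 : ℝ) ≤ (univ : Finset (C × C)).card := by
    rw [Finset.card_pair hne'] at hle; exact_mod_cast hle
  rw [abs_of_pos (by linarith), ← hδ, show |δ| = D by rw [hD0, hδ]] at hR
  nlinarith

/-- Within a pair of rows the switches have gap four. -/
theorem four_dev_le_lap {a b : R} (hab : a ≠ b) (f : Table r s → ℝ) :
    4 * ip f (dev (outside {a, b}) f) ≤ ip f (lap {a, b} f) := by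
  obtain ⟨A, hA⟩ : ∃ A : (Table r s → ℝ) →ₗ[ℝ] Table r s → ℝ,
      A = (1 / 4 : ℝ) • lap {a, b} := ⟨_, rfl⟩
  have happ : ∀ g, A g = (1 / 4 : ℝ) • lap {a, b} g := fun g => by rw [hA]; rfl
  have hsym : ∀ g h, ip (A g) h = ip g (A h) := fun g h => by
    rw [happ, happ, ip_smul_left, ip_smul_right, ip_lap]
  have hpos : ∀ g, 0 ≤ ip g (A g) := fun g => by
    have h2 : 0 ≤ 2 * ip g (lap {a, b} g) := by
      rw [ip_lap_self]
      exact Finset.sum_nonneg fun c _ => Finset.sum_nonneg fun e _ =>
        Finset.sum_nonneg fun X _ => sq_nonneg _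
    rw [happ, ip_smul_right]
    linarith
  have inv0 : ∀ g, (∀ c e X, g (sw {a, b} c e X) = g X) → A g = 0 := fun g hg => by
    funext X; simp [happ, lap_apply, hg]
  have hsq : ∀ g, ip g (A g) ≤ ip (A g) (A g) := by
    refine le_sq_of_eigen hsym fun μ g hg hμ => inv0 g fun c e X => ?_
    refine sw_invariant_of_lap (ν := 4 * μ) (by linarith) ?_ c e X
    rw [mul_smul, ← hg, happ, smul_smul]
    norm_num
  have hker : ∀ g, A g = 0 → dev (outside {a, b}) g = 0 := fun g hg => by
    refine dev_eq_zero_iff.2 fun X Y h => ?_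
    refine eq_of_sw_invariant hab (fun _ => True) (fun c e Z _ _ => ?_) h fun _ _ => trivial
    refine sw_invariant_of_lap (ν := 0) (by norm_num) ?_ c e Z
    rw [happ, smul_eq_zero] at hg
    rw [hg.resolve_left (by norm_num), zero_smul]
  obtain ⟨g, hg⟩ : ∃ g, g = dev (outside {a, b}) f := ⟨_, rfl⟩
  have hAg : A g = A f := by
    have : A (avg (outside {a, b}) f) = 0 :=
      inv0 _ fun c e X => avg_congr _ f (outside_sw _ c e X)
    rw [hg, dev_apply, map_sub, this, sub_zero]
  have hgap := gap_of_le_sq_orth hsym hpos hsq (f := g) fun h hh => by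
    rw [hg, ← ip_dev, hker h hh]
    simp [ip]
  rw [hAg, ← hsym, hAg, hsym, happ, ip_smul_right] at hgap
  rw [ip_dev_self, ← hg]
  linarith

/-- For every margins: the switches have gap four, counted over ordered pairs of columns. -/
theorem switch_gap {f : Table r s → ℝ} (hf : ∑ X, f X = 0) :
    4 * ip f f ≤ ∑ p ∈ (univ : Finset R).powersetCard 2, ip f (lap p f) := by
  refine (mul_le_mul_of_nonneg_left (pairs_gap hf) (by norm_num)).trans ?_
  rw [Finset.mul_sum]
  refine Finset.sum_le_sum fun p hp => ?_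
  obtain ⟨a, b, hab, rfl⟩ := Finset.card_eq_two.1 (Finset.mem_powersetCard.1 hp).2
  exact four_dev_le_lap hab f

end Vale.P335
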