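import Vale.Agent.P335.GraphDefs

/-!
# Switches connect the realisations of a degree vector

Two realisations agreeing at the vertices of a set `K` are moved, by switches avoiding `K`, to
realisations agreeing also at a further vertex `v`: if `G` has `vu` and `H` has `vw`, one of `u, w`
has at least as many neighbours outside `K`, and this gives a switch in `G` or in `H`.
-/

noncomputable section

namespace Vale.P335

open Finset

variable {n : ℕ} {d : Fin n → ℕ}

/-- The neighbours outside `K`. -/
def outNbr (K : Finset (Fin n)) (G : Omega d) (x : Fin n) : Finset (Fin n) :=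
  Finset.univ.filter fun j => j ∉ K ∧ adjB G x j = true

theorem mem_outNbr {K : Finset (Fin n)} {G : Omega d} {x j : Fin n} :
    j ∈ outNbr K G x ↔ j ∉ K ∧ adjB G x j = true := by simp [outNbr]

theorem card_outNbr_add (K : Finset (Fin n)) (G : Omega d) (x : Fin n) :
    (outNbr K G x).card + ∑ j ∈ K, (adjB G x j).toNat = d x := by
  rw [← sum_adjB G x, ← Finset.sum_add_sum_compl K fun j => (adjB G x j).toNat, add_comm]
  congr 1
  rw [Finset.card_eq_sum_ones, outNbr, Finset.sum_filter,
    ← Finset.sum_add_sum_compl K (fun j => if j ∉ K ∧ adjB G x j = true then 1 else 0),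
    Finset.sum_eq_zero (s := K) fun j hj => by simp [hj], zero_add]
  exact Finset.sum_congr rfl fun j hj => by
    cases h : adjB G x j <;> simp [Finset.mem_compl.1 hj]

theorem card_outNbr_congr {K : Finset (Fin n)} {G H : Omega d} {x : Fin n}
    (h : ∀ i ∈ K, ∀ j, adjB G i j = adjB H i j) :
    (outNbr K G x).card = (outNbr K H x).card := by
  have e : ∑ j ∈ K, (adjB G x j).toNat = ∑ j ∈ K, (adjB H x j).toNat :=
    Finset.sum_congr rfl fun j hj => by rw [adjB_comm G x j, adjB_comm H x j, h j hj x]
  have h1 := card_outNbr_add K G x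
  have h2 := card_outNbr_add K H x
  omega

/-- A switch making `v` see `w` in place of `u` without touching the rows in `K`. -/
theorem exists_switch_toward {K : Finset (Fin n)} {G : Omega d} {v u w : Fin n} (hv : v ∉ K)
    (hu : u ∉ K) (hw : w ∉ K) (hvu : adjB G v u = true) (hvw : adjB G v w = false) (hne : w ≠ v)
    (hle : (outNbr K G u).card ≤ (outNbr K G w).card) :
    ∃ (G' : Omega d) (σ : Fin 4 ↪ Fin n), Switches σ G.1 G'.1 ∧
      (∀ i ∈ K, ∀ j, adjB G' i j = adjB G i j) ∧
      ∀ j, adjB G' v j = adjB G v (Equiv.swap u w j) := by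
  have huw : u ≠ w := fun h => by rw [h, hvw] at hvu; exact Bool.false_ne_true hvu
  have hvu' : v ≠ u := fun h => by rw [h, adjB_self] at hvu; exact Bool.false_ne_true hvu
  have hvmem : v ∈ outNbr K G u := mem_outNbr.2 ⟨hv, by rw [adjB_comm]; exact hvu⟩
  obtain ⟨z, hz, hzu, hzn⟩ : ∃ z ∈ outNbr K G w, z ≠ u ∧ adjB G u z = false := by
    by_contra hno
    push Not at hno
    by_cases hu' : u ∈ outNbr K G w
    · have hw' : w ∈ (outNbr K G u).erase v := Finset.mem_erase.2
        ⟨hne, mem_outNbr.2 ⟨hw, by rw [adjB_comm]; exact (mem_outNbr.1 hu').2⟩⟩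
      have hsub : (outNbr K G w).erase u ⊆ ((outNbr K G u).erase v).erase w := by
        intro j hj
        obtain ⟨hju, hj⟩ := Finset.mem_erase.1 hj
        have hjw := (mem_outNbr.1 hj).2
        refine Finset.mem_erase.2 ⟨fun e => ?_, Finset.mem_erase.2 ⟨fun e => ?_,
          mem_outNbr.2 ⟨(mem_outNbr.1 hj).1, by simpa using hno j hj hju⟩⟩⟩
        · rw [e, adjB_self] at hjw; exact Bool.false_ne_true hjw
        · rw [e, adjB_comm, hvw] at hjw; exact Bool.false_ne_true hjw
      have hc := Finset.card_le_card hsub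
      rw [Finset.card_erase_of_mem hu', Finset.card_erase_of_mem hw',
        Finset.card_erase_of_mem hvmem] at hc
      have : 2 ≤ (outNbr K G u).card := by
        have h1 := Finset.card_pos.2 ⟨w, hw'⟩
        rw [Finset.card_erase_of_mem hvmem] at h1
        omega
      omega
    · have hsub : outNbr K G w ⊆ (outNbr K G u).erase v := by
        intro j hj
        have hju : j ≠ u := fun e => hu' (e ▸ hj)
        refine Finset.mem_erase.2 ⟨fun e => ?_,
          mem_outNbr.2 ⟨(mem_outNbr.1 hj).1, by simpa using hno j hj hju⟩⟩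
        have hjw := (mem_outNbr.1 hj).2
        rw [e, adjB_comm, hvw] at hjw
        exact Bool.false_ne_true hjw
      have hc := Finset.card_le_card hsub
      rw [Finset.card_erase_of_mem hvmem] at hc
      have := Finset.card_pos.2 ⟨v, hvmem⟩
      omega
  obtain ⟨hzK, hwz⟩ := mem_outNbr.1 hz
  have hzw : z ≠ w := fun h => by rw [h, adjB_self] at hwz; exact Bool.false_ne_true hwz
  have hzv : z ≠ v := fun h => by
    rw [h, adjB_comm, hvw] at hwz; exact Bool.false_ne_true hwz
  obtain ⟨p, hp⟩ : ∃ p : Fin n → Equiv.Perm (Fin n), p = fun i =>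
      if i = v ∨ i = z then Equiv.swap u w else if i = u ∨ i = w then Equiv.swap v z else 1 :=
    ⟨_, rfl⟩
  have pv : p v = Equiv.swap u w := by simp [hp]
  have pz : p z = Equiv.swap u w := by simp [hp]
  have pu : p u = Equiv.swap v z := by simp [hp, hvu'.symm, hzu.symm]
  have pw : p w = Equiv.swap v z := by simp [hp, hne, hzw.symm]
  have po : ∀ i, i ≠ v → i ≠ z → i ≠ u → i ≠ w → p i = 1 := fun i h1 h2 h3 h4 => by
    simp [hp, h1, h2, h3, h4]
  obtain ⟨A, hA⟩ : ∃ A : Fin n → Fin n → Bool, A = fun i j =>
      if s(i, j) = s(v, w) ∨ s(i, j) = s(u, z) then true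
      else if s(i, j) = s(v, u) ∨ s(i, j) = s(w, z) then false else adjB G i j := ⟨_, rfl⟩
  have hAsymm : ∀ i j, A i j = A j i := fun i j => by
    simp only [hA, Sym2.eq_swap (a := i) (b := j), adjB_comm G i j]
  have hAp : ∀ i j, A i j = adjB G i (p i j) := by
    intro i j
    have c1 := adjB_comm G v u
    have c2 := adjB_comm G v w
    have c3 := adjB_comm G w z
    have c4 := adjB_comm G u z
    rw [hvu] at c1; rw [hvw] at c2; rw [hwz] at c3; rw [hzn] at c4
    by_cases h1 : i = v
    · subst h1
      rw [pv]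
      by_cases g1 : j = u
      · subst g1; simp [hA, hvw, huw, hvu', hzu.symm, hzv.symm, hne.symm]
      by_cases g2 : j = w
      · subst g2; simp [hA, hvu]
      simp [hA, g1, g2, Equiv.swap_apply_of_ne_of_ne g1 g2, hvu', hzv.symm, hne.symm]
    by_cases h2 : i = z
    · subst h2
      rw [pz]
      by_cases g1 : j = u
      · subst g1; simp [hA, ← c3]
      by_cases g2 : j = w
      · subst g2; simp [hA, ← c4, hzv, hzu, hzw, huw.symm]
      simp [hA, g1, g2, Equiv.swap_apply_of_ne_of_ne g1 g2, hzv, hzu, hzw]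
    by_cases h3 : i = u
    · subst h3
      rw [pu]
      by_cases g1 : j = v
      · subst g1; simp [hA, hzn, hvu'.symm, hvu', huw, hzu.symm, hzv.symm]
      by_cases g2 : j = z
      · subst g2; simp [hA, ← c1]
      simp [hA, g1, g2, Equiv.swap_apply_of_ne_of_ne g1 g2, h1, h2, huw]
    by_cases h4 : i = w
    · subst h4
      rw [pw]
      by_cases g1 : j = v
      · subst g1; simp [hA, hwz]
      by_cases g2 : j = z
      · subst g2; simp [hA, ← c2, hne, huw.symm, hzw, hzw.symm, hzv]
      simp [hA, g1, g2, Equiv.swap_apply_of_ne_of_ne g1 g2, h1, h2, huw.symm]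
    simp [hA, po i h1 h2 h3 h4, h1, h2, h3, h4]
  have hfix : ∀ i, p i i = i := fun i => by
    by_cases h1 : i = v
    · rw [h1, pv, Equiv.swap_apply_of_ne_of_ne hvu' hne.symm]
    by_cases h2 : i = z
    · rw [h2, pz, Equiv.swap_apply_of_ne_of_ne hzu hzw]
    by_cases h3 : i = u
    · rw [h3, pu, Equiv.swap_apply_of_ne_of_ne hvu'.symm hzu.symm]
    by_cases h4 : i = w
    · rw [h4, pw, Equiv.swap_apply_of_ne_of_ne hne hzw.symm]
    rw [po i h1 h2 h3 h4]; rfl
  have hAl : ∀ i, A i i = false := fun i => by rw [hAp, hfix, adjB_self]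
  have hAd : ∀ i, ∑ j, (A i j).toNat = d i := fun i => by
    simp only [hAp]
    rw [Equiv.sum_comp (p i) fun j => (adjB G i j).toNat, sum_adjB]
  refine ⟨mkOmega A hAsymm hAl hAd, ⟨![v, u, w, z], ?_⟩, ?_, fun i hi j => ?_, fun j => ?_⟩
  · intro a b hab
    fin_cases a <;> fin_cases b <;> first
      | rfl
      | (exfalso; revert hab
         simp [hvu', hvu'.symm, hne, hne.symm, hzv, hzv.symm, huw, huw.symm, hzu, hzu.symm,
          hzw, hzw.symm])
  · have hn : ∀ {i j : Fin n}, adjB G i j = false → ¬G.1.Adj i j := fun {i j} h h' => by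
      rw [← adjB_eq_true, h] at h'; exact Bool.false_ne_true h'
    refine ⟨adjB_eq_true.1 hvu, adjB_eq_true.1 hwz, hn hvw, hn hzn, ?_⟩
    show _ = G.1.edgeSet \ pairSet v u w z ∪ pairSet v w u z
    ext e
    induction e with
    | h i j =>
      rw [SimpleGraph.mem_edgeSet, ← adjB_eq_true, adjB_mkOmega, hA]
      simp only [pairSet, Set.mem_union, Set.mem_sdiff, Set.mem_insert_iff,
        Set.mem_singleton_iff, SimpleGraph.mem_edgeSet, ← adjB_eq_true]
      by_cases h1 : s(i, j) = s(v, w) ∨ s(i, j) = s(u, z)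
      · rw [if_pos h1]; exact iff_of_true rfl (Or.inr h1)
      rw [if_neg h1]
      by_cases h2 : s(i, j) = s(v, u) ∨ s(i, j) = s(w, z)
      · rw [if_pos h2]
        exact iff_of_false Bool.false_ne_true (not_or_intro (fun h => h.2 h2) h1)
      rw [if_neg h2]
      exact ⟨fun h => Or.inl ⟨h, h2⟩, fun h => (h.resolve_right h1).1⟩
  · rw [adjB_mkOmega, hAp, po i (fun h => hv (h ▸ hi)) (fun h => hzK (h ▸ hi))
      (fun h => hu (h ▸ hi)) (fun h => hw (h ▸ hi))]
    rfl
  · rw [adjB_mkOmega, hAp, pv]

/-- The vertices where the rows at `v` differ. -/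
def rowDiff (G H : Omega d) (v : Fin n) : Finset (Fin n) :=
  Finset.univ.filter fun j => adjB G v j ≠ adjB H v j

theorem mem_rowDiff {G H : Omega d} {v j : Fin n} :
    j ∈ rowDiff G H v ↔ adjB G v j ≠ adjB H v j := by simp [rowDiff]

theorem card_rowDiff_lt {G G' H : Omega d} {v u w : Fin n}
    (hvu : adjB G v u = true) (hvw : adjB G v w = false)
    (hu : adjB H v u = false) (hw : adjB H v w = true)
    (h' : ∀ j, adjB G' v j = adjB G v (Equiv.swap u w j)) :
    (rowDiff G' H v).card < (rowDiff G H v).card := by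
  refine Finset.card_lt_card ((Finset.ssubset_iff_of_subset fun j hj => ?_).2
    ⟨u, mem_rowDiff.2 (by simp [hvu, hu]), fun h => ?_⟩)
  · rw [mem_rowDiff, h'] at hj
    rw [mem_rowDiff]
    by_cases g1 : j = u
    · subst g1; simp [hvu, hu]
    by_cases g2 : j = w
    · subst g2; simp [hvw, hw]
    rwa [Equiv.swap_apply_of_ne_of_ne g1 g2] at hj
  · rw [mem_rowDiff, h', Equiv.swap_apply_left] at h
    exact h (by rw [hvw, hu])

theorem exists_true_false {α : Type*} [Fintype α] {F G : α → Bool}
    (hsum : ∑ j, (F j).toNat = ∑ j, (G j).toNat) (hne : F ≠ G) :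
    ∃ j, F j = true ∧ G j = false := by
  by_contra hno
  push Not at hno
  refine hne (funext fun j => ?_)
  have h := (Finset.sum_eq_sum_iff_of_le fun j _ => by
    cases hf : F j
    · simp
    · simp [hno j hf]).1 hsum j (Finset.mem_univ j)
  revert h
  cases F j <;> cases G j <;> simp

/-- A function unchanged by switches is constant on realisations agreeing at the vertices in `K`. -/
theorem eq_of_switch_invariant_aux {f : Omega d → ℝ}
    (h : ∀ (σ : Fin 4 ↪ Fin n) (G H : Omega d), Switches σ G.1 H.1 → f G = f H) :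
    ∀ (k : ℕ) (K : Finset (Fin n)) (G H : Omega d), Kᶜ.card = k →
      (∀ i ∈ K, ∀ j, adjB G i j = adjB H i j) → f G = f H := by
  intro k
  induction k with
  | zero =>
    intro K G H hK hrow
    rw [omega_ext fun i j => hrow i ?_ j]
    have h0 := Finset.card_eq_zero.1 hK
    rw [Finset.compl_eq_empty_iff] at h0
    simp [h0]
  | succ k ih =>
    intro K G H hK hrow
    obtain ⟨v, hv⟩ := Finset.card_pos.1 (by omega : 0 < Kᶜ.card)
    have hv' : v ∉ K := Finset.mem_compl.1 hv
    suffices hs : ∀ (m : ℕ) (G H : Omega d), (rowDiff G H v).card = m →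
        (∀ i ∈ K, ∀ j, adjB G i j = adjB H i j) → f G = f H from hs _ G H rfl hrow
    intro m
    induction m using Nat.strong_induction_on with
    | _ m ihm =>
      intro G H hm hrow
      by_cases hE : adjB G v = adjB H v
      · refine ih (insert v K) G H ?_ fun i hi j => ?_
        · rw [Finset.compl_insert, Finset.card_erase_of_mem hv]
          omega
        · rcases Finset.mem_insert.1 hi with rfl | hi
          · exact congrFun hE j
          · exact hrow i hi j
      obtain ⟨u, hGu, hHu⟩ := exists_true_false (by rw [sum_adjB, sum_adjB]) hE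
      obtain ⟨w, hHw, hGw⟩ := exists_true_false (by rw [sum_adjB, sum_adjB]) (Ne.symm hE)
      have hK' : ∀ x, adjB G v x ≠ adjB H v x → x ∉ K := fun x hx hmem => hx (by
        rw [adjB_comm G, adjB_comm H, hrow x hmem v])
      have huK := hK' u (by simp [hGu, hHu])
      have hwK := hK' w (by simp [hGw, hHw])
      rcases le_total (outNbr K G u).card (outNbr K G w).card with hle | hle
      · have hne : w ≠ v := fun e => by rw [e, adjB_self] at hHw; exact Bool.false_ne_true hHw
        obtain ⟨G', σ, hσ, hG', hGv⟩ := exists_switch_toward hv' huK hwK hGu hGw hne hle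
        rw [h σ G G' hσ]
        refine ihm _ (hm ▸ card_rowDiff_lt hGu hGw hHu hHw hGv) G' H rfl fun i hi j => ?_
        rw [hG' i hi j, hrow i hi j]
      · have hne : u ≠ v := fun e => by rw [e, adjB_self] at hGu; exact Bool.false_ne_true hGu
        rw [card_outNbr_congr hrow, card_outNbr_congr hrow] at hle
        obtain ⟨H', σ, hσ, hH', hHv⟩ := exists_switch_toward hv' hwK huK hHw hHu hne hle
        rw [h σ H H' hσ]
        have hcard : ∀ A B : Omega d, (rowDiff A B v).card = (rowDiff B A v).card := fun A B => by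
          rw [show rowDiff A B v = rowDiff B A v from Finset.ext fun j => by
            rw [mem_rowDiff, mem_rowDiff]; exact ne_comm]
        refine ihm _ ?_ G H' rfl fun i hi j => ?_
        · rw [← hm, hcard G H', hcard G H]
          exact card_rowDiff_lt hHw hHu hGw hGu hHv
        · rw [hH' i hi j, hrow i hi j]

/-- Switches connect the realisations: a function unchanged by switches is constant. -/
theorem eq_of_switch_invariant {f : Omega d → ℝ}
    (h : ∀ (σ : Fin 4 ↪ Fin n) (G H : Omega d), Switches σ G.1 H.1 → f G = f H) (G H : Omega d) :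
    f G = f H :=
  eq_of_switch_invariant_aux h _ ∅ G H rfl fun i hi => absurd hi (Finset.notMem_empty i)

end Vale.P335
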