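import Vale.Agent.P335.Spectral

/-!
# Averaging over the classes of a map

The projections `avg key` and their complements, their commutation when the classes of two maps
commute, and a comparison of two averages through a relation with constant weighted degree.
-/

noncomputable section

namespace Vale.P335

open Finset

variable {Ω κ : Type*} [Fintype Ω] [DecidableEq κ]

/-- The class of a point. -/
def cls (key : Ω → κ) (x : Ω) : Finset Ω := Finset.univ.filter fun y => key y = key x

theorem mem_cls {key : Ω → κ} {x y : Ω} : y ∈ cls key x ↔ key y = key x := by simp [cls]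

theorem self_mem_cls (key : Ω → κ) (x : Ω) : x ∈ cls key x := mem_cls.2 rfl

theorem cls_eq {key : Ω → κ} {x y : Ω} (h : key x = key y) : cls key x = cls key y := by
  ext z; simp [mem_cls, h]

theorem card_cls_pos (key : Ω → κ) (x : Ω) : (0 : ℝ) < (cls key x).card :=
  Nat.cast_pos.2 (Finset.card_pos.2 ⟨x, self_mem_cls key x⟩)

/-- The average over the classes of a map. -/
def avg (key : Ω → κ) : (Ω → ℝ) →ₗ[ℝ] Ω → ℝ where
  toFun f x := (∑ y ∈ cls key x, f y) / (cls key x).card
  map_add' f g := by funext x; simp [Finset.sum_add_distrib, add_div]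
  map_smul' c f := by funext x; simp [← Finset.mul_sum, mul_div_assoc]

theorem avg_apply (key : Ω → κ) (f : Ω → ℝ) (x : Ω) :
    avg key f x = (∑ y ∈ cls key x, f y) / (cls key x).card := rfl

theorem avg_congr (key : Ω → κ) (f : Ω → ℝ) {x y : Ω} (h : key x = key y) :
    avg key f x = avg key f y := by rw [avg_apply, avg_apply, cls_eq h]

/-- A function constant on the classes is its own average. -/
theorem avg_eq_self {key : Ω → κ} {f : Ω → ℝ} (h : ∀ x y, key y = key x → f y = f x) :
    avg key f = f := by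
  funext x
  rw [avg_apply, Finset.sum_congr rfl fun y hy => h x y (mem_cls.1 hy)]
  simp [(card_cls_pos key x).ne']

theorem avg_avg (key : Ω → κ) (f : Ω → ℝ) : avg key (avg key f) = avg key f :=
  avg_eq_self fun _ _ h => avg_congr key f h

theorem ip_avg (key : Ω → κ) (f g : Ω → ℝ) : ip (avg key f) g = ip f (avg key g) := by
  have e : ∀ u v : Ω → ℝ, ip (avg key u) v
      = ∑ x, ∑ y, if key y = key x then u y * v x / ((cls key x).card : ℝ) else 0 := fun u v => by
    refine Finset.sum_congr rfl fun x _ => ?_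
    rw [avg_apply, Finset.sum_div, Finset.sum_mul, cls, Finset.sum_filter]
    exact Finset.sum_congr rfl fun y _ => by split_ifs <;> ring
  rw [ip_comm f, e, e, Finset.sum_comm]
  refine Finset.sum_congr rfl fun x _ => Finset.sum_congr rfl fun y _ => ?_
  by_cases h : key x = key y
  · rw [if_pos h, if_pos h.symm, cls_eq h, mul_comm]
  · rw [if_neg h, if_neg (Ne.symm h)]

/-- The complement of an average. -/
def dev (key : Ω → κ) : (Ω → ℝ) →ₗ[ℝ] Ω → ℝ := LinearMap.id - avg key

theorem dev_apply (key : Ω → κ) (f : Ω → ℝ) : dev key f = f - avg key f := rfl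

theorem ip_dev (key : Ω → κ) (f g : Ω → ℝ) : ip (dev key f) g = ip f (dev key g) := by
  rw [dev_apply, dev_apply, ip_sub_left, ip_sub_right, ip_avg]

theorem dev_dev (key : Ω → κ) (f : Ω → ℝ) : dev key (dev key f) = dev key f := by
  simp [dev_apply, map_sub, avg_avg]

theorem ip_dev_self (key : Ω → κ) (f : Ω → ℝ) :
    ip f (dev key f) = ip (dev key f) (dev key f) := by
  rw [ip_dev, dev_dev]

theorem dev_eq_zero_iff {key : Ω → κ} {f : Ω → ℝ} :
    dev key f = 0 ↔ ∀ x y, key y = key x → f y = f x := by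
  rw [dev_apply, sub_eq_zero]
  refine ⟨fun h x y e => ?_, fun h => (avg_eq_self h).symm⟩
  rw [h]; exact avg_congr key f e

variable {κ' : Type*} [DecidableEq κ']

/-- When the classes of two maps commute and meet in single points, the averages commute. -/
theorem avg_comm [DecidableEq Ω] {r : Ω → κ} {s : Ω → κ'}
    (hinj : ∀ x y, r x = r y → s x = s y → x = y)
    (hrs : ∀ x y z, r y = r x → s z = s y → ∃ w, s w = s x ∧ r z = r w)
    (hsr : ∀ x y z, s y = s x → r z = r y → ∃ w, r w = r x ∧ s z = s w) (f : Ω → ℝ) :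
    avg r (avg s f) = avg s (avg r f) := by
  have hs : ∀ x y, r y = r x → (cls s y).card = (cls s x).card := by
    intro x y hxy
    have le : ∀ x y, r y = r x → (cls s y).card ≤ (cls s x).card := by
      intro x y hxy
      choose w hw using fun (z : Ω) (hz : z ∈ cls s y) => hrs x y z hxy (mem_cls.1 hz)
      refine Finset.card_le_card_of_injOn (fun z => if h : z ∈ cls s y then w z h else x) ?_ ?_
      · intro z hz
        simp only [Finset.mem_coe] at hz
        simpa [hz, mem_cls] using (hw z hz).1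
      · intro a ha b hb hab
        simp only [Finset.mem_coe] at ha hb
        simp only [ha, hb, dif_pos] at hab
        refine hinj a b ?_ ((mem_cls.1 ha).trans (mem_cls.1 hb).symm)
        rw [(hw a ha).2, (hw b hb).2, hab]
    exact le_antisymm (le x y hxy) (le y x hxy.symm)
  have hr : ∀ x y, s y = s x → (cls r y).card = (cls r x).card := by
    intro x y hxy
    have le : ∀ x y, s y = s x → (cls r y).card ≤ (cls r x).card := by
      intro x y hxy
      choose w hw using fun (z : Ω) (hz : z ∈ cls r y) => hsr x y z hxy (mem_cls.1 hz)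
      refine Finset.card_le_card_of_injOn (fun z => if h : z ∈ cls r y then w z h else x) ?_ ?_
      · intro z hz
        simp only [Finset.mem_coe] at hz
        simpa [hz, mem_cls] using (hw z hz).1
      · intro a ha b hb hab
        simp only [Finset.mem_coe] at ha hb
        simp only [ha, hb, dif_pos] at hab
        refine hinj a b ((mem_cls.1 ha).trans (mem_cls.1 hb).symm) ?_
        rw [(hw a ha).2, (hw b hb).2, hab]
    exact le_antisymm (le x y hxy) (le y x hxy.symm)
  funext x
  have e1 : avg r (avg s f) x = (∑ y ∈ (cls r x).biUnion (cls s), f y)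
      / ((cls r x).card * (cls s x).card) := by
    have h : ∀ y ∈ cls r x, avg s f y = (∑ z ∈ cls s y, f z) / (cls s x).card := fun y hy => by
      rw [avg_apply, hs x y (mem_cls.1 hy)]
    rw [avg_apply, Finset.sum_congr rfl h, ← Finset.sum_div, Finset.sum_biUnion, div_div,
      mul_comm]
    intro a ha b hb hab
    refine Finset.disjoint_left.2 fun z hza hzb => hab (hinj a b ?_ ?_)
    · rw [mem_cls.1 ha, mem_cls.1 hb]
    · rw [← mem_cls.1 hza, mem_cls.1 hzb]
  have e2 : avg s (avg r f) x = (∑ y ∈ (cls s x).biUnion (cls r), f y)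
      / ((cls r x).card * (cls s x).card) := by
    have h : ∀ y ∈ cls s x, avg r f y = (∑ z ∈ cls r y, f z) / (cls r x).card := fun y hy => by
      rw [avg_apply, hr x y (mem_cls.1 hy)]
    rw [avg_apply, Finset.sum_congr rfl h, ← Finset.sum_div, Finset.sum_biUnion, div_div]
    intro a ha b hb hab
    refine Finset.disjoint_left.2 fun z hza hzb => hab (hinj a b ?_ ?_)
    · rw [← mem_cls.1 hza, mem_cls.1 hzb]
    · rw [mem_cls.1 ha, mem_cls.1 hb]
  rw [e1, e2]
  congr 2
  ext z
  simp only [Finset.mem_biUnion, mem_cls]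
  constructor
  · rintro ⟨y, hy, hz⟩; exact hrs x y z hy hz
  · rintro ⟨y, hy, hz⟩; exact hsr x y z hy hz

/-- The complements of two commuting averages have nonnegative inner product. -/
theorem ip_dev_dev_nonneg {r : Ω → κ} {s : Ω → κ'}
    (h : ∀ f, avg r (avg s f) = avg s (avg r f)) (f : Ω → ℝ) :
    0 ≤ ip (dev r f) (dev s f) := by
  have hc : ∀ g, dev r (dev s g) = dev s (dev r g) := fun g => by
    simp only [dev_apply, map_sub, h]; abel
  have : ip (dev r f) (dev s f) = ip (dev r (dev s f)) (dev r (dev s f)) := by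
    symm
    rw [ip_dev r, dev_dev, hc, ← ip_dev s, dev_dev, ip_comm]
  rw [this]
  exact ip_self_nonneg _

/-- Two averages are within `D` through a relation whose weighted degree is constant on the second
set. -/
theorem abs_avg_sub_avg_le {α β : Type*} {A : Finset α} {B : Finset β} (hA : A.Nonempty)
    (hB : B.Nonempty) (rel : α → β → Prop) [∀ a b, Decidable (rel a b)]
    (hex : ∀ a ∈ A, ∃ b ∈ B, rel a b)
    (hN : ∀ b ∈ B, ∀ b' ∈ B,
      (∑ a ∈ A with rel a b, ((B.filter (rel a)).card : ℝ)⁻¹)
        = ∑ a ∈ A with rel a b', ((B.filter (rel a)).card : ℝ)⁻¹)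
    (g : α → ℝ) (h : β → ℝ) {D : ℝ} (hD : ∀ a ∈ A, ∀ b ∈ B, rel a b → |g a - h b| ≤ D) :
    |(∑ a ∈ A, g a) / A.card - (∑ b ∈ B, h b) / B.card| ≤ D := by
  obtain ⟨w, hw⟩ : ∃ w : α → ℝ, w = fun a => ((B.filter (rel a)).card : ℝ)⁻¹ := ⟨_, rfl⟩
  have hdeg : ∀ a ∈ A, ((B.filter (rel a)).card : ℝ) * w a = 1 := fun a ha => by
    obtain ⟨b, hb, hr⟩ := hex a ha
    rw [hw]
    exact mul_inv_cancel₀ (Nat.cast_ne_zero.2 (Finset.card_pos.2
      ⟨b, Finset.mem_filter.2 ⟨hb, hr⟩⟩).ne')
  obtain ⟨b₀, hb₀⟩ := hB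
  obtain ⟨N, hN0⟩ : ∃ N, N = ∑ a ∈ A with rel a b₀, w a := ⟨_, rfl⟩
  have swap : ∀ F : α → β → ℝ, ∑ a ∈ A, ∑ b ∈ B.filter (rel a), F a b
      = ∑ b ∈ B, ∑ a ∈ A with rel a b, F a b := fun F => by
    simp only [Finset.sum_filter]; exact Finset.sum_comm
  have hNc : ∀ b ∈ B, ∑ a ∈ A with rel a b, w a = N := fun b hb => by
    rw [hN0, hw]; exact hN b hb b₀ hb₀
  have hAB : (A.card : ℝ) = B.card * N := by
    have := swap fun a _ => w a
    rw [Finset.sum_congr rfl fun a ha => (by simp [hdeg a ha] :
      ∑ b ∈ B.filter (rel a), w a = 1), Finset.sum_congr rfl hNc] at this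
    simpa using this
  have hA0 : (0 : ℝ) < A.card := Nat.cast_pos.2 hA.card_pos
  have hB0 : (0 : ℝ) < B.card := Nat.cast_pos.2 (Finset.card_pos.2 ⟨b₀, hb₀⟩)
  have key : (∑ a ∈ A, g a) - (A.card / B.card : ℝ) * ∑ b ∈ B, h b
      = ∑ a ∈ A, ∑ b ∈ B.filter (rel a), w a * (g a - h b) := by
    simp only [mul_sub, Finset.sum_sub_distrib]
    rw [swap fun a b => w a * h b, Finset.sum_congr rfl fun a ha => (by
      rw [Finset.sum_const, nsmul_eq_mul, ← mul_assoc, hdeg a ha, one_mul] :
      ∑ b ∈ B.filter (rel a), w a * g a = g a), Finset.mul_sum]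
    congr 1
    refine Finset.sum_congr rfl fun b hb => ?_
    rw [← Finset.sum_mul, hNc b hb, hAB]
    field_simp
  have hb : |(∑ a ∈ A, g a) - (A.card / B.card : ℝ) * ∑ b ∈ B, h b| ≤ A.card * D := by
    rw [key]
    refine (Finset.abs_sum_le_sum_abs _ _).trans
      ((Finset.sum_le_card_nsmul A _ D fun a ha => ?_).trans_eq (nsmul_eq_mul _ _))
    refine (Finset.abs_sum_le_sum_abs _ _).trans ?_
    calc ∑ b ∈ B.filter (rel a), |w a * (g a - h b)|
        ≤ ∑ _b ∈ B.filter (rel a), w a * D := Finset.sum_le_sum fun b hb => by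
          rw [abs_mul, abs_of_nonneg (by rw [hw]; positivity : 0 ≤ w a)]
          exact mul_le_mul_of_nonneg_left
            (hD a ha b (Finset.mem_filter.1 hb).1 (Finset.mem_filter.1 hb).2)
            (by rw [hw]; positivity)
      _ = D := by rw [Finset.sum_const, nsmul_eq_mul, ← mul_assoc, hdeg a ha, one_mul]
  have e : (∑ a ∈ A, g a) / A.card - (∑ b ∈ B, h b) / B.card
      = ((∑ a ∈ A, g a) - (A.card / B.card : ℝ) * ∑ b ∈ B, h b) / A.card := by
    field_simp
  rw [e, abs_div, abs_of_pos hA0, div_le_iff₀ hA0]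
  linarith

end Vale.P335
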