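import Vale.Agent.P335.Chain
import Vale.Agent.P335.Proj

/-!
# Classes of realisations agreeing outside a set of edge slots
-/

noncomputable section

namespace Vale.P335

open Finset

variable {n : ℕ} {d : Fin n → ℕ}

open scoped Classical in
/-- The adjacency of a realisation as a Boolean. -/
def adjB (G : Omega d) (i j : Fin n) : Bool := decide (G.1.Adj i j)

/-- The part of a realisation outside the free edge slots `F`. -/
def outsideE (F : Fin n → Fin n → Bool) (G : Omega d) : Fin n → Fin n → Bool :=
  fun i j => !F i j && adjB G i j

/-- The edge slots with exactly one end in `P`. -/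
def crossE (P : Finset (Fin n)) (i j : Fin n) : Bool := decide (i ∈ P) != decide (j ∈ P)

/-- The realisations agreeing outside the slots with exactly one end in `P`. -/
def pairKey (P : Finset (Fin n)) (G : Omega d) : Fin n → Fin n → Bool := outsideE (crossE P) G

/-- The pair complements. -/
def gdev (P : Finset (Fin n)) : (Omega d → ℝ) →ₗ[ℝ] Omega d → ℝ := dev (pairKey P)

theorem adjB_eq_true {G : Omega d} {i j : Fin n} : adjB G i j = true ↔ G.1.Adj i j := by
  simp [adjB]

theorem adjB_comm (G : Omega d) (i j : Fin n) : adjB G i j = adjB G j i := by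
  classical
  simp [adjB, G.1.adj_comm]

theorem adjB_self (G : Omega d) (i : Fin n) : adjB G i i = false := by simp [adjB]

theorem sum_adjB (G : Omega d) (i : Fin n) : ∑ j, (adjB G i j).toNat = d i := by
  classical
  rw [← G.2 i, show G.1.neighborSet i = {u | G.1.Adj i u} from rfl,
    Set.ncard_eq_toFinset_card', Finset.card_eq_sum_ones]
  simp only [Set.toFinset_ofPred, Finset.sum_filter]
  exact Finset.sum_congr rfl fun u _ => by by_cases h : G.1.Adj i u <;> simp [adjB, h]

theorem omega_ext {G H : Omega d} (h : ∀ i j, adjB G i j = adjB H i j) : G = H := by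
  refine Subtype.ext ?_
  ext i j
  rw [← adjB_eq_true, ← adjB_eq_true, h]

theorem outsideE_eq_iff {F : Fin n → Fin n → Bool} {G H : Omega d} :
    outsideE F G = outsideE F H ↔ ∀ i j, F i j = false → adjB G i j = adjB H i j := by
  constructor
  · intro h i j hF
    have := congrFun (congrFun h i) j
    simpa [outsideE, hF] using this
  · intro h
    funext i j
    cases hF : F i j <;> simp [outsideE, hF]
    exact h i j hF

/-- A symmetric loopless Boolean matrix with the right row sums is a realisation. -/
def mkOmega (A : Fin n → Fin n → Bool) (hs : ∀ i j, A i j = A j i) (hl : ∀ i, A i i = false)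
    (hd : ∀ i, ∑ j, (A i j).toNat = d i) : Omega d :=
  ⟨{ Adj := fun i j => A i j = true
     symm := ⟨fun i j h => by rwa [hs]⟩
     loopless := ⟨fun i h => by simp [hl] at h⟩ }, fun i => by
    classical
    rw [← hd i, Set.ncard_eq_toFinset_card', Finset.card_eq_sum_ones]
    show ∑ _u ∈ ({u | A i u = true} : Set (Fin n)).toFinset, 1 = _
    rw [Set.toFinset_ofPred, Finset.sum_filter]
    exact Finset.sum_congr rfl fun u _ => by cases A i u <;> simp⟩

theorem adjB_mkOmega (A : Fin n → Fin n → Bool) (hs : ∀ i j, A i j = A j i)
    (hl : ∀ i, A i i = false) (hd : ∀ i, ∑ j, (A i j).toNat = d i) (i j : Fin n) :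
    adjB (mkOmega (d := d) A hs hl hd) i j = A i j := by
  cases h : A i j <;> simp [adjB, mkOmega, h]

end Vale.P335
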