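import Vale.Agent.P335.Disjoint
import Vale.Agent.P335.GraphConn

/-!
# Pair complements, switches, and the energy of the switch chain

A switch keeps the class of the pair of its first and last vertices, so the pair complements only
vanish together on constants; and the switch gradients over the diagonal states of the disjoint
pairs are among the moves of the switch chain.
-/

noncomputable section

namespace Vale.P335

open Finset

variable {n : ℕ} {d : Fin n → ℕ}

/-- A switch keeps the class of the pair formed by its first and last vertices. -/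
theorem pairKey_switches {σ : Fin 4 ↪ Fin n} {G H : Omega d} (h : Switches σ G.1 H.1) :
    pairKey {σ 0, σ 3} H = pairKey {σ 0, σ 3} G := by
  obtain ⟨-, -, -, -, he⟩ := h
  refine outsideE_eq_iff.2 fun i j hF => ?_
  have hne : ∀ a b : Fin 4, a ≠ b → σ a ≠ σ b := fun a b hab e => hab (σ.injective e)
  have c01 : crossE ({σ 0, σ 3} : Finset (Fin n)) (σ 0) (σ 1) = true := by
    simp [crossE, hne 1 0 (by decide), hne 1 3 (by decide)]
  have c23 : crossE ({σ 0, σ 3} : Finset (Fin n)) (σ 2) (σ 3) = true := by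
    simp [crossE, hne 2 0 (by decide), hne 2 3 (by decide)]
  have c02 : crossE ({σ 0, σ 3} : Finset (Fin n)) (σ 0) (σ 2) = true := by
    simp [crossE, hne 2 0 (by decide), hne 2 3 (by decide)]
  have c13 : crossE ({σ 0, σ 3} : Finset (Fin n)) (σ 1) (σ 3) = true := by
    simp [crossE, hne 1 0 (by decide), hne 1 3 (by decide)]
  have hout : ∀ a b, crossE ({σ 0, σ 3} : Finset (Fin n)) a b = true → s(i, j) ≠ s(a, b) := by
    intro a b hab e
    rcases Sym2.eq_iff.1 e with ⟨rfl, rfl⟩ | ⟨rfl, rfl⟩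
    · rw [hab] at hF; exact Bool.noConfusion hF
    · rw [crossE_comm, hab] at hF; exact Bool.noConfusion hF
  refine Bool.eq_iff_iff.2 ?_
  rw [adjB_eq_true, adjB_eq_true, ← SimpleGraph.mem_edgeSet, ← SimpleGraph.mem_edgeSet, he]
  simp only [pairSet, Set.mem_union, Set.mem_sdiff, Set.mem_insert_iff, Set.mem_singleton_iff]
  simp [hout _ _ c01, hout _ _ c23, hout _ _ c02, hout _ _ c13]

/-- The pair complements vanish together only on constants. -/
theorem eq_of_gdev_zero {f : Omega d → ℝ}
    (h : ∀ P : Finset (Fin n), P.card = 2 → gdev P f = 0) (G H : Omega d) : f G = f H :=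
  eq_of_switch_invariant (fun σ G H hσ => (dev_eq_zero_iff.1
    (h {σ 0, σ 3} (Finset.card_pair fun e => by simpa using σ.injective e)) G H
    (pairKey_switches hσ)).symm) G H

/-- A diagonal state of two disjoint pairs is switched by a quadruple which determines the pairs. -/
theorem exists_switch_flip {P Q : Finset (Fin n)} (h : TwoPairs P Q) {G : Omega d}
    (hd : Diag P Q G) : ∃ σ : Fin 4 ↪ Fin n,
      ({σ 0, σ 3} : Finset (Fin n)) = P ∧ ({σ 1, σ 2} : Finset (Fin n)) = Q ∧
        Switches σ G.1 (flipPQ P Q G).1 := by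
  obtain ⟨hP, hQ, hPQ⟩ := id h
  obtain ⟨u, v, huv, rfl⟩ := Finset.card_eq_two.1 hP
  have hu : u ∈ ({u, v} : Finset (Fin n)) := Finset.mem_insert_self _ _
  have hv : v ∈ ({u, v} : Finset (Fin n)) := by simp
  obtain ⟨x, hx, hux⟩ : ∃ x ∈ Q, adjB G u x = true := by
    by_contra hno
    push Not at hno
    have := hd.1 u hu
    rw [Finset.sum_eq_zero fun j hj => by simpa using hno j hj] at this
    exact zero_ne_one this
  obtain ⟨y, hy⟩ := Finset.card_eq_one.1 (by rw [Finset.card_erase_of_mem hx, hQ] :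
    (Q.erase x).card = 1)
  have hxy : x ≠ y := fun e => by
    have : y ∈ Q.erase x := by rw [hy]; exact Finset.mem_singleton_self y
    exact (Finset.mem_erase.1 this).1 e.symm
  have hQe : Q = {x, y} := by rw [← hy, Finset.insert_erase hx]
  subst hQe
  have hxm : x ∈ ({x, y} : Finset (Fin n)) := Finset.mem_insert_self _ _
  have hym : y ∈ ({x, y} : Finset (Fin n)) := by simp
  have e1 := hd.1 u hu
  have e2 := hd.1 v hv
  have e3 := hd.2 x hxm
  rw [Finset.sum_pair hxy, hux] at e1
  rw [Finset.sum_pair hxy] at e2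
  rw [Finset.sum_pair huv, hux] at e3
  have huy : adjB G u y = false := by
    revert e1; cases adjB G u y <;> simp
  have hvx : adjB G v x = false := by
    revert e3; cases adjB G v x <;> simp
  have hvy : adjB G v y = true := by
    rw [hvx] at e2; revert e2; cases adjB G v y <;> simp
  have ne : ∀ a ∈ ({u, v} : Finset (Fin n)), ∀ b ∈ ({x, y} : Finset (Fin n)), a ≠ b :=
    fun a ha b hb e => Finset.disjoint_left.1 hPQ ha (e ▸ hb)
  have nux := ne u hu x hxm
  have nuy := ne u hu y hym
  have nvx := ne v hv x hxm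
  have nvy := ne v hv y hym
  refine ⟨⟨![u, x, y, v], ?_⟩, rfl, rfl, ?_⟩
  · intro a b hab
    fin_cases a <;> fin_cases b <;> first
      | rfl
      | (exfalso; revert hab
         simp [huv, huv.symm, hxy, hxy.symm, nux, nux.symm, nuy, nuy.symm, nvx, nvx.symm, nvy,
           nvy.symm])
  show G.1.Adj u x ∧ G.1.Adj y v ∧ ¬G.1.Adj u y ∧ ¬G.1.Adj x v ∧
    (flipPQ {u, v} {x, y} G).1.edgeSet = G.1.edgeSet \ pairSet u x y v ∪ pairSet u y x v
  have hn : ∀ {i j : Fin n}, adjB G i j = false → ¬G.1.Adj i j := fun {i j} h h' => by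
    rw [← adjB_eq_true, h] at h'; exact Bool.false_ne_true h'
  refine ⟨adjB_eq_true.1 hux, (adjB_eq_true.1 hvy).symm, hn huy,
    fun h' => hn hvx h'.symm, ?_⟩
  ext e
  induction e with
  | h i j =>
    simp only [pairSet, Set.mem_union, Set.mem_sdiff, Set.mem_insert_iff, Set.mem_singleton_iff,
      SimpleGraph.mem_edgeSet, ← adjB_eq_true, adjB_flip h, hd, true_and]
    by_cases hb : blockE {u, v} {x, y} i j = true
    · rw [if_pos hb]
      have hb' := hb
      simp only [blockE, crossE, Bool.and_eq_true, bne_iff_ne, ne_eq, decide_eq_decide] at hb'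
      have cases4 : s(i, j) = s(u, x) ∨ s(i, j) = s(u, y) ∨ s(i, j) = s(v, x) ∨
          s(i, j) = s(v, y) := by
        simp only [Finset.mem_insert, Finset.mem_singleton] at hb'
        by_cases hi : i = u ∨ i = v
        · have hj : j = x ∨ j = y := by
            rcases hi with rfl | rfl <;> grind
          rcases hi with rfl | rfl <;> rcases hj with rfl | rfl <;> simp
        · have hj : j = u ∨ j = v := by grind
          have hi' : i = x ∨ i = y := by grind
          rcases hi' with rfl | rfl <;> rcases hj with rfl | rfl <;> simp [Sym2.eq_swap]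
      have av : ∀ {p q : Fin n}, s(i, j) = s(p, q) → adjB G i j = adjB G p q := fun {p q} e => by
        rcases Sym2.eq_iff.1 e with ⟨rfl, rfl⟩ | ⟨rfl, rfl⟩
        · rfl
        · exact adjB_comm G _ _
      rcases cases4 with e | e | e | e <;> rw [av e, e] <;>
        simp [hux, huy, hvx, hvy, huv, huv.symm, hxy, hxy.symm, nux, nux.symm, nuy,
          nuy.symm, nvx, nvx.symm, nvy, nvy.symm]
    · rw [if_neg hb]
      have out : ∀ p ∈ ({u, v} : Finset (Fin n)), ∀ q ∈ ({x, y} : Finset (Fin n)),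
          s(i, j) ≠ s(p, q) := fun p hp q hq e => hb (by
        rcases Sym2.eq_iff.1 e with ⟨rfl, rfl⟩ | ⟨rfl, rfl⟩
        · exact blockE_of_mem hPQ hp hq
        · rw [blockE_comm]; exact blockE_of_mem hPQ hp hq)
      have sw : s(y, v) = s(v, y) := Sym2.eq_swap
      have sw' : s(x, v) = s(v, x) := Sym2.eq_swap
      simp [sw, sw', out u hu x hxm, out u hu y hym, out v hv x hxm, out v hv y hym]

open scoped Classical in
/-- The switch gradients on the diagonal states are among the moves of the switch chain. -/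
theorem zdiff_energy_le (f : Omega d → ℝ) :
    (∑ P ∈ (univ : Finset (Fin n)).powersetCard 2,
      ∑ Q ∈ ((univ : Finset (Fin n)).powersetCard 2).filter (Disjoint P),
        ip (zdiff P Q f) (zdiff P Q f))
      ≤ 2 * ((Fintype.card (Fin 4 ↪ Fin n) : ℝ) * dirichlet d f) := by
  rcases Nat.eq_zero_or_pos (Fintype.card (Fin 4 ↪ Fin n)) with hT0 | hTpos
  · have : IsEmpty (Fin 4 ↪ Fin n) := Fintype.card_eq_zero_iff.1 hT0
    rw [hT0, Nat.cast_zero, zero_mul, mul_zero]
    refine le_of_eq (Finset.sum_eq_zero fun P hP => Finset.sum_eq_zero fun Q hQ => ?_)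
    obtain ⟨hQ, hPQ⟩ := Finset.mem_filter.1 hQ
    refine Finset.sum_eq_zero fun G _ => ?_
    simp only [zdiff]
    split_ifs with hd
    · obtain ⟨σ, -⟩ := exists_switch_flip
        ⟨(Finset.mem_powersetCard.1 hP).2, (Finset.mem_powersetCard.1 hQ).2, hPQ⟩ hd
      exact isEmptyElim σ
    · simp
  obtain ⟨w, hw⟩ : ∃ w : (Fin 4 ↪ Fin n) × Omega d × Omega d → ℝ,
      w = fun z => if Switches z.1 z.2.1.1 z.2.2.1 then (f z.2.1 - f z.2.2) ^ 2 else 0 := ⟨_, rfl⟩
  have hT : 2 * ((Fintype.card (Fin 4 ↪ Fin n) : ℝ) * dirichlet d f) = ∑ z, w z := by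
    have hw' : ∀ G H : Omega d, (weight G.1 H.1 : ℝ) * (f G - f H) ^ 2 = ∑ σ, w (σ, G, H) :=
      fun G H => by
        simp only [hw, weight, ← Finset.sum_filter, Finset.sum_const, nsmul_eq_mul]
    have hne : (Fintype.card (Fin 4 ↪ Fin n) : ℝ) ≠ 0 := by exact_mod_cast hTpos.ne'
    rw [Fintype.sum_prod_type, Finset.sum_comm, Fintype.sum_prod_type]
    simp only [dirichlet, moveProb, ← hw', Finset.mul_sum]
    refine Finset.sum_congr rfl fun G _ => Finset.sum_congr rfl fun H _ => ?_
    field_simp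
  rw [hT]
  obtain ⟨S, hS⟩ : ∃ S : Finset ((Finset (Fin n) × Finset (Fin n)) × Omega d),
      S = univ.filter fun p => TwoPairs p.1.1 p.1.2 ∧ Diag p.1.1 p.1.2 p.2 := ⟨_, rfl⟩
  have hl : (∑ P ∈ (univ : Finset (Fin n)).powersetCard 2,
      ∑ Q ∈ ((univ : Finset (Fin n)).powersetCard 2).filter (Disjoint P),
        ip (zdiff P Q f) (zdiff P Q f))
      = ∑ p ∈ S, (f p.2 - f (flipPQ p.1.1 p.1.2 p.2)) ^ 2 := by
    rw [hS, Finset.sum_filter, Fintype.sum_prod_type, Fintype.sum_prod_type,
      ← Finset.sum_subset (Finset.subset_univ ((univ : Finset (Fin n)).powersetCard 2))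
        fun P _ hP => Finset.sum_eq_zero fun Q _ => Finset.sum_eq_zero fun G _ =>
          if_neg fun e => hP (Finset.mem_powersetCard.2 ⟨Finset.subset_univ _, e.1.1⟩)]
    refine Finset.sum_congr rfl fun P hP => ?_
    rw [← Finset.sum_subset
      (Finset.subset_univ (((univ : Finset (Fin n)).powersetCard 2).filter (Disjoint P)))
      fun Q _ hQ => Finset.sum_eq_zero fun G _ => if_neg fun e => hQ (Finset.mem_filter.2
        ⟨Finset.mem_powersetCard.2 ⟨Finset.subset_univ _, e.1.2.1⟩, e.1.2.2⟩)]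
    refine Finset.sum_congr rfl fun Q hQ => Finset.sum_congr rfl fun G _ => ?_
    have ht : TwoPairs P Q := ⟨(Finset.mem_powersetCard.1 hP).2,
      (Finset.mem_powersetCard.1 (Finset.mem_filter.1 hQ).1).2, (Finset.mem_filter.1 hQ).2⟩
    by_cases hd : Diag P Q G
    · rw [if_pos ⟨ht, hd⟩]; simp [zdiff, hd, sq]
    · rw [if_neg fun e => hd e.2]; simp [zdiff, hd]
  rw [hl]
  have hmem : ∀ p ∈ S, TwoPairs p.1.1 p.1.2 ∧ Diag p.1.1 p.1.2 p.2 := fun p hp => by
    simpa [hS] using hp
  choose σ hσP hσQ hσ using fun p : {p // p ∈ S} =>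
    exists_switch_flip (hmem p.1 p.2).1 (hmem p.1 p.2).2
  obtain ⟨φ, hφ⟩ : ∃ φ : {p // p ∈ S} → (Fin 4 ↪ Fin n) × Omega d × Omega d,
      φ = fun p => (σ p, p.1.2, flipPQ p.1.1.1 p.1.1.2 p.1.2) := ⟨_, rfl⟩
  have hinj : Function.Injective φ := fun p q e => by
    simp only [hφ, Prod.mk.injEq] at e
    exact Subtype.ext (Prod.ext (Prod.ext (by rw [← hσP p, ← hσP q, e.1])
      (by rw [← hσQ p, ← hσQ q, e.1])) e.2.1)
  rw [← Finset.sum_coe_sort]
  calc ∑ p : {p // p ∈ S}, (f p.1.2 - f (flipPQ p.1.1.1 p.1.1.2 p.1.2)) ^ 2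
      = ∑ p : {p // p ∈ S}, w (φ p) := Finset.sum_congr rfl fun p _ => by
        simp [hw, hφ, hσ p]
    _ = ∑ z ∈ univ.image φ, w z := (Finset.sum_image fun _ _ _ _ e => hinj e).symm
    _ ≤ ∑ z, w z := Finset.sum_le_univ_sum_of_nonneg fun z => by
        rw [hw]; exact ite_nonneg (sq_nonneg _) le_rfl

end Vale.P335
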