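import Vale.Agent.P335.Tables

/-!
# Three rows: the sum of the three pair complements is at most its square

An eigenfunction with eigenvalue below one is first shown to be unchanged when two columns exchange
their parts on the three rows, then when they exchange their parts on two of the rows.
-/

noncomputable section

set_option linter.unusedSectionVars false

namespace Vale.P335

open Finset

variable {R C : Type*} [Fintype R] [Fintype C] [DecidableEq R] [DecidableEq C]
variable {r : R → ℕ} {s : C → ℕ}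

theorem cnt_pair {a b : R} (h : a ≠ b) (X : C → R → Bool) (d : C) :
    cnt {a, b} X d = (X d a).toNat + (X d b).toNat := Finset.sum_pair h

theorem cnt_three {a b k : R} (hab : a ≠ b) (hak : a ≠ k) (hbk : b ≠ k) (X : C → R → Bool)
    (d : C) : cnt {a, b, k} X d = (X d a).toNat + (X d b).toNat + (X d k).toNat := by
  rw [cnt, Finset.sum_insert (by simp [hab, hak]), Finset.sum_pair hbk, add_assoc]

/-- An average at an exchanged table is the average of the exchanged function. -/
theorem avg_sw {S T : Finset R} (hST : S ⊆ T) (f : Table r s → ℝ) (c e : C) (X : Table r s) :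
    avg (outside S) f (sw T c e X) = avg (outside S) (fun Y => f (sw T c e Y)) X := by
  have hmem : ∀ Y, sw T c e Y ∈ cls (outside S) (sw T c e X) ↔ Y ∈ cls (outside S) X := by
    intro Y
    refine ⟨fun h => ?_, fun h => mem_cls.2 (outside_sw_sw hST c e (mem_cls.1 h))⟩
    have := outside_sw_sw hST c e (mem_cls.1 h)
    rw [sw_sw, sw_sw] at this
    exact mem_cls.2 this
  rw [avg_apply, avg_apply,
    ← Finset.sum_equiv (swEquiv T c e) (fun Y => (hmem Y).symm) (fun Y _ => rfl),
    ← Finset.card_equiv (swEquiv T c e) (fun Y => (hmem Y).symm)]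
  rfl

/-- In one class two averages differ by at most the largest change under the exchange. -/
theorem abs_avg_sw_sub_le {S T : Finset R} (hST : S ⊆ T) (f : Table r s → ℝ) (c e : C)
    (X : Table r s) {D : ℝ} (hD : ∀ Y, |f (sw T c e Y) - f Y| ≤ D) :
    |avg (outside S) f (sw T c e X) - avg (outside S) f X| ≤ D := by
  rw [avg_sw hST, avg_apply, avg_apply, ← sub_div, ← Finset.sum_sub_distrib, abs_div,
    abs_of_pos (card_cls_pos _ X), div_le_iff₀ (card_cls_pos _ X), mul_comm]
  refine (Finset.abs_sum_le_sum_abs _ _).trans ?_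
  exact (Finset.sum_le_card_nsmul _ _ D fun Y _ => hD Y).trans_eq (nsmul_eq_mul _ _)

theorem sum_avg_of_eigen {T : Finset R} (hT : T.card = 3) {f : Table r s → ℝ} {μ : ℝ}
    (hf : ∑ k ∈ T, dev (outside (T.erase k)) f = μ • f) (X : Table r s) :
    ∑ k ∈ T, avg (outside (T.erase k)) f X = (3 - μ) * f X := by
  have := congrFun hf X
  simp only [dev_apply, Finset.sum_apply, Pi.sub_apply, Finset.sum_sub_distrib, Finset.sum_const,
    hT, nsmul_eq_mul, Pi.smul_apply, smul_eq_mul] at this
  push_cast at this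
  linarith

/-- Step one: columns may exchange their parts on the three rows. -/
theorem sw_three_invariant {T : Finset R} (hT : T.card = 3) {f : Table r s → ℝ} {μ : ℝ}
    (hμ : μ < 1) (hf : ∑ k ∈ T, dev (outside (T.erase k)) f = μ • f) (c e : C) (X : Table r s) :
    f (sw T c e X) = f X := by
  have : Nonempty (Table r s × C × C) := ⟨(X, c, e)⟩
  obtain ⟨⟨X₀, c₀, e₀⟩, hmax⟩ := Finite.exists_max fun z : Table r s × C × C =>
    |f (sw T z.2.1 z.2.2 z.1) - f z.1|
  have hD := fun Y c e => hmax (Y, c, e)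
  simp only at hD
  obtain ⟨D, hD0⟩ : ∃ D, D = |f (sw T c₀ e₀ X₀) - f X₀| := ⟨_, rfl⟩
  simp only [← hD0] at hD
  have hle : (3 - μ) * D ≤ 2 * D := by
    by_cases h : cnt T X₀.1 c₀ = cnt T X₀.1 e₀
    · obtain ⟨k, hk, hkk⟩ : ∃ k ∈ T, X₀.1 c₀ k = X₀.1 e₀ k := by
        by_contra hno
        push Not at hno
        have h1 : cnt T X₀.1 c₀ + cnt T X₀.1 e₀ = 3 := by
          rw [cnt, cnt, ← Finset.sum_add_distrib, Finset.sum_congr rfl fun k hk => ?_,
            Finset.sum_const, hT, smul_eq_mul, mul_one]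
          have := hno k hk
          revert this
          cases X₀.1 c₀ k <;> cases X₀.1 e₀ k <;> simp
        omega
      have hsame : outside (T.erase k) (sw T c₀ e₀ X₀) = outside (T.erase k) X₀ := by
        refine outside_eq_iff.2 fun d i hi => ?_
        rw [sw_apply]
        split_ifs with h'
        · have : i = k := by
            by_contra hne
            exact hi (Finset.mem_erase.2 ⟨hne, h'.1⟩)
          subst this
          rcases eq_or_ne d c₀ with rfl | h1
          · simp [hkk]
          rcases eq_or_ne d e₀ with rfl | h2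
          · simp [hkk]
          rw [Equiv.swap_apply_of_ne_of_ne h1 h2]
        · rfl
      have e1 : (3 - μ) * (f (sw T c₀ e₀ X₀) - f X₀) = ∑ j ∈ T.erase k,
          (avg (outside (T.erase j)) f (sw T c₀ e₀ X₀) - avg (outside (T.erase j)) f X₀) := by
        rw [Finset.sum_erase (f := fun j => avg (outside (T.erase j)) f (sw T c₀ e₀ X₀)
            - avg (outside (T.erase j)) f X₀) _ (sub_eq_zero.2 (avg_congr _ f hsame)),
          Finset.sum_sub_distrib, sum_avg_of_eigen hT hf, sum_avg_of_eigen hT hf, mul_sub]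
      calc (3 - μ) * D = |(3 - μ) * (f (sw T c₀ e₀ X₀) - f X₀)| := by
            rw [abs_mul, abs_of_pos (by linarith : (0 : ℝ) < 3 - μ), hD0]
        _ ≤ ∑ _j ∈ T.erase k, D := by
            rw [e1]
            refine (Finset.abs_sum_le_sum_abs _ _).trans (Finset.sum_le_sum fun j _ => ?_)
            exact abs_avg_sw_sub_le (Finset.erase_subset _ _) f c₀ e₀ X₀ fun Y => hD Y c₀ e₀
        _ = 2 * D := by simp [Finset.card_erase_of_mem hk, hT]
    · have : D = 0 := by simp [hD0, sw_of_ne h]
      simp [this]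
  have hD2 : D ≤ 0 := by nlinarith [abs_nonneg (f (sw T c₀ e₀ X₀) - f X₀)]
  exact sub_eq_zero.1 (abs_nonpos_iff.1 ((hD X c e).trans hD2))

/-- Two sets of columns in inclusion with sizes one apart differ in one column. -/
theorem exists_extra {U : Finset C} {F G : C → Bool} (hle : ∀ d ∈ U, F d = true → G d = true)
    (hsum : ∑ d ∈ U, (G d).toNat = ∑ d ∈ U, (F d).toNat + 1) :
    ∃ u ∈ U, G u = true ∧ F u = false ∧ ∀ d ∈ U, d ≠ u → G d = F d := by
  obtain ⟨u, hu, h1, h2⟩ : ∃ u ∈ U, G u = true ∧ F u = false := by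
    by_contra hno
    push Not at hno
    have : ∑ d ∈ U, (G d).toNat ≤ ∑ d ∈ U, (F d).toNat := Finset.sum_le_sum fun d hd => by
      cases hg : G d <;> simp
      cases hf : F d <;> simp
      exact hno d hd hg hf
    omega
  refine ⟨u, hu, h1, h2, ?_⟩
  rw [← Finset.add_sum_erase _ _ hu, ← Finset.add_sum_erase _ _ hu, h1, h2] at hsum
  simp at hsum
  intro d hd hne
  have h := (Finset.sum_eq_sum_iff_of_le fun d hd => by
    cases hf : F d
    · simp
    · simp [hle d (Finset.mem_of_mem_erase hd) hf]).1 (by omega : ∑ d ∈ U.erase u, (F d).toNat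
      = ∑ d ∈ U.erase u, (G d).toNat) d (Finset.mem_erase.2 ⟨hne, hd⟩)
  revert h
  cases F d <;> cases G d <;> simp

/-- Comparable sets of columns of one size are equal. -/
theorem eq_of_comparable {U : Finset C} {F G : C → Bool}
    (hle : ∀ d ∈ U, F d = true → G d = true)
    (hsum : ∑ d ∈ U, (F d).toNat = ∑ d ∈ U, (G d).toNat) : ∀ d ∈ U, F d = G d := by
  intro d hd
  have h := (Finset.sum_eq_sum_iff_of_le fun d hd => by
    cases hf : F d
    · simp
    · simp [hle d hd hf]).1 hsum d hd
  revert h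
  cases F d <;> cases G d <;> simp

/-- The ones of one row of a pair may be placed freely on the columns where the pair has one. -/
theorem exists_refill {a k : R} (hak : a ≠ k) (X : Table r s) {U S : Finset C}
    (hU : ∀ d ∈ U, X.1 d a ≠ X.1 d k) (hS : S ⊆ U)
    (hcard : S.card = ∑ d ∈ U, (X.1 d a).toNat) :
    ∃ Z : Table r s, outside {a, k} Z = outside {a, k} X ∧
      (∀ d ∈ U, Z.1 d a = decide (d ∈ S)) ∧ ∀ d, d ∉ U → Z.1 d a = X.1 d a := by
  obtain ⟨F, hF⟩ : ∃ F : C → R → Bool, F = fun d i => if d ∈ U ∧ i = a then decide (d ∈ S)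
      else if d ∈ U ∧ i = k then !decide (d ∈ S) else X.1 d i := ⟨_, rfl⟩
  have hsS : ∑ d ∈ U, (decide (d ∈ S)).toNat = S.card := by
    rw [← Finset.sum_subset hS (fun d _ hd => by simp [hd]), Finset.card_eq_sum_ones]
    exact Finset.sum_congr rfl fun d hd => by simp [hd]
  have hsK : ∑ d ∈ U, (!decide (d ∈ S)).toNat = ∑ d ∈ U, (X.1 d k).toNat := by
    have h1 : ∑ d ∈ U, ((decide (d ∈ S)).toNat + (!decide (d ∈ S)).toNat)
        = ∑ d ∈ U, ((X.1 d a).toNat + (X.1 d k).toNat) := Finset.sum_congr rfl fun d hd => by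
      have := hU d hd
      revert this
      cases X.1 d a <;> cases X.1 d k <;> by_cases h : d ∈ S <;> simp [h]
    rw [Finset.sum_add_distrib, Finset.sum_add_distrib, hsS, hcard] at h1
    omega
  refine ⟨⟨F, fun i => ?_, fun d => ?_⟩, outside_eq_iff.2 fun d i hi => ?_, fun d hd => ?_,
    fun d hd => ?_⟩
  · rw [← X.2.1 i, ← Finset.sum_add_sum_compl U, ← Finset.sum_add_sum_compl U fun d =>
      (X.1 d i).toNat]
    refine congrArg₂ (· + ·) ?_ (Finset.sum_congr rfl fun d hd => by
      simp [hF, Finset.mem_compl.1 hd])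
    rcases eq_or_ne i a with rfl | hia
    · rw [← hcard, ← hsS]
      exact Finset.sum_congr rfl fun d hd => by simp [hF, hd]
    rcases eq_or_ne i k with rfl | hik
    · rw [← hsK]
      exact Finset.sum_congr rfl fun d hd => by simp [hF, hd, hia]
    exact Finset.sum_congr rfl fun d _ => by simp [hF, hia, hik]
  · rw [← X.2.2 d, ← Finset.sum_add_sum_compl {a, k}, ← Finset.sum_add_sum_compl {a, k} fun i =>
      (X.1 d i).toNat, Finset.sum_pair hak, Finset.sum_pair hak]
    refine congrArg₂ (· + ·) ?_ (Finset.sum_congr rfl fun i hi => ?_)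
    · by_cases hd : d ∈ U
      · have := hU d hd
        revert this
        cases hx : X.1 d a <;> cases hy : X.1 d k <;> by_cases h : d ∈ S <;>
          simp [hF, hd, h, hak.symm]
      · simp [hF, hd]
    · simp only [Finset.mem_compl, Finset.mem_insert, Finset.mem_singleton, not_or] at hi
      simp [hF, hi.1, hi.2]
  · simp only [Finset.mem_insert, Finset.mem_singleton, not_or] at hi
    simp [hF, hi.1, hi.2]
  · simp [hF, hd]
  · simp [hF, hd]

/-- An exchange of three parts followed by one of two parts. -/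
theorem abs_sub_le_of_two_steps {S T : Finset R} (hST : S ⊆ T) {f : Table r s → ℝ} {D : ℝ}
    (hinv : ∀ d e Z, f (sw T d e Z) = f Z) (hS : ∀ d e Z, |f (sw S d e Z) - f Z| ≤ D) {c e u : C}
    (hce : c ≠ e) (hcu : c ≠ u) (heu : e ≠ u) {Z W : Table r s}
    (hT : cnt T Z.1 e = cnt T Z.1 u) (hcnt : cnt S Z.1 c = cnt S Z.1 e)
    (hout : outside T W = outside T Z)
    (hc : ∀ i ∈ T, W.1 c i = if i ∈ S then Z.1 e i else Z.1 c i)
    (he : ∀ i ∈ T, W.1 e i = Z.1 u i)
    (hu : ∀ i ∈ T, W.1 u i = if i ∈ S then Z.1 c i else Z.1 e i)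
    (hrest : ∀ d, d ≠ c → d ≠ e → d ≠ u → ∀ i ∈ T, W.1 d i = Z.1 d i) :
    |f W - f Z| ≤ D := by
  obtain ⟨V, hV⟩ : ∃ V, V = sw T e u Z := ⟨_, rfl⟩
  have hVv : ∀ d, ∀ i ∈ T, V.1 d i = Z.1 (Equiv.swap e u d) i := fun d i hi => by
    rw [hV, sw_apply, if_pos ⟨hi, hT⟩]
  have hcS : cnt S V.1 c = cnt S V.1 u := by
    have e1 : cnt S V.1 c = cnt S Z.1 c := Finset.sum_congr rfl fun i hi => by
      rw [hVv c i (hST hi), Equiv.swap_apply_of_ne_of_ne hce hcu]
    have e2 : cnt S V.1 u = cnt S Z.1 e := Finset.sum_congr rfl fun i hi => by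
      rw [hVv u i (hST hi), Equiv.swap_apply_right]
    rw [e1, e2, hcnt]
  have hW : sw S c u V = W := by
    refine Subtype.ext (funext fun d => funext fun i => ?_)
    by_cases hi : i ∈ T
    swap
    · rw [sw_apply, if_neg fun h => hi (hST h.1), hV, sw_apply, if_neg fun h => hi h.1,
        outside_eq_iff.1 hout d i hi]
    rw [sw_apply]
    simp only [hcS, and_true, hVv _ i hi]
    rcases eq_or_ne d c with rfl | h1
    · rw [Equiv.swap_apply_left, Equiv.swap_apply_right, Equiv.swap_apply_of_ne_of_ne hce hcu,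
        hc i hi]
    rcases eq_or_ne d e with rfl | h2
    · rw [Equiv.swap_apply_of_ne_of_ne hce.symm heu, ite_self, Equiv.swap_apply_left, he i hi]
    rcases eq_or_ne d u with rfl | h3
    · rw [Equiv.swap_apply_right, Equiv.swap_apply_right, Equiv.swap_apply_of_ne_of_ne hce hcu,
        hu i hi]
    rw [Equiv.swap_apply_of_ne_of_ne h1 h3, ite_self, Equiv.swap_apply_of_ne_of_ne h2 h3,
      hrest d h1 h2 h3 i hi]
  rw [← hW, ← hinv e u Z, ← hV]
  exact hS c u V

/-- A single exchange of two parts. -/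
theorem abs_sub_le_of_step {S T : Finset R} (hST : S ⊆ T) {f : Table r s → ℝ} {D : ℝ}
    (hS : ∀ d e Z, |f (sw S d e Z) - f Z| ≤ D) {c e : C} {Z W : Table r s}
    (hcnt : cnt S Z.1 c = cnt S Z.1 e) (hout : outside T W = outside T Z)
    (hc : ∀ i ∈ T, W.1 c i = if i ∈ S then Z.1 e i else Z.1 c i)
    (he : ∀ i ∈ T, W.1 e i = if i ∈ S then Z.1 c i else Z.1 e i)
    (hrest : ∀ d, d ≠ c → d ≠ e → ∀ i ∈ T, W.1 d i = Z.1 d i) : |f W - f Z| ≤ D := by
  have hW : sw S c e Z = W := by
    refine Subtype.ext (funext fun d => funext fun i => ?_)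
    rw [sw_apply]
    by_cases hi : i ∈ T
    swap
    · rw [if_neg fun h => hi (hST h.1), outside_eq_iff.1 hout d i hi]
    simp only [hcnt, and_true]
    rcases eq_or_ne d c with rfl | h1
    · rw [Equiv.swap_apply_left, hc i hi]
    rcases eq_or_ne d e with rfl | h2
    · rw [Equiv.swap_apply_right, he i hi]
    rw [Equiv.swap_apply_of_ne_of_ne h1 h2, ite_self, hrest d h1 h2 i hi]
  rw [← hW]
  exact hS c e Z

/-- Step two, core: the averages over a pair at two neighbours are within the oscillation. -/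
theorem abs_avg_pair_sub_le {a b k : R} (hab : a ≠ b) (hak : a ≠ k) (hbk : b ≠ k)
    {f : Table r s → ℝ} (hinv : ∀ d e Z, f (sw {a, b, k} d e Z) = f Z) {D : ℝ}
    (h1 : ∀ d e Z, |f (sw {a, b} d e Z) - f Z| ≤ D)
    (h2 : ∀ d e Z, |f (sw {b, k} d e Z) - f Z| ≤ D) {c e : C} {X : Table r s}
    (hca : X.1 c a = true) (hcb : X.1 c b = false) (hck : X.1 c k = true)
    (hea : X.1 e a = false) (heb : X.1 e b = true) (hek : X.1 e k = false) :
    |avg (outside {a, k}) f (sw {a, b} c e X) - avg (outside {a, k}) f X| ≤ D := by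
  have hce : c ≠ e := fun h => by rw [h, hea] at hca; exact Bool.false_ne_true hca
  obtain ⟨Y, hY⟩ : ∃ Y, Y = sw {a, b} c e X := ⟨_, rfl⟩
  rw [← hY]
  have hYv : ∀ d i, Y.1 d i = if i = a ∨ i = b then X.1 (Equiv.swap c e d) i else X.1 d i := by
    intro d i
    simp [hY, sw_apply, cnt_pair hab, hca, hcb, hea, heb]
  obtain ⟨U, hU⟩ : ∃ U, U = Finset.univ.filter fun d => d ≠ c ∧ d ≠ e ∧ X.1 d a ≠ X.1 d k :=
    ⟨_, rfl⟩
  have memU : ∀ {d}, d ∈ U ↔ d ≠ c ∧ d ≠ e ∧ X.1 d a ≠ X.1 d k := fun {d} => by simp [hU]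
  have cq : ∀ {W V : Table r s}, W ∈ cls (outside {a, k}) V → ∀ d,
      (W.1 d a).toNat + (W.1 d k).toNat = (V.1 d a).toNat + (V.1 d k).toNat := by
    intro W V h d
    have := cnt_eq_of_outside (mem_cls.1 h) d
    rwa [cnt_pair hak, cnt_pair hak] at this
  have co : ∀ {W V : Table r s}, W ∈ cls (outside {a, k}) V → ∀ d i, i ≠ a → i ≠ k →
      W.1 d i = V.1 d i := fun h d i hi hi' =>
    outside_eq_iff.1 (mem_cls.1 h) d i (by simp [hi, hi'])
  have frX : ∀ Z ∈ cls (outside {a, k}) X, Z.1 c a = true ∧ Z.1 c k = true ∧ Z.1 c b = false ∧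
      Z.1 e a = false ∧ Z.1 e k = false ∧ Z.1 e b = true ∧
      ∀ d, d ≠ c → d ≠ e → d ∉ U → Z.1 d a = X.1 d a ∧ Z.1 d k = X.1 d k := by
    intro Z hZ
    have qc := cq hZ c
    have qe := cq hZ e
    rw [hca, hck] at qc
    rw [hea, hek] at qe
    refine ⟨?_, ?_, by rw [co hZ c b hab.symm hbk, hcb], ?_, ?_,
      by rw [co hZ e b hab.symm hbk, heb], fun d h h' hd => ?_⟩
    · revert qc; cases Z.1 c a <;> cases Z.1 c k <;> simp
    · revert qc; cases Z.1 c a <;> cases Z.1 c k <;> simp
    · revert qe; cases Z.1 e a <;> cases Z.1 e k <;> simp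
    · revert qe; cases Z.1 e a <;> cases Z.1 e k <;> simp
    · have := cq hZ d
      have hxx : X.1 d a = X.1 d k := by
        by_contra hne; exact hd (memU.2 ⟨h, h', hne⟩)
      revert this hxx
      cases Z.1 d a <;> cases Z.1 d k <;> cases X.1 d a <;> cases X.1 d k <;> simp
  have frY : ∀ W ∈ cls (outside {a, k}) Y, W.1 c k = !W.1 c a ∧ W.1 c b = true ∧
      W.1 e k = !W.1 e a ∧ W.1 e b = false ∧
      ∀ d, d ≠ c → d ≠ e → d ∉ U → W.1 d a = X.1 d a ∧ W.1 d k = X.1 d k := by
    intro W hW
    have qc := cq hW c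
    have qe := cq hW e
    simp [hYv, hea, hck, hak.symm, hbk.symm] at qc
    simp [hYv, hca, hek, hak.symm, hbk.symm] at qe
    refine ⟨?_, by rw [co hW c b hab.symm hbk]; simp [hYv, heb], ?_,
      by rw [co hW e b hab.symm hbk]; simp [hYv, hcb], fun d h h' hd => ?_⟩
    · revert qc; cases W.1 c a <;> cases W.1 c k <;> simp
    · revert qe; cases W.1 e a <;> cases W.1 e k <;> simp
    · have := cq hW d
      have hxx : X.1 d a = X.1 d k := by
        by_contra hne; exact hd (memU.2 ⟨h, h', hne⟩)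
      simp only [hYv, Equiv.swap_apply_of_ne_of_ne h h', ite_self] at this
      revert this hxx
      cases W.1 d a <;> cases W.1 d k <;> cases X.1 d a <;> cases X.1 d k <;> simp
  have inU : ∀ Z ∈ cls (outside {a, k}) X, ∀ d ∈ U, Z.1 d k = !Z.1 d a := by
    intro Z hZ d hd
    have := cq hZ d
    have := (memU.1 hd).2.2
    revert this ‹(Z.1 d a).toNat + _ = _›
    cases Z.1 d a <;> cases Z.1 d k <;> cases X.1 d a <;> cases X.1 d k <;> simp
  have inUY : ∀ W ∈ cls (outside {a, k}) Y, ∀ d ∈ U, W.1 d k = !W.1 d a := by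
    intro W hW d hd
    have h' := cq hW d
    obtain ⟨n1, n2, h3⟩ := memU.1 hd
    simp only [hYv, Equiv.swap_apply_of_ne_of_ne n1 n2, ite_self] at h'
    revert h' h3
    cases W.1 d a <;> cases W.1 d k <;> cases X.1 d a <;> cases X.1 d k <;> simp
  have hbd : ∀ (W Z : Table r s), W ∈ cls (outside {a, k}) Y → Z ∈ cls (outside {a, k}) X →
      ∀ d, d ≠ c → d ≠ e → W.1 d b = Z.1 d b := by
    intro W Z hW hZ d h h'
    rw [co hW d b hab.symm hbk, co hZ d b hab.symm hbk, hYv, Equiv.swap_apply_of_ne_of_ne h h',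
      ite_self]
  have hsum : ∀ W ∈ cls (outside {a, k}) Y, ∀ Z ∈ cls (outside {a, k}) X,
      ∑ d ∈ U, (Z.1 d a).toNat + 1
        = ∑ d ∈ U, (W.1 d a).toNat + (W.1 c a).toNat + (W.1 e a).toNat := by
    intro W hW Z hZ
    obtain ⟨z1, -, -, z4, -, -, zr⟩ := frX Z hZ
    obtain ⟨-, -, -, -, wr⟩ := frY W hW
    have hcU : c ∉ U := fun h => (memU.1 h).1 rfl
    have heU : e ∉ U := fun h => (memU.1 h).2.1 rfl
    have split : ∀ V : Table r s, r a = ∑ d ∈ (insert c (insert e U))ᶜ, (V.1 d a).toNat
        + ((V.1 c a).toNat + ((V.1 e a).toNat + ∑ d ∈ U, (V.1 d a).toNat)) := by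
      intro V
      rw [← V.2.1 a, ← Finset.sum_compl_add_sum (insert c (insert e U)),
        Finset.sum_insert (by simp [hce, hcU]), Finset.sum_insert heU]
    have e0 : ∑ d ∈ (insert c (insert e U))ᶜ, (W.1 d a).toNat
        = ∑ d ∈ (insert c (insert e U))ᶜ, (Z.1 d a).toNat := by
      refine Finset.sum_congr rfl fun d hd => ?_
      simp only [Finset.mem_compl, Finset.mem_insert, not_or] at hd
      rw [(wr d hd.1 hd.2.1 hd.2.2).1, (zr d hd.1 hd.2.1 hd.2.2).1]
    have := split W
    have := split Z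
    rw [z1, z4, Bool.toNat_true, Bool.toNat_false] at this
    omega
  let rel : Table r s → Table r s → Prop := fun W Z =>
    (∀ d ∈ U, Z.1 d a = true → W.1 d a = true) ∨ ∀ d ∈ U, W.1 d a = true → Z.1 d a = true
  rw [avg_apply, avg_apply]
  refine abs_avg_sub_avg_le ⟨Y, self_mem_cls _ Y⟩ ⟨X, self_mem_cls _ X⟩ rel ?_ ?_ f f ?_
  · intro W hW
    obtain ⟨S, hS, hcard, hcomp⟩ : ∃ S ⊆ U, S.card = ∑ d ∈ U, (X.1 d a).toNat ∧
        ((∀ d ∈ S, W.1 d a = true) ∨ ∀ d ∈ U, W.1 d a = true → d ∈ S) := by
      have hn : ∑ d ∈ U, (X.1 d a).toNat ≤ U.card := by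
        rw [Finset.card_eq_sum_ones]
        exact Finset.sum_le_sum fun d _ => Bool.toNat_le _
      rcases le_total (∑ d ∈ U, (X.1 d a).toNat) (U.filter fun d => W.1 d a = true).card
        with h | h
      · obtain ⟨S, hS, hc⟩ := Finset.exists_subset_card_eq h
        exact ⟨S, hS.trans (Finset.filter_subset _ _), hc,
          Or.inl fun d hd => (Finset.mem_filter.1 (hS hd)).2⟩
      · obtain ⟨S, h1, h2, hc⟩ := Finset.exists_subsuperset_card_eq
          (Finset.filter_subset _ U) h hn
        exact ⟨S, h2, hc, Or.inr fun d hd hd' => h1 (Finset.mem_filter.2 ⟨hd, hd'⟩)⟩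
    obtain ⟨Z, hZ, hZU, -⟩ := exists_refill hak X (fun d hd => (memU.1 hd).2.2) hS hcard
    exact ⟨Z, mem_cls.2 hZ, hcomp.imp
      (fun h d hd h' => h d (by rw [hZU d hd] at h'; exact of_decide_eq_true h'))
      fun h d hd h' => by rw [hZU d hd]; exact decide_eq_true (h d hd h')⟩
  · obtain ⟨w, hw⟩ : ∃ w : Table r s → ℝ, w = fun W =>
        (((cls (outside {a, k}) X).filter (rel W)).card : ℝ)⁻¹ := ⟨_, rfl⟩
    have key : ∀ Z ∈ cls (outside {a, k}) X,
        (fun Z => if Z ∈ cls (outside {a, k}) X then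
          ∑ W ∈ cls (outside {a, k}) Y with rel W Z, w W else 0) Z
        = (fun Z => if Z ∈ cls (outside {a, k}) X then
          ∑ W ∈ cls (outside {a, k}) Y with rel W Z, w W else 0) X := by
      intro Z hZ
      refine eq_of_sw_invariant (f := fun Z => if Z ∈ cls (outside {a, k}) X then
        ∑ W ∈ cls (outside {a, k}) Y with rel W Z, w W else 0) hak (fun d => d ∈ U) ?_
        (mem_cls.1 hZ) fun d hd => ?_
      · intro d e' Z hd he'
        have hmem : ∀ V, sw {a, k} d e' V ∈ cls (outside {a, k}) X ↔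
            V ∈ cls (outside {a, k}) X := fun V => by simp [mem_cls, outside_sw]
        by_cases hZ : Z ∈ cls (outside {a, k}) X
        swap
        · simp [hmem, hZ]
        simp only [hmem, hZ, if_true]
        have hsw : ∀ V : Table r s,
            (V ∈ cls (outside {a, k}) X ∨ V ∈ cls (outside {a, k}) Y) →
            ∀ u ∈ U, (sw {a, k} d e' V).1 u a = V.1 (Equiv.swap d e' u) a := by
          intro V hV u _
          have hV' : ∀ u ∈ U, V.1 u k = !V.1 u a := hV.elim (inU V) (inUY V)
          have hc : cnt {a, k} V.1 d = cnt {a, k} V.1 e' := by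
            rw [cnt_pair hak, cnt_pair hak, hV' d hd, hV' e' he']
            cases V.1 d a <;> cases V.1 e' a <;> rfl
          rw [sw_apply, if_pos ⟨Finset.mem_insert_self a _, hc⟩]
        have hswU : ∀ u, Equiv.swap d e' u ∈ U ↔ u ∈ U := fun u => by
          rcases eq_or_ne u d with rfl | n1
          · simp [hd, he']
          rcases eq_or_ne u e' with rfl | n2
          · simp [hd, he']
          rw [Equiv.swap_apply_of_ne_of_ne n1 n2]
        have hrel : ∀ W ∈ cls (outside {a, k}) Y, ∀ V ∈ cls (outside {a, k}) X,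
            (rel (sw {a, k} d e' W) (sw {a, k} d e' V) ↔ rel W V) := by
          intro W hW V hV
          have hh : ∀ P Q : Table r s,
              ((∀ u ∈ U, P.1 (Equiv.swap d e' u) a = true → Q.1 (Equiv.swap d e' u) a = true)
                ↔ ∀ u ∈ U, P.1 u a = true → Q.1 u a = true) := fun P Q => by
            refine ⟨fun h u hu => ?_, fun h u hu => h _ ((hswU u).2 hu)⟩
            simpa using h _ ((hswU u).2 hu)
          refine or_congr ((forall₂_congr fun u hu => ?_).trans (hh V W))
            ((forall₂_congr fun u hu => ?_).trans (hh W V))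
          all_goals rw [hsw W (Or.inr hW) u hu, hsw V (Or.inl hV) u hu]
        have hmemY : ∀ V, sw {a, k} d e' V ∈ cls (outside {a, k}) Y ↔
            V ∈ cls (outside {a, k}) Y := fun V => by simp [mem_cls, outside_sw]
        symm
        refine Finset.sum_equiv (swEquiv {a, k} d e') (fun W => ?_) (fun W hW => ?_)
        · show _ ↔ sw {a, k} d e' W ∈ _
          simp only [Finset.mem_filter, hmemY]
          exact and_congr_right fun hW => (hrel W hW Z hZ).symm
        · have hW' := (Finset.mem_filter.1 hW).1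
          show w W = w (sw {a, k} d e' W)
          simp only [hw]
          congr 2
          refine Finset.card_equiv (swEquiv {a, k} d e') fun V => ?_
          show _ ↔ sw {a, k} d e' V ∈ _
          simp only [Finset.mem_filter, hmem]
          exact and_congr_right fun hV => (hrel W hW' V hV).symm
      · by_contra hdU
        obtain ⟨z1, -, -, z4, -, -, zr⟩ := frX Z hZ
        rcases eq_or_ne d c with rfl | n1
        · exact hd (by rw [z1, hca])
        rcases eq_or_ne d e with rfl | n2
        · exact hd (by rw [z4, hea])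
        exact hd (zr d n1 n2 hdU).1.symm
    intro Z hZ Z' hZ'
    have a1 := key Z hZ
    have a2 := key Z' hZ'
    simp only [hZ, hZ', if_true, self_mem_cls] at a1 a2
    rw [hw] at a1 a2
    exact a1.trans a2.symm
  · intro W hW Z hZ hrel
    obtain ⟨z1, z2, z3, z4, z5, z6, zr⟩ := frX Z hZ
    obtain ⟨w1, w2, w3, w4, wr⟩ := frY W hW
    have hs := hsum W hW Z hZ
    have sub1 : ({a, b} : Finset R) ⊆ {a, b, k} := by
      intro i; simp only [Finset.mem_insert, Finset.mem_singleton]; tauto
    have sub2 : ({b, k} : Finset R) ⊆ {a, b, k} := Finset.subset_insert a _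
    have hout : outside {a, b, k} W = outside {a, b, k} Z := outside_eq_iff.2 fun d i hi => by
      simp only [Finset.mem_insert, Finset.mem_singleton, not_or] at hi
      rw [co hW d i hi.1 hi.2.2, co hZ d i hi.1 hi.2.2, hYv, if_neg (by simp [hi.1, hi.2.1])]
    have rest : ∀ d, d ≠ c → d ≠ e → (d ∈ U → Z.1 d a = W.1 d a) →
        ∀ i ∈ ({a, b, k} : Finset R), W.1 d i = Z.1 d i := by
      intro d h h' hd i hi
      simp only [Finset.mem_insert, Finset.mem_singleton] at hi
      by_cases hdU : d ∈ U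
      · rcases hi with rfl | rfl | rfl
        exacts [(hd hdU).symm, hbd W Z hW hZ d h h',
          by rw [inU Z hZ d hdU, inUY W hW d hdU, hd hdU]]
      · rcases hi with rfl | rfl | rfl
        exacts [(wr d h h' hdU).1.trans (zr d h h' hdU).1.symm, hbd W Z hW hZ d h h',
          (wr d h h' hdU).2.trans (zr d h h' hdU).2.symm]
    have sameU : ∑ d ∈ U, (Z.1 d a).toNat = ∑ d ∈ U, (W.1 d a).toNat →
        ∀ d ∈ U, Z.1 d a = W.1 d a := fun h d hd => hrel.elim
      (fun hl => eq_of_comparable hl h d hd) fun hl => (eq_of_comparable hl h.symm d hd).symm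
    cases ca : W.1 c a <;> cases ea : W.1 e a <;>
      simp only [ca, ea, Bool.toNat_false, Bool.toNat_true, Bool.not_false, Bool.not_true]
        at hs w1 w3
    · -- neither
      obtain ⟨u, hu, hWu, hZu, hne⟩ : ∃ u ∈ U, W.1 u a = true ∧ Z.1 u a = false ∧
          ∀ d ∈ U, d ≠ u → W.1 d a = Z.1 d a := by
        rcases hrel with hl | hl
        · exact exists_extra hl (by omega)
        · exfalso
          have : ∑ d ∈ U, (W.1 d a).toNat ≤ ∑ d ∈ U, (Z.1 d a).toNat :=
            Finset.sum_le_sum fun d hd => by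
              cases hwd : W.1 d a
              · simp
              · simp [hl d hd hwd]
          omega
      obtain ⟨nuc, nue, -⟩ := memU.1 hu
      have hZk := inU Z hZ u hu
      have hWk := inUY W hW u hu
      have hub := hbd W Z hW hZ u nuc nue
      rw [hZu, Bool.not_false] at hZk
      rw [hWu, Bool.not_true] at hWk
      have hr : ∀ d, d ≠ c → d ≠ e → d ≠ u → ∀ i ∈ ({a, b, k} : Finset R),
          W.1 d i = Z.1 d i := fun d h h' h'' => rest d h h' fun hd => (hne d hd h'').symm
      cases hβ : Z.1 u b <;> rw [hβ] at hub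
      · exact abs_sub_le_of_two_steps sub1 hinv h1 hce nuc.symm nue.symm
          (by simp [cnt_three hab hak hbk, z4, z5, z6, hZu, hZk, hβ])
          (by simp [cnt_pair hab, z1, z3, z4, z6]) hout
          (by simp [ca, w1, w2, z2, z4, z6, hak.symm, hbk.symm])
          (by simp [ea, w3, w4, hZu, hZk, hβ])
          (by simp [hWu, hWk, hub, z1, z3, z5, hak.symm, hbk.symm]) hr
      · exact abs_sub_le_of_two_steps sub2 hinv h2 hce.symm nue.symm nuc.symm
          (by simp [cnt_three hab hak hbk, z1, z2, z3, hZu, hZk, hβ])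
          (by simp [cnt_pair hbk, z2, z3, z5, z6]) hout
          (by simp [ea, w3, w4, z2, z3, z4, hab, hak])
          (by simp [ca, w1, w2, hZu, hZk, hβ])
          (by simp [hWu, hWk, hub, z1, z5, z6, hab, hak])
          fun d h h' h'' => hr d h' h h''
    · -- only the second column
      exact abs_sub_le_of_step sub1 h1 (by simp [cnt_pair hab, z1, z3, z4, z6]) hout
        (by simp [ca, w1, w2, z2, z4, z6, hak.symm, hbk.symm])
        (by simp [ea, w3, w4, z1, z3, z5, hak.symm, hbk.symm])
        fun d h h' => rest d h h' (sameU (by omega) d)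
    · -- only the first column
      exact abs_sub_le_of_step sub2 h2 (by simp [cnt_pair hbk, z2, z3, z5, z6]) hout
        (by simp [ca, w1, w2, z1, z5, z6, hab, hak])
        (by simp [ea, w3, w4, z2, z3, z4, hab, hak])
        fun d h h' => rest d h h' (sameU (by omega) d)
    · -- both
      obtain ⟨u, hu, hZu, hWu, hne⟩ : ∃ u ∈ U, Z.1 u a = true ∧ W.1 u a = false ∧
          ∀ d ∈ U, d ≠ u → Z.1 d a = W.1 d a := by
        rcases hrel with hl | hl
        · exfalso
          have : ∑ d ∈ U, (Z.1 d a).toNat ≤ ∑ d ∈ U, (W.1 d a).toNat :=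
            Finset.sum_le_sum fun d hd => by
              cases hzd : Z.1 d a
              · simp
              · simp [hl d hd hzd]
          omega
        · exact exists_extra hl (by omega)
      obtain ⟨nuc, nue, -⟩ := memU.1 hu
      have hZk := inU Z hZ u hu
      have hWk := inUY W hW u hu
      have hub := hbd W Z hW hZ u nuc nue
      rw [hZu, Bool.not_true] at hZk
      rw [hWu, Bool.not_false] at hWk
      have hr : ∀ d, d ≠ c → d ≠ e → d ≠ u → ∀ i ∈ ({a, b, k} : Finset R),
          W.1 d i = Z.1 d i := fun d h h' h'' => rest d h h' fun hd => hne d hd h''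
      cases hβ : Z.1 u b <;> rw [hβ] at hub
      · exact abs_sub_le_of_two_steps sub2 hinv h2 hce nuc.symm nue.symm
          (by simp [cnt_three hab hak hbk, z4, z5, z6, hZu, hZk, hβ])
          (by simp [cnt_pair hbk, z2, z3, z5, z6]) hout
          (by simp [ca, w1, w2, z1, z5, z6, hab, hak])
          (by simp [ea, w3, w4, hZu, hZk, hβ])
          (by simp [hWu, hWk, hub, z2, z3, z4, hab, hak]) hr
      · exact abs_sub_le_of_two_steps sub1 hinv h1 hce.symm nue.symm nuc.symm
          (by simp [cnt_three hab hak hbk, z1, z2, z3, hZu, hZk, hβ])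
          (by simp [cnt_pair hab, z1, z3, z4, z6]) hout
          (by simp [ea, w3, w4, z1, z3, z5, hak.symm, hbk.symm])
          (by simp [ca, w1, w2, hZu, hZk, hβ])
          (by simp [hWu, hWk, hub, z2, z4, z6, hak.symm, hbk.symm])
          fun d h h' h'' => hr d h' h h''

/-- Step two: columns may exchange their parts on any two of the three rows. -/
theorem sw_two_invariant {T : Finset R} (hT : T.card = 3) {f : Table r s → ℝ} {μ : ℝ}
    (hμ : μ < 1) (hf : ∑ k ∈ T, dev (outside (T.erase k)) f = μ • f) {k : R} (hk : k ∈ T)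
    (c e : C) (X : Table r s) : f (sw (T.erase k) c e X) = f X := by
  have : Nonempty (Table r s × C × C × T) := ⟨(X, c, e, ⟨k, hk⟩)⟩
  obtain ⟨⟨X₀, c₀, e₀, k₀⟩, hmax⟩ := Finite.exists_max fun z : Table r s × C × C × T =>
    |f (sw (T.erase z.2.2.2.1) z.2.1 z.2.2.1 z.1) - f z.1|
  obtain ⟨D, hD0⟩ : ∃ D, D = |f (sw (T.erase k₀.1) c₀ e₀ X₀) - f X₀| := ⟨_, rfl⟩
  have hD : ∀ (Y : Table r s) (c e : C) (j : R), j ∈ T →
      |f (sw (T.erase j) c e Y) - f Y| ≤ D := fun Y c e j hj => by
    rw [hD0]; exact hmax (Y, c, e, ⟨j, hj⟩)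
  have hD' : 0 ≤ D := hD0 ▸ abs_nonneg _
  obtain ⟨k', hk'⟩ := k₀
  simp only at hD0
  obtain ⟨x, y, hxy, hpair⟩ := Finset.card_eq_two.1 (show (T.erase k').card = 2 by
    rw [Finset.card_erase_of_mem hk', hT])
  have hxk : x ≠ k' := fun h => Finset.notMem_erase k' T (by rw [hpair, h]; simp)
  have hyk : y ≠ k' := fun h => Finset.notMem_erase k' T (by rw [hpair, h]; simp)
  have hTset : T = {x, y, k'} := by
    rw [← Finset.insert_erase hk', hpair]
    ext i; simp; tauto
  have ex : T.erase x = {y, k'} := by rw [hTset]; ext i; simp; grind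
  have ey : T.erase y = {x, k'} := by rw [hTset]; ext i; simp; grind
  have hle : (3 - μ) * D ≤ 2 * D := by
    by_cases hz : f (sw (T.erase k') c₀ e₀ X₀) = f X₀
    · have : D = 0 := by simp [hD0, hz]
      simp [this]
    rw [hpair] at hz hD0
    have hcnt : cnt {x, y} X₀.1 c₀ = cnt {x, y} X₀.1 e₀ := by
      by_contra h; exact hz (by rw [sw_of_ne h])
    have hne : ¬(X₀.1 c₀ x = X₀.1 e₀ x ∧ X₀.1 c₀ y = X₀.1 e₀ y) := fun h =>
      hz (by rw [sw_of_agree (by simp [h.1, h.2])])
    rw [cnt_pair hxy, cnt_pair hxy] at hcnt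
    have hk3 : X₀.1 c₀ k' ≠ X₀.1 e₀ k' := by
      intro hkk
      refine hz ?_
      rw [← sw_three_invariant hT hμ hf c₀ e₀ X₀]
      congr 1
      refine Subtype.ext (funext fun d => funext fun i => ?_)
      rw [sw_apply, sw_apply, hTset, cnt_three hxy hxk hyk, cnt_three hxy hxk hyk, hkk,
        cnt_pair hxy, cnt_pair hxy]
      rcases eq_or_ne i k' with rfl | hik
      · rw [if_neg (by simp [hxk.symm, hyk.symm])]
        split_ifs
        · rcases eq_or_ne d c₀ with rfl | h1
          · simp [hkk]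
          rcases eq_or_ne d e₀ with rfl | h2
          · simp [hkk]
          rw [Equiv.swap_apply_of_ne_of_ne h1 h2]
        · rfl
      · simp [hik, hcnt]
    have bound : ∀ u v : R, u ≠ v → u ≠ k' → v ≠ k' → ({u, v} : Finset R) = {x, y} →
        T.erase v = {u, k'} →
        |avg (outside (T.erase v)) f (sw {x, y} c₀ e₀ X₀)
          - avg (outside (T.erase v)) f X₀| ≤ D := by
      intro u v huv huk hvk hset herase
      rw [← hset, herase]
      have hT' : T = {u, v, k'} := by
        rw [← Finset.insert_erase hk', hpair, ← hset]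
        ext i; simp; tauto
      have hinv : ∀ d e Z, f (sw {u, v, k'} d e Z) = f Z := fun d e Z => by
        rw [← hT']; exact sw_three_invariant hT hμ hf d e Z
      have hu : u ∈ T := by rw [hT']; simp
      have h1 : ∀ d e Z, |f (sw {u, v} d e Z) - f Z| ≤ D := fun d e Z => by
        rw [hset, ← hpair]; exact hD Z d e k' hk'
      have h2 : ∀ d e Z, |f (sw {v, k'} d e Z) - f Z| ≤ D := fun d e Z => by
        have : T.erase u = {v, k'} := by rw [hT']; ext i; simp; grind
        rw [← this]; exact hD Z d e u hu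
      have hne' : ¬(X₀.1 c₀ u = X₀.1 e₀ u ∧ X₀.1 c₀ v = X₀.1 e₀ v) := by
        intro h
        refine hne ⟨?_, ?_⟩
        · have : x ∈ ({u, v} : Finset R) := by rw [hset]; simp
          simp only [Finset.mem_insert, Finset.mem_singleton] at this
          rcases this with rfl | rfl
          exacts [h.1, h.2]
        · have : y ∈ ({u, v} : Finset R) := by rw [hset]; simp
          simp only [Finset.mem_insert, Finset.mem_singleton] at this
          rcases this with rfl | rfl
          exacts [h.1, h.2]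
      have hcnt' : (X₀.1 c₀ u).toNat + (X₀.1 c₀ v).toNat
          = (X₀.1 e₀ u).toNat + (X₀.1 e₀ v).toNat := by
        rw [← cnt_pair huv, ← cnt_pair huv, hset, cnt_pair hxy, cnt_pair hxy]
        exact hcnt
      have core := @abs_avg_pair_sub_le _ _ _ _ _ _ r s u v k' huv huk hvk f hinv D h1 h2
      have hsw : cnt {u, v} X₀.1 c₀ = cnt {u, v} X₀.1 e₀ := by
        rw [cnt_pair huv, cnt_pair huv]; exact hcnt'
      cases p1 : X₀.1 c₀ u <;> cases p2 : X₀.1 c₀ v <;> cases p3 : X₀.1 e₀ u <;>
        cases p4 : X₀.1 e₀ v <;> cases p5 : X₀.1 c₀ k' <;> cases p6 : X₀.1 e₀ k' <;>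
        simp [p1, p2, p3, p4, p5, p6] at hne' hcnt' hk3
      · rw [sw_comm {u, v} e₀ c₀]
        exact core p3 p4 p6 p1 p2 p5
      · rw [abs_sub_comm]
        have := @core c₀ e₀ (sw {u, v} c₀ e₀ X₀) (by simp [sw_apply, hsw, p3])
          (by simp [sw_apply, hsw, p4]) (by simp [sw_apply, huk.symm, hvk.symm, p5])
          (by simp [sw_apply, hsw, p1]) (by simp [sw_apply, hsw, p2])
          (by simp [sw_apply, huk.symm, hvk.symm, p6])
        rwa [sw_sw] at this
      · rw [abs_sub_comm]
        have := @core e₀ c₀ (sw {u, v} c₀ e₀ X₀) (by simp [sw_apply, hsw, p1])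
          (by simp [sw_apply, hsw, p2]) (by simp [sw_apply, huk.symm, hvk.symm, p6])
          (by simp [sw_apply, hsw, p3]) (by simp [sw_apply, hsw, p4])
          (by simp [sw_apply, huk.symm, hvk.symm, p5])
        rwa [sw_comm {u, v} c₀ e₀, sw_sw] at this
      · exact core p1 p2 p5 p3 p4 p6
    calc (3 - μ) * D = |(3 - μ) * (f (sw {x, y} c₀ e₀ X₀) - f X₀)| := by
          rw [abs_mul, abs_of_pos (by linarith : (0 : ℝ) < 3 - μ), hD0]
      _ = |∑ j ∈ ({x, y} : Finset R), (avg (outside (T.erase j)) f (sw {x, y} c₀ e₀ X₀)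
            - avg (outside (T.erase j)) f X₀)| := by
          rw [← hpair, Finset.sum_erase (f := fun j =>
              avg (outside (T.erase j)) f (sw (T.erase k') c₀ e₀ X₀)
                - avg (outside (T.erase j)) f X₀) _
              (sub_eq_zero.2 (avg_congr _ f (outside_sw _ c₀ e₀ X₀))),
            Finset.sum_sub_distrib, sum_avg_of_eigen hT hf, sum_avg_of_eigen hT hf, mul_sub]
      _ ≤ D + D := by
          rw [Finset.sum_pair hxy]
          refine (abs_add_le _ _).trans (add_le_add ?_ ?_)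
          · exact bound y x hxy.symm hyk hxk (Finset.pair_comm y x) ex
          · exact bound x y hxy hxk hyk rfl ey
      _ = 2 * D := (two_mul D).symm
  have hD2 : D ≤ 0 := by nlinarith
  exact sub_eq_zero.1 (abs_nonpos_iff.1 ((hD X c e k hk).trans hD2))

/-- For three rows the sum of the pair complements is at most its square. -/
theorem triple_le_sq {T : Finset R} (hT : T.card = 3) (f : Table r s → ℝ) :
    ∑ k ∈ T, ip f (dev (outside (T.erase k)) f)
      ≤ ∑ k ∈ T, ∑ j ∈ T, ip (dev (outside (T.erase k)) f) (dev (outside (T.erase j)) f) := by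
  obtain ⟨A, hA⟩ : ∃ A : (Table r s → ℝ) →ₗ[ℝ] Table r s → ℝ,
      A = ∑ k ∈ T, dev (outside (T.erase k)) := ⟨_, rfl⟩
  have happ : ∀ g, A g = ∑ k ∈ T, dev (outside (T.erase k)) g := fun g => by simp [hA]
  have h := le_sq_of_eigen (A := A) (fun g h => by
    rw [happ, happ, ip_sum_left, ip_sum_right]
    exact Finset.sum_congr rfl fun k _ => ip_dev _ _ _) (fun μ g hg hμ => by
    rw [happ]
    refine Finset.sum_eq_zero fun k hk => dev_eq_zero_iff.2 fun X Y h => ?_
    obtain ⟨a, b, hab, hp⟩ := Finset.card_eq_two.1 (show (T.erase k).card = 2 by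
      rw [Finset.card_erase_of_mem hk, hT])
    rw [hp] at h
    refine eq_of_sw_invariant hab (fun _ => True) (fun c e Z _ _ => ?_) h fun _ _ => trivial
    rw [← hp]
    exact sw_two_invariant hT hμ (happ g ▸ hg) hk c e Z) f
  rw [happ, ip_sum_right, ip_sum_left] at h
  simp only [ip_sum_right] at h
  exact h

end Vale.P335
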