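import Vale.Agent.P335.Slots
import Vale.Agent.P335.Triple

/-!
# Three vertices of a graph as three rows of a table

With the edges missing three vertices fixed, a realisation is a table with three rows: one column
for each vertex outside, and one further column holding, in each row, whether the edge opposite to
that vertex is absent.
-/

noncomputable section

namespace Vale.P335

open Finset

variable {n : ℕ} {d : Fin n → ℕ}

/-- The slots touching `T`. -/
def allE (T : Finset (Fin n)) (i j : Fin n) : Bool := decide (i ∈ T) || decide (j ∈ T)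

/-- The position of a vertex among the three. -/
def idx (v : Fin 3 → Fin n) (i : Fin n) : Option (Fin 3) :=
  if i = v 0 then some 0 else if i = v 1 then some 1 else if i = v 2 then some 2 else none

theorem idx_self {v : Fin 3 → Fin n} (hv : Function.Injective v) (k : Fin 3) :
    idx v (v k) = some k := by
  fin_cases k <;> simp [idx, hv.eq_iff]

theorem idx_eq_none {v : Fin 3 → Fin n} {i : Fin n} :
    idx v i = none ↔ i ∉ (univ : Finset (Fin 3)).image v := by
  simp only [idx, Finset.mem_image, Finset.mem_univ, true_and, not_exists, Fin.forall_fin_succ,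
    IsEmpty.forall_iff, and_true]
  split_ifs with h0 h1 h2 <;> simp_all [eq_comm]

theorem idx_cases {v : Fin 3 → Fin n} (hv : Function.Injective v) (i : Fin n) :
    (∃ k, i = v k ∧ idx v i = some k) ∨ (i ∉ (univ : Finset (Fin 3)).image v ∧ idx v i = none) := by
  by_cases h : i ∈ (univ : Finset (Fin 3)).image v
  · obtain ⟨k, -, rfl⟩ := Finset.mem_image.1 h
    exact Or.inl ⟨k, rfl, idx_self hv k⟩
  · exact Or.inr ⟨h, idx_eq_none.2 h⟩

/-- The raw table of a realisation. -/
def tblRaw (v : Fin 3 → Fin n) (G : Omega d) : Option (Fin n) → Fin 3 → Bool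
  | some c, k => if c ∈ (univ : Finset (Fin 3)).image v then false else adjB G (v k) c
  | none, k => !adjB G (v (k + 1)) (v (k + 2))

/-- The row sums. -/
def triR (v : Fin 3 → Fin n) (G : Omega d) (k : Fin 3) : ℕ := ∑ c, (tblRaw v G c k).toNat

/-- The column sums. -/
def triS (v : Fin 3 → Fin n) (G : Omega d) (c : Option (Fin n)) : ℕ :=
  ∑ k, (tblRaw v G c k).toNat

/-- The edges inside the three vertices. -/
def inner3 (v : Fin 3 → Fin n) (G : Omega d) : ℕ :=
  ∑ k : Fin 3, (adjB G (v (k + 1)) (v (k + 2))).toNat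

theorem triR_add {v : Fin 3 → Fin n} (hv : Function.Injective v) (G : Omega d) (k : Fin 3) :
    triR v G k + inner3 v G = d (v k) + 1 := by
  have h := sum_adjB G (v k)
  rw [← Finset.sum_add_sum_compl ((univ : Finset (Fin 3)).image v),
    Finset.sum_image fun a _ b _ e => hv e] at h
  have e : ∑ j, (tblRaw v G (some j) k).toNat
      = ∑ j ∈ ((univ : Finset (Fin 3)).image v)ᶜ, (adjB G (v k) j).toNat := by
    rw [← Finset.sum_add_sum_compl ((univ : Finset (Fin 3)).image v),
      Finset.sum_eq_zero (s := (univ : Finset (Fin 3)).image v) fun j hj => by simp [tblRaw, hj],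
      zero_add]
    exact Finset.sum_congr rfl fun j hj => by simp [tblRaw, Finset.mem_compl.1 hj]
  rw [← e] at h
  have hn : (tblRaw v G none k).toNat + (adjB G (v (k + 1)) (v (k + 2))).toNat = 1 := by
    simp only [tblRaw]; cases adjB G (v (k + 1)) (v (k + 2)) <;> rfl
  rw [triR, Fintype.sum_option, inner3]
  have c1 := adjB_comm G (v 1) (v 0)
  have c2 := adjB_comm G (v 2) (v 1)
  have c3 := adjB_comm G (v 0) (v 2)
  fin_cases k <;>
    simp [Fin.sum_univ_three, adjB_self, show (1 : Fin 3) + 1 = 2 from rfl,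
      show (1 : Fin 3) + 2 = 0 from rfl, show (2 : Fin 3) + 1 = 0 from rfl,
      show (2 : Fin 3) + 2 = 1 from rfl, c1, c2, c3] at h hn ⊢ <;> omega

theorem triS_none (v : Fin 3 → Fin n) (G : Omega d) : triS v G none + inner3 v G = 3 := by
  rw [triS, inner3, ← Finset.sum_add_distrib,
    Finset.sum_congr rfl fun k _ => show (tblRaw v G none k).toNat
      + (adjB G (v (k + 1)) (v (k + 2))).toNat = 1 by
        simp only [tblRaw]; cases adjB G (v (k + 1)) (v (k + 2)) <;> rfl]
  simp

theorem triS_congr {v : Fin 3 → Fin n} (hv : Function.Injective v) {G G₀ : Omega d}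
    (e : outsideE (allE ((univ : Finset (Fin 3)).image v)) G
      = outsideE (allE ((univ : Finset (Fin 3)).image v)) G₀) :
    triS v G = triS v G₀ ∧ triR v G = triR v G₀ := by
  have hs : ∀ c, triS v G (some c) = triS v G₀ (some c) := by
    intro c
    by_cases hc : c ∈ (univ : Finset (Fin 3)).image v
    · simp [triS, tblRaw, hc]
    have := sum_free_eq e c
    rw [show (univ.filter fun j => allE ((univ : Finset (Fin 3)).image v) c j = true)
        = (univ : Finset (Fin 3)).image v from Finset.ext fun j => by simp [allE, hc],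
      Finset.sum_image fun a _ b _ h => hv h, Finset.sum_image fun a _ b _ h => hv h] at this
    simpa [triS, tblRaw, hc, adjB_comm G c, adjB_comm G₀ c] using this
  have hi : inner3 v G = inner3 v G₀ := by
    have main : ∀ G : Omega d, ∑ c, triS v G (some c) + 2 * inner3 v G
        = ∑ k, d (v k) := fun G => by
      have h0 : ∑ k, triR v G k = ∑ c, triS v G c := Finset.sum_comm
      rw [Fintype.sum_option] at h0
      have h1 := triR_add hv G 0
      have h2 := triR_add hv G 1
      have h3 := triR_add hv G 2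
      have h4 := triS_none v G
      simp only [Fin.sum_univ_three] at h0 ⊢
      omega
    have h1 := main G
    have h2 := main G₀
    rw [Finset.sum_congr rfl fun c _ => hs c] at h1
    omega
  refine ⟨funext fun c => ?_, funext fun k => ?_⟩
  · cases c with
    | none =>
      have h1 := triS_none v G
      have h2 := triS_none v G₀
      omega
    | some c => exact hs c
  · have h1 := triR_add hv G k
    have h2 := triR_add hv G₀ k
    omega

/-- The table of a realisation in the class of `G₀`. -/
def toTab {v : Fin 3 → Fin n} (hv : Function.Injective v) (G₀ G : Omega d)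
    (e : outsideE (allE ((univ : Finset (Fin 3)).image v)) G
      = outsideE (allE ((univ : Finset (Fin 3)).image v)) G₀) :
    Table (triR v G₀) (triS v G₀) :=
  ⟨tblRaw v G, fun k => congrFun (triS_congr hv e).2 k, fun c => congrFun (triS_congr hv e).1 c⟩

/-- The adjacency read from a table. -/
def tabAdj (v : Fin 3 → Fin n) {r : Fin 3 → ℕ} {s : Option (Fin n) → ℕ} (G₀ : Omega d)
    (X : Table r s) (i j : Fin n) : Bool :=
  match idx v i, idx v j with
  | none, none => adjB G₀ i j
  | some k, none => X.1 (some j) k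
  | none, some l => X.1 (some i) l
  | some k, some l => if k = l then false else !X.1 none (-(k + l))

theorem tabAdj_comm (v : Fin 3 → Fin n) {r : Fin 3 → ℕ} {s : Option (Fin n) → ℕ} (G₀ : Omega d)
    (X : Table r s) (i j : Fin n) : tabAdj v G₀ X i j = tabAdj v G₀ X j i := by
  cases hi : idx v i <;> cases hj : idx v j <;>
    simp [tabAdj, hi, hj, adjB_comm G₀ i j, eq_comm, add_comm]

theorem tabAdj_self (v : Fin 3 → Fin n) {r : Fin 3 → ℕ} {s : Option (Fin n) → ℕ} (G₀ : Omega d)
    (X : Table r s) (i : Fin n) : tabAdj v G₀ X i i = false := by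
  cases hi : idx v i <;> simp [tabAdj, hi, adjB_self]

theorem tabAdj_margins {v : Fin 3 → Fin n} (hv : Function.Injective v) (G₀ : Omega d)
    (X : Table (triR v G₀) (triS v G₀)) (i : Fin n) :
    ∑ j, (tabAdj v G₀ X i j).toNat = d i := by
  have hz : ∀ c ∈ (univ : Finset (Fin 3)).image v, ∀ k, X.1 (some c) k = false := fun c hc k => by
    have h := X.2.2 (some c)
    simp only [triS, tblRaw, hc, if_true, Bool.toNat_false, Finset.sum_const_zero,
      Finset.sum_eq_zero_iff] at h
    simpa using h k (Finset.mem_univ k)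
  rw [← Finset.sum_add_sum_compl ((univ : Finset (Fin 3)).image v),
    Finset.sum_image fun a _ b _ e => hv e]
  rcases idx_cases hv i with ⟨k, rfl, hk⟩ | ⟨hi, hk⟩
  · have h1 := X.2.1 k
    rw [Fintype.sum_option, ← Finset.sum_add_sum_compl ((univ : Finset (Fin 3)).image v),
      Finset.sum_eq_zero (s := (univ : Finset (Fin 3)).image v)
        (fun j hj => by simp [hz j hj k]), zero_add] at h1
    have h2 := X.2.2 none
    have h3 := triR_add hv G₀ k
    have h4 := triS_none v G₀
    rw [Finset.sum_congr rfl fun j (hj : j ∈ ((univ : Finset (Fin 3)).image v)ᶜ) =>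
      show (tabAdj v G₀ X (v k) j).toNat = (X.1 (some j) k).toNat by
        simp [tabAdj, hk, idx_eq_none.2 (Finset.mem_compl.1 hj)]]
    have hb : ∀ b : Bool, (!b).toNat + b.toNat = 1 := by decide
    have b0 := hb (X.1 none 0)
    have b1 := hb (X.1 none 1)
    have b2 := hb (X.1 none 2)
    fin_cases k <;>
      simp [Fin.sum_univ_three, tabAdj, idx_self hv,
        show -(1 : Fin 3) = 2 from rfl, show -(2 : Fin 3) = 1 from rfl] at h1 h2 h3 ⊢ <;> omega
  · have h := X.2.2 (some i)
    simp only [triS, tblRaw, hi, if_false] at h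
    rw [Finset.sum_congr rfl fun l _ => show (tabAdj v G₀ X i (v l)).toNat
        = (X.1 (some i) l).toNat by simp [tabAdj, hk, idx_self hv],
      Finset.sum_congr rfl fun j (hj : j ∈ ((univ : Finset (Fin 3)).image v)ᶜ) =>
        show (tabAdj v G₀ X i j).toNat = (adjB G₀ i j).toNat by
          simp [tabAdj, hk, idx_eq_none.2 (Finset.mem_compl.1 hj)],
      h, ← sum_adjB G₀ i, ← Finset.sum_add_sum_compl ((univ : Finset (Fin 3)).image v)
        fun j => (adjB G₀ i j).toNat, Finset.sum_image fun a _ b _ e => hv e]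
    simp [adjB_comm G₀ i]

/-- The realisation of a table. -/
def ofTab {v : Fin 3 → Fin n} (hv : Function.Injective v) (G₀ : Omega d)
    (X : Table (triR v G₀) (triS v G₀)) : Omega d :=
  mkOmega (tabAdj v G₀ X) (tabAdj_comm v G₀ X) (tabAdj_self v G₀ X) (tabAdj_margins hv G₀ X)

theorem outsideE_ofTab {v : Fin 3 → Fin n} (hv : Function.Injective v) (G₀ : Omega d)
    (X : Table (triR v G₀) (triS v G₀)) :
    outsideE (allE ((univ : Finset (Fin 3)).image v)) (ofTab hv G₀ X)
      = outsideE (allE ((univ : Finset (Fin 3)).image v)) G₀ := by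
  refine outsideE_eq_iff.2 fun i j h => ?_
  simp only [allE, Bool.or_eq_false_iff, decide_eq_false_iff_not] at h
  simp [ofTab, adjB_mkOmega, tabAdj, idx_eq_none.2 h.1, idx_eq_none.2 h.2]

theorem toTab_ofTab {v : Fin 3 → Fin n} (hv : Function.Injective v) (G₀ : Omega d)
    (X : Table (triR v G₀) (triS v G₀)) :
    toTab hv G₀ (ofTab hv G₀ X) (outsideE_ofTab hv G₀ X) = X := by
  refine Subtype.ext (funext fun c => funext fun k => ?_)
  cases c with
  | none =>
    have hne : k + 1 ≠ k + 2 ∧ -(k + 1 + (k + 2)) = k := by revert k; decide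
    simp [toTab, tblRaw, ofTab, adjB_mkOmega, tabAdj, idx_self hv, hne.1, hne.2]
  | some c =>
    by_cases hc : c ∈ (univ : Finset (Fin 3)).image v
    · have h := X.2.2 (some c)
      simp only [triS, tblRaw, hc, if_true, Bool.toNat_false, Finset.sum_const_zero,
        Finset.sum_eq_zero_iff] at h
      have := h k (Finset.mem_univ k)
      simp [toTab, tblRaw, hc]
      simpa using this
    · simp [toTab, tblRaw, hc, ofTab, adjB_mkOmega, tabAdj, idx_self hv, idx_eq_none.2 hc]

theorem ofTab_toTab {v : Fin 3 → Fin n} (hv : Function.Injective v) (G₀ G : Omega d)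
    (e : outsideE (allE ((univ : Finset (Fin 3)).image v)) G
      = outsideE (allE ((univ : Finset (Fin 3)).image v)) G₀) :
    ofTab hv G₀ (toTab hv G₀ G e) = G := by
  refine omega_ext fun i j => ?_
  rw [ofTab, adjB_mkOmega]
  rcases idx_cases hv i with ⟨k, rfl, hk⟩ | ⟨hi, hk⟩ <;>
    rcases idx_cases hv j with ⟨l, rfl, hl⟩ | ⟨hj, hl⟩
  · by_cases hkl : k = l
    · simp [tabAdj, hkl, idx_self hv, adjB_self]
    · have key : ∀ k l : Fin 3, k ≠ l → (-(k + l) + 1 = k ∧ -(k + l) + 2 = l) ∨
          (-(k + l) + 1 = l ∧ -(k + l) + 2 = k) := by decide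
      simp only [tabAdj, hk, hl, if_neg hkl, toTab, tblRaw, Bool.not_not]
      rcases key k l hkl with ⟨a, b⟩ | ⟨a, b⟩
      · rw [a, b]
      · rw [a, b, adjB_comm]
  · simp [tabAdj, hk, hl, toTab, tblRaw, hj]
  · simp [tabAdj, hk, hl, toTab, tblRaw, hi, adjB_comm G (v l) i]
  · simp only [tabAdj, hk, hl]
    exact (outsideE_eq_iff.1 e i j (by simp [allE, hi, hj])).symm

theorem image_erase3 {v : Fin 3 → Fin n} (hv : Function.Injective v) (k : Fin 3) :
    ((univ : Finset (Fin 3)).image v).erase (v k) = ((univ : Finset (Fin 3)).erase k).image v :=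
  (Finset.image_erase hv _ _).symm

/-- The classes of a pair inside three vertices are the classes of two rows. -/
theorem pairKey_iff_outside {v : Fin 3 → Fin n} (hv : Function.Injective v) {G₀ G H : Omega d}
    (eG : outsideE (allE ((univ : Finset (Fin 3)).image v)) G
      = outsideE (allE ((univ : Finset (Fin 3)).image v)) G₀)
    (eH : outsideE (allE ((univ : Finset (Fin 3)).image v)) H
      = outsideE (allE ((univ : Finset (Fin 3)).image v)) G₀) (k : Fin 3) :
    pairKey (((univ : Finset (Fin 3)).erase k).image v) H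
        = pairKey (((univ : Finset (Fin 3)).erase k).image v) G ↔
      outside ((univ : Finset (Fin 3)).erase k) (toTab hv G₀ H eH)
        = outside ((univ : Finset (Fin 3)).erase k) (toTab hv G₀ G eG) := by
  have hmem : ∀ l, v l ∈ ((univ : Finset (Fin 3)).erase k).image v ↔ l ≠ k := fun l => by
    simp [hv.eq_iff]
  have hsub : ∀ c, c ∉ (univ : Finset (Fin 3)).image v →
      c ∉ ((univ : Finset (Fin 3)).erase k).image v :=
    fun c hc h => hc (Finset.image_subset_image (Finset.erase_subset _ _) h)
  rw [pairKey, pairKey, outsideE_eq_iff, outside_eq_iff]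
  constructor
  · intro h c i hi
    obtain rfl : i = k := by simpa using hi
    cases c with
    | none =>
      have hne : i + 1 ≠ i ∧ i + 2 ≠ i :=
        (by decide : ∀ i : Fin 3, i + 1 ≠ i ∧ i + 2 ≠ i) i
      simp only [toTab, tblRaw]
      rw [h _ _ (by simp [crossE, (hmem _).2 hne.1, (hmem _).2 hne.2])]
    | some c =>
      by_cases hc : c ∈ (univ : Finset (Fin 3)).image v
      · simp [toTab, tblRaw, hc]
      · simp only [toTab, tblRaw, if_neg hc]
        exact h _ _ (by simp [crossE, hsub c hc, hv.eq_iff])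
  · intro h i j hF
    have hx := fun c => h c k (by simp)
    rcases idx_cases hv i with ⟨l, rfl, -⟩ | ⟨hi, -⟩ <;>
      rcases idx_cases hv j with ⟨m, rfl, -⟩ | ⟨hj, -⟩
    · simp only [crossE, hmem, bne_eq_false_iff_eq, decide_eq_decide] at hF
      by_cases hlm : l = m
      · simp [hlm, adjB_self]
      have key : ∀ l m k : Fin 3, l ≠ m → (l ≠ k ↔ m ≠ k) →
          (l = k + 1 ∧ m = k + 2) ∨ (l = k + 2 ∧ m = k + 1) := by decide
      have hk := hx none
      simp only [toTab, tblRaw, Bool.not_inj_iff] at hk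
      rcases key l m k hlm hF with ⟨rfl, rfl⟩ | ⟨rfl, rfl⟩
      · exact hk
      · rw [adjB_comm, hk, adjB_comm]
    · have hl : l = k := by
        by_contra hne
        simp [crossE, hmem, hne, hsub j hj] at hF
      subst hl
      simpa [toTab, tblRaw, hj] using hx (some j)
    · have hm : m = k := by
        by_contra hne
        simp [crossE, hmem, hne, hsub i hi] at hF
      subst hm
      rw [adjB_comm, adjB_comm G i]
      simpa [toTab, tblRaw, hi] using hx (some i)
    · have hout : allE ((univ : Finset (Fin 3)).image v) i j = false := by simp [allE, hi, hj]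
      rw [outsideE_eq_iff.1 eH i j hout, outsideE_eq_iff.1 eG i j hout]

theorem pairKey_mono3 {v : Fin 3 → Fin n} (k : Fin 3) {G H : Omega d}
    (h : pairKey (((univ : Finset (Fin 3)).erase k).image v) H
      = pairKey (((univ : Finset (Fin 3)).erase k).image v) G) :
    outsideE (allE ((univ : Finset (Fin 3)).image v)) H
      = outsideE (allE ((univ : Finset (Fin 3)).image v)) G := by
  refine outsideE_mono (fun i j hc => ?_) h
  have hs := Finset.image_subset_image (f := v) (Finset.erase_subset k (univ : Finset (Fin 3)))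
  simp only [crossE, bne_iff_ne, ne_eq, decide_eq_decide] at hc
  simp only [allE, Bool.or_eq_true, decide_eq_true_eq]
  by_cases hi : i ∈ ((univ : Finset (Fin 3)).erase k).image v
  · exact Or.inl (hs hi)
  · refine Or.inr (hs ?_)
    by_contra hj
    exact hc (iff_of_false hi hj)

/-- The averages over a pair of vertices are the averages over two rows. -/
theorem avg_pairKey_eq {v : Fin 3 → Fin n} (hv : Function.Injective v) (f : Omega d → ℝ)
    {G₀ G : Omega d} (eG : outsideE (allE ((univ : Finset (Fin 3)).image v)) G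
      = outsideE (allE ((univ : Finset (Fin 3)).image v)) G₀) (k : Fin 3) :
    avg (pairKey (((univ : Finset (Fin 3)).erase k).image v)) f G
      = avg (outside ((univ : Finset (Fin 3)).erase k)) (fun X => f (ofTab hv G₀ X))
          (toTab hv G₀ G eG) := by
  have hK : ∀ H ∈ cls (pairKey (((univ : Finset (Fin 3)).erase k).image v)) G,
      outsideE (allE ((univ : Finset (Fin 3)).image v)) H
        = outsideE (allE ((univ : Finset (Fin 3)).image v)) G₀ := fun H hH =>
    (pairKey_mono3 k (mem_cls.1 hH)).trans eG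
  obtain ⟨i, hi⟩ : ∃ i : ∀ H ∈ cls (pairKey (((univ : Finset (Fin 3)).erase k).image v)) G,
      Table (triR v G₀) (triS v G₀), i = fun H hH => toTab hv G₀ H (hK H hH) := ⟨_, rfl⟩
  have h1 : ∀ H hH, i H hH ∈ cls (outside ((univ : Finset (Fin 3)).erase k))
      (toTab hv G₀ G eG) := fun H hH => by
    rw [hi]; exact mem_cls.2 ((pairKey_iff_outside hv eG (hK H hH) k).1 (mem_cls.1 hH))
  have h2 : ∀ H hH H' hH', i H hH = i H' hH' → H = H' := fun H hH H' hH' h => by
    simp only [hi] at h
    rw [← ofTab_toTab hv G₀ H (hK H hH), h, ofTab_toTab]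
  have h3 : ∀ X ∈ cls (outside ((univ : Finset (Fin 3)).erase k)) (toTab hv G₀ G eG),
      ∃ H hH, i H hH = X := fun X hX => by
    refine ⟨ofTab hv G₀ X, mem_cls.2 ((pairKey_iff_outside hv eG (outsideE_ofTab hv G₀ X) k).2
      (by rw [toTab_ofTab]; exact mem_cls.1 hX)), ?_⟩
    rw [hi]; exact toTab_ofTab hv G₀ X
  rw [avg_apply, avg_apply, Finset.card_bij i h1 h2 h3]
  congr 1
  exact Finset.sum_bij i h1 h2 h3 fun H hH => by rw [hi, ofTab_toTab]

theorem avg_inst {Ω κ : Type*} [DecidableEq κ] (I J : Fintype Ω) (key : Ω → κ) (f : Ω → ℝ) (x : Ω) :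
    @avg Ω κ I _ key f x = @avg Ω κ J _ key f x := by
  rw [Subsingleton.elim I J]

/-- The complements of the three pairs inside three vertices. -/
theorem gtriple_le_sq {T : Finset (Fin n)} (hT : T.card = 3) (f : Omega d → ℝ) :
    ∑ k ∈ T, ip f (gdev (T.erase k) f)
      ≤ ∑ k ∈ T, ∑ j ∈ T, ip (gdev (T.erase k) f) (gdev (T.erase j) f) := by
  obtain ⟨a, b, c, hab, hac, hbc, rfl⟩ := Finset.card_eq_three.1 hT
  obtain ⟨v, hv0⟩ : ∃ v : Fin 3 → Fin n, v = ![a, b, c] := ⟨_, rfl⟩
  have hv : Function.Injective v := by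
    intro p q h
    fin_cases p <;> fin_cases q <;> simp [hv0, hab, hab.symm, hac, hac.symm, hbc, hbc.symm] at h ⊢
  have hTv : ({a, b, c} : Finset (Fin n)) = (univ : Finset (Fin 3)).image v := by
    ext i; simp [hv0, Fin.exists_fin_succ, eq_comm]
  rw [hTv, Finset.sum_image fun p _ q _ e => hv e, Finset.sum_image fun p _ q _ e => hv e]
  simp only [Finset.sum_image fun p _ q _ e => hv e, image_erase3 hv]
  simp only [← ip_sum_left, ← ip_sum_right]
  refine sub_nonneg.1 ?_
  simp only [ip, ← Finset.sum_sub_distrib]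
  refine sum_nonneg_of_cls (outsideE (allE ((univ : Finset (Fin 3)).image v))) fun G₀ => ?_
  have htab := triple_le_sq (r := triR v G₀) (s := triS v G₀)
    (T := (univ : Finset (Fin 3))) (by simp) fun X => f (ofTab hv G₀ X)
  simp only [← ip_sum_left, ← ip_sum_right] at htab
  rw [← sub_nonneg] at htab
  simp only [ip, ← Finset.sum_sub_distrib] at htab
  refine le_of_le_of_eq htab (Finset.sum_bij' (fun X _ => ofTab hv G₀ X)
    (fun G hG => toTab hv G₀ G (mem_cls.1 hG))
    (fun X _ => mem_cls.2 (outsideE_ofTab hv G₀ X)) (fun G _ => by simp)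
    (fun X _ => toTab_ofTab hv G₀ X) (fun G hG => ofTab_toTab hv G₀ G (mem_cls.1 hG))
    fun X _ => ?_)
  simp only [Finset.sum_apply, gdev, dev_apply, Pi.sub_apply,
    avg_pairKey_eq hv f (outsideE_ofTab hv G₀ X), toTab_ofTab]
  have e : ∀ (I J : Fintype (Table (triR v G₀) (triS v G₀))) (k : Fin 3),
      @avg _ _ I _ (outside ((univ : Finset (Fin 3)).erase k)) (fun Y => f (ofTab hv G₀ Y)) X
        = @avg _ _ J _ (outside ((univ : Finset (Fin 3)).erase k)) (fun Y => f (ofTab hv G₀ Y)) X :=
    fun I J k => avg_inst I J _ _ _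
  simp only [e _ (Fintype.ofFinite _)]

end Vale.P335
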