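import Vale.Agent.P335.PairFibre
import Vale.Agent.P335.GraphTriple
import Vale.Agent.P335.GraphEnergy

/-!
# The switch chain on the realisations of every degree vector

The pair complements sum to an operator at most half its square, so the switch chain mixes rapidly.
-/

noncomputable section

namespace Vale.P335

open Finset

variable {n : ℕ} {d : Fin n → ℕ}


theorem disjoint_sum_ge (f : Omega d → ℝ) :
    ∑ P ∈ (univ : Finset (Fin n)).powersetCard 2, ip f (gdev P f)
      ≤ ∑ P ∈ (univ : Finset (Fin n)).powersetCard 2,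
          ∑ Q ∈ ((univ : Finset (Fin n)).powersetCard 2).filter (Disjoint P),
            ip (gdev P f) (gdev Q f) := by
  classical
  obtain ⟨a, ha⟩ : ∃ a : Finset (Fin n) → Finset (Fin n) → ℝ, a = fun P Q =>
      ip (avg (partKey P Q) (zbar P Q (gdev P f))) (avg (partKey P Q) (zbar P Q (gdev P f))) :=
    ⟨_, rfl⟩
  have hswap : ∑ P ∈ (univ : Finset (Fin n)).powersetCard 2,
      ∑ Q ∈ ((univ : Finset (Fin n)).powersetCard 2).filter (Disjoint P), a Q P
      = ∑ P ∈ (univ : Finset (Fin n)).powersetCard 2,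
      ∑ Q ∈ ((univ : Finset (Fin n)).powersetCard 2).filter (Disjoint P), a P Q := by
    simp only [Finset.sum_filter]
    rw [Finset.sum_comm]
    simp only [disjoint_comm]
  have h1 : ∑ P ∈ (univ : Finset (Fin n)).powersetCard 2,
      ∑ Q ∈ ((univ : Finset (Fin n)).powersetCard 2).filter (Disjoint P),
        (1 / 4 * ip (zdiff P Q f) (zdiff P Q f) - 1 / 2 * a P Q - 1 / 2 * a Q P)
      ≤ ∑ P ∈ (univ : Finset (Fin n)).powersetCard 2,
          ∑ Q ∈ ((univ : Finset (Fin n)).powersetCard 2).filter (Disjoint P),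
            ip (gdev P f) (gdev Q f) := by
    refine Finset.sum_le_sum fun P hP => Finset.sum_le_sum fun Q hQ => ?_
    rw [Finset.mem_filter] at hQ
    have := disjoint_bound (P := P) (Q := Q) ⟨(Finset.mem_powersetCard.1 hP).2,
      (Finset.mem_powersetCard.1 hQ.1).2, hQ.2⟩ f
    simp only [ha]
    exact this
  have h2 : ∑ P ∈ (univ : Finset (Fin n)).powersetCard 2, ip f (gdev P f)
      ≤ ∑ P ∈ (univ : Finset (Fin n)).powersetCard 2,
      ∑ Q ∈ ((univ : Finset (Fin n)).powersetCard 2).filter (Disjoint P),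
        (1 / 4 * ip (zdiff P Q f) (zdiff P Q f) - a P Q) := by
    refine Finset.sum_le_sum fun P hP => ?_
    simp only [ha]
    exact pair_energy (Finset.mem_powersetCard.1 hP).2 f
  simp only [Finset.sum_sub_distrib, ← Finset.mul_sum, hswap] at h1 h2
  linarith

theorem gpairs_le_sq (f : Omega d → ℝ) :
    2 * ∑ p ∈ (univ : Finset (Fin n)).powersetCard 2, ip f (gdev p f)
      ≤ ∑ p ∈ (univ : Finset (Fin n)).powersetCard 2, ∑ q ∈ (univ : Finset (Fin n)).powersetCard 2,
          ip (gdev p f) (gdev q f) := by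
  classical
  obtain ⟨P, hP⟩ : ∃ P, P = (univ : Finset (Fin n)).powersetCard 2 := ⟨_, rfl⟩
  obtain ⟨v, hv⟩ : ∃ v : Finset (Fin n) → Finset (Fin n) → ℝ,
      v = fun p q => ip (gdev p f) (gdev q f) := ⟨_, rfl⟩
  have hself : ∀ p, ip (gdev p f) (gdev p f) = ip f (gdev p f) := fun p => by
    rw [gdev, ip_dev_self]
  have hsplit : ∀ S : Finset (Finset (Fin n)), ∑ p ∈ S, ∑ q ∈ S, v p q
      = ∑ p ∈ S, ip f (gdev p f) + ∑ pq ∈ S.offDiag, v pq.1 pq.2 := fun S => by
    rw [← Finset.sum_product', ← Finset.diag_union_offDiag,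
      Finset.sum_union (Finset.disjoint_diag_offDiag S), Finset.sum_diag]
    simp only [hv, hself]
  rw [← hP]
  have := hsplit P
  simp only [hv] at this ⊢
  rw [this, two_mul]
  simp only [add_le_add_iff_left]
  rw [← Finset.sum_filter_add_sum_filter_not P.offDiag fun pq => Disjoint pq.1 pq.2]
  refine le_add_of_le_of_nonneg ?_ ?_
  · refine (hP ▸ disjoint_sum_ge f : _).trans (le_of_eq ?_)
    subst hP
    simp only [Finset.sum_filter]
    rw [← Finset.sum_product' (f := fun p q => if Disjoint p q then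
      ip (gdev p f) (gdev q f) else 0)]
    symm
    refine Finset.sum_subset (fun x hx => ?_) fun x hx hx' => ?_
    · simp only [Finset.mem_offDiag] at hx
      exact Finset.mem_product.2 ⟨hx.1, hx.2.1⟩
    · rw [Finset.mem_product] at hx
      rw [if_neg]
      intro hd
      refine hx' (Finset.mem_offDiag.2 ⟨hx.1, hx.2, fun e => ?_⟩)
      rw [← e, disjoint_self] at hd
      have := (Finset.mem_powersetCard.1 hx.1).2
      rw [hd] at this
      simp at this
  have hcard : ∀ pq ∈ P.offDiag.filter fun pq => ¬Disjoint pq.1 pq.2,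
      pq.1 ∪ pq.2 ∈ (univ : Finset (Fin n)).powersetCard 3 := by
    intro pq h
    simp only [Finset.mem_filter, Finset.mem_offDiag, hP, Finset.mem_powersetCard] at h
    obtain ⟨⟨⟨-, h1⟩, ⟨-, h2⟩, hne⟩, hnd⟩ := h
    refine Finset.mem_powersetCard.2 ⟨Finset.subset_univ _, ?_⟩
    have := Finset.card_union_add_card_inter pq.1 pq.2
    have hpos : 0 < (pq.1 ∩ pq.2).card :=
      Finset.card_pos.2 (Finset.not_disjoint_iff_nonempty_inter.1 hnd)
    have hlt : (pq.1 ∩ pq.2).card < 2 := by
      by_contra hge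
      push Not at hge
      have a := Finset.eq_of_subset_of_card_le (Finset.inter_subset_left (s₁ := pq.1) (s₂ := pq.2))
        (by omega)
      have b := Finset.eq_of_subset_of_card_le (Finset.inter_subset_right (s₁ := pq.1) (s₂ := pq.2))
        (by omega)
      exact hne (a.symm.trans b)
    omega
  rw [← Finset.sum_fiberwise_of_maps_to hcard]
  refine Finset.sum_nonneg fun T hT => ?_
  have hT3 : T.card = 3 := (Finset.mem_powersetCard.1 hT).2
  have key : ∑ pq ∈ (P.offDiag.filter fun pq => ¬Disjoint pq.1 pq.2) with pq.1 ∪ pq.2 = T,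
      ip (gdev pq.1 f) (gdev pq.2 f)
      = ∑ kj ∈ T.offDiag, ip (gdev (T.erase kj.1) f) (gdev (T.erase kj.2) f) := by
    symm
    refine Finset.sum_bij (fun kj _ => (T.erase kj.1, T.erase kj.2)) ?_ ?_ ?_ fun _ _ => rfl
    · rintro ⟨k, j⟩ h
      simp only [Finset.mem_offDiag] at h
      obtain ⟨hk, hj, hkj⟩ := h
      simp only [Finset.mem_filter, Finset.mem_offDiag, hP, Finset.mem_powersetCard,
        Finset.card_erase_of_mem hk, Finset.card_erase_of_mem hj, hT3, Finset.subset_univ,
        true_and]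
      refine ⟨⟨fun e => hkj ?_, ?_⟩, ?_⟩
      · exact (Finset.erase_injOn T) hk hj e
      · rw [Finset.not_disjoint_iff_nonempty_inter, ← Finset.card_pos]
        have := Finset.card_union_add_card_inter (T.erase k) (T.erase j)
        have := Finset.card_le_card (Finset.union_subset (Finset.erase_subset k T)
          (Finset.erase_subset j T))
        rw [Finset.card_erase_of_mem hk, Finset.card_erase_of_mem hj, hT3] at *
        omega
      · ext i
        simp only [Finset.mem_union, Finset.mem_erase]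
        grind
    · intro a ha b hb e
      simp only [Finset.mem_offDiag] at ha hb
      simp only [Prod.mk.injEq] at e
      exact Prod.ext (Finset.erase_injOn T ha.1 hb.1 e.1) (Finset.erase_injOn T ha.2.1 hb.2.1 e.2)
    · rintro ⟨p, q⟩ h
      simp only [Finset.mem_filter, Finset.mem_offDiag, hP, Finset.mem_powersetCard] at h
      obtain ⟨⟨⟨⟨-, hp⟩, ⟨-, hq⟩, hne⟩, -⟩, hu⟩ := h
      have get : ∀ p, p ⊆ T → p.card = 2 → ∃ k ∈ T, T.erase k = p := by
        intro p hpT hp
        have hne : (T \ p).Nonempty := by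
          rw [← Finset.card_pos, Finset.card_sdiff_of_subset hpT]; omega
        obtain ⟨k, hk⟩ := hne
        obtain ⟨hk, hkp⟩ := Finset.mem_sdiff.1 hk
        exact ⟨k, hk, (Finset.eq_of_subset_of_card_le (Finset.subset_erase.2 ⟨hpT, hkp⟩)
          (by rw [Finset.card_erase_of_mem hk]; omega)).symm⟩
      obtain ⟨k, hk, rfl⟩ := get p (hu ▸ Finset.subset_union_left) hp
      obtain ⟨j, hj, rfl⟩ := get q (hu ▸ Finset.subset_union_right) hq
      exact ⟨(k, j), Finset.mem_offDiag.2 ⟨hk, hj, fun e => hne (by simp only at e; rw [e])⟩, rfl⟩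
  rw [key]
  have h := gtriple_le_sq hT3 f
  rw [← Finset.sum_product', ← Finset.diag_union_offDiag,
    Finset.sum_union (Finset.disjoint_diag_offDiag T), Finset.sum_diag] at h
  simp only [hself] at h
  linarith

theorem gpairs_gap {f : Omega d → ℝ} (hf : ∑ G, f G = 0) :
    ip f f ≤ ∑ p ∈ (univ : Finset (Fin n)).powersetCard 2, ip f (gdev p f) := by
  classical
  obtain ⟨A, hA⟩ : ∃ A : (Omega d → ℝ) →ₗ[ℝ] Omega d → ℝ,
      A = ∑ p ∈ (univ : Finset (Fin n)).powersetCard 2, gdev p := ⟨_, rfl⟩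
  have happ : ∀ g, A g = ∑ p ∈ (univ : Finset (Fin n)).powersetCard 2, gdev p g := fun g => by
    simp [hA]
  have hq : ∀ g, ip g (A g) = ∑ p ∈ (univ : Finset (Fin n)).powersetCard 2, ip g (gdev p g) :=
    fun g => by rw [happ, ip_sum_right]
  have hnn : ∀ g : Omega d → ℝ, ∀ p, 0 ≤ ip g (gdev p g) := fun g p => by
    rw [gdev, ip_dev_self]; exact ip_self_nonneg _
  rw [← hq]
  refine gap_of_le_sq (fun g h => ?_) (fun g => ?_) (fun g => ?_) (fun g hg => ?_) hf
  · rw [happ, happ, ip_sum_left, ip_sum_right]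
    exact Finset.sum_congr rfl fun p _ => ip_dev _ _ _
  · rw [hq]
    exact Finset.sum_nonneg fun p _ => hnn g p
  · have := gpairs_le_sq g
    have h0 := Finset.sum_nonneg fun p (_ : p ∈ (univ : Finset (Fin n)).powersetCard 2) => hnn g p
    rw [hq, happ, ip_sum_left]
    simp only [ip_sum_right]
    linarith
  · have h0 : ip g (A g) = 0 := by simp [hg, ip]
    rw [hq, Finset.sum_eq_zero_iff_of_nonneg fun p _ => hnn g p] at h0
    refine eq_of_gdev_zero fun P hP => ?_
    have h := h0 P (Finset.mem_powersetCard.2 ⟨Finset.subset_univ _, hP⟩)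
    rw [gdev, ip_dev_self] at h
    exact funext fun Z => mul_self_eq_zero.1
      ((Finset.sum_eq_zero_iff_of_nonneg fun x _ => mul_self_nonneg _).1 h Z (Finset.mem_univ Z))

open scoped Classical in
theorem graph_tv (hn : 4 ≤ n) (d : Fin n → ℕ) {t : ℕ} (ht : n ^ 6 ≤ t) (G : Omega d) :
    (1 / 2 : ℝ) * ∑ H, |(switchChain d ^ t) G H - 1 / (Fintype.card (Omega d) : ℝ)| ≤ 1 / 4 := by
  obtain ⟨T, hT⟩ : ∃ T : ℕ, T = Fintype.card (Fin 4 ↪ Fin n) := ⟨_, rfl⟩
  have hTeq : T = Nat.descFactorial n 4 := by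
    rw [hT, Fintype.card_embedding_eq, Fintype.card_fin, Fintype.card_fin]
  have hT24 : 24 ≤ T := by
    rw [hTeq]
    calc 24 = Nat.descFactorial 4 4 := by rfl
      _ ≤ Nat.descFactorial n 4 := Nat.descFactorial_le 4 hn
  have hT0 : (0 : ℝ) < T := by exact_mod_cast (by omega : 0 < T)
  refine tv_of_dirichlet d (g := 1 / T) ?_ (fun f hf => ?_) ?_ G
  · rw [div_le_one hT0]; exact_mod_cast (by omega : 1 ≤ T)
  · have h1 := gpairs_gap hf
    have h2 := Finset.sum_le_sum fun P (hP : P ∈ (univ : Finset (Fin n)).powersetCard 2) =>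
      pair_energy (Finset.mem_powersetCard.1 hP).2 f
    have h3 := zdiff_energy_le f
    rw [← hT] at h3
    rw [div_mul_eq_mul_div, one_mul, div_le_iff₀ hT0]
    simp only [Finset.sum_sub_distrib, ← Finset.mul_sum] at h2
    have h4 : 0 ≤ ∑ P ∈ (univ : Finset (Fin n)).powersetCard 2,
        ∑ Q ∈ ((univ : Finset (Fin n)).powersetCard 2).filter (Disjoint P),
          ip (avg (partKey P Q) (zbar P Q (gdev P f))) (avg (partKey P Q) (zbar P Q (gdev P f))) :=
      Finset.sum_nonneg fun P _ => Finset.sum_nonneg fun Q _ => ip_self_nonneg _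
    linarith
  · obtain ⟨m, rfl⟩ : ∃ m, n = m + 4 := ⟨n - 4, by omega⟩
    have h1 : (((m + 4) * (m + 4) : ℕ) + 2) * T ≤ t := by
      refine le_trans ?_ ht
      rw [hTeq]
      simp only [Nat.descFactorial_succ, Nat.descFactorial_zero, mul_one]
      rw [show m + 4 - 3 = m + 1 by omega, show m + 4 - 2 = m + 2 by omega,
        show m + 4 - 1 = m + 3 by omega, show m + 4 - 0 = m + 4 by omega]
      have hm : 0 ≤ m := Nat.zero_le m
      ring_nf
      nlinarith [Nat.zero_le (m ^ 2), Nat.zero_le (m ^ 3), Nat.zero_le (m ^ 4), Nat.zero_le (m ^ 5)]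
    rw [div_mul_eq_mul_div, le_div_iff₀ hT0, one_mul]
    exact_mod_cast h1

end Vale.P335

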