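import Vale.Agent.P335.Spectral

/-!
# The cut inequality on sets of fixed size

For a function of mean zero on the `k`-subsets of a finite set, the exchanges `x ↔ y` with `x` in
and `y` out carry enough energy to pay for the squared cut averages and the norm.
-/

noncomputable section

set_option linter.unusedSectionVars false

namespace Vale.P335

open Finset

variable {α : Type*} [Fintype α] [DecidableEq α] {k : ℕ}

/-- The sets of size `k`. -/
abbrev Sets (α : Type*) [Fintype α] [DecidableEq α] (k : ℕ) := {S : Finset α // S.card = k}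

/-- Exchanging two points. -/
def exch (x y : α) (S : Sets α k) : Sets α k :=
  ⟨S.1.map (Equiv.swap x y).toEmbedding, by rw [Finset.card_map, S.2]⟩

theorem mem_exch {x y z : α} {S : Sets α k} :
    z ∈ (exch x y S).1 ↔ Equiv.swap x y z ∈ S.1 := by
  simp [exch, Finset.mem_map_equiv]

theorem exch_exch (x y : α) (S : Sets α k) : exch x y (exch x y S) = S :=
  Subtype.ext (Finset.ext fun z => by simp [mem_exch])

theorem exch_comm (x y : α) (S : Sets α k) : exch y x S = exch x y S :=
  Subtype.ext (Finset.ext fun z => by simp [mem_exch, Equiv.swap_comm y x])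

theorem exch_conj (c e x y : α) (S : Sets α k) :
    exch (Equiv.swap c e x) (Equiv.swap c e y) (exch c e S) = exch c e (exch x y S) :=
  Subtype.ext (Finset.ext fun z => by simp [mem_exch, Equiv.swap_apply_apply])

theorem exch_eq_self {x y : α} {S : Sets α k} (h : x ∈ S.1 ↔ y ∈ S.1) : exch x y S = S := by
  refine Subtype.ext (Finset.ext fun z => ?_)
  rw [mem_exch]
  rcases eq_or_ne z x with rfl | h1
  · simp [h]
  rcases eq_or_ne z y with rfl | h2
  · simp [h]
  rw [Equiv.swap_apply_of_ne_of_ne h1 h2]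

/-- Exchanging as a permutation. -/
def exchEquiv (x y : α) : Sets α k ≃ Sets α k :=
  ⟨exch x y, exch x y, exch_exch x y, exch_exch x y⟩

/-- The sets containing `x` and not `y`. -/
def cutSets (k : ℕ) (x y : α) : Finset (Sets α k) :=
  univ.filter fun S => x ∈ S.1 ∧ y ∉ S.1

theorem mem_cutSets {x y : α} {S : Sets α k} : S ∈ cutSets k x y ↔ x ∈ S.1 ∧ y ∉ S.1 := by
  simp [cutSets]

theorem exch_mem_cutSets {x y : α} {S : Sets α k} :
    exch x y S ∈ cutSets k y x ↔ S ∈ cutSets k x y := by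
  simp [mem_cutSets, mem_exch]

theorem card_cutSets_comm (x y : α) : (cutSets k y x).card = (cutSets k x y).card :=
  (Finset.card_equiv (exchEquiv x y) fun _ => exch_mem_cutSets.symm).symm

/-- The mean over the cut of `x` and `y`. -/
def cutMean (g : Sets α k → ℝ) (x y : α) : ℝ :=
  (∑ S ∈ cutSets k x y, (g S + g (exch x y S))) / (2 * (cutSets k x y).card)

theorem cutMean_comm (g : Sets α k → ℝ) (x y : α) : cutMean g y x = cutMean g x y := by
  rw [cutMean, cutMean, card_cutSets_comm,
    ← Finset.sum_equiv (exchEquiv x y) (fun _ => exch_mem_cutSets.symm) fun S _ => rfl]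
  congr 1
  refine Finset.sum_congr rfl fun S _ => ?_
  show g (exch x y S) + g (exch y x (exch x y S)) = _
  rw [exch_comm x y (exch x y S), exch_exch, add_comm]

theorem two_card_mul_cutMean (g : Sets α k → ℝ) (x y : α) :
    2 * ((cutSets k x y).card : ℝ) * cutMean g x y
      = ∑ S ∈ cutSets k x y, (g S + g (exch x y S)) := by
  rcases (cutSets k x y).eq_empty_or_nonempty with h | h
  · simp [cutMean, h]
  · rw [cutMean, mul_div_cancel₀]
    exact mul_ne_zero two_ne_zero (Nat.cast_ne_zero.2 h.card_pos.ne')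

/-- Half the exchange Laplacian less the cut projections. -/
def cutOp : (Sets α k → ℝ) →ₗ[ℝ] Sets α k → ℝ where
  toFun g S := ∑ x, ∑ y, if x ∈ S.1 ∧ y ∉ S.1 then (g S - g (exch x y S)) / 2 - cutMean g x y else 0
  map_add' f g := by
    funext S
    simp only [Pi.add_apply, ← Finset.sum_add_distrib]
    refine Finset.sum_congr rfl fun x _ => Finset.sum_congr rfl fun y _ => ?_
    split_ifs
    · simp only [cutMean, Pi.add_apply, Finset.sum_add_distrib]; ring
    · simp
  map_smul' a f := by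
    funext S
    simp only [Pi.smul_apply, smul_eq_mul, RingHom.id_apply, Finset.mul_sum]
    refine Finset.sum_congr rfl fun x _ => Finset.sum_congr rfl fun y _ => ?_
    split_ifs
    · simp only [cutMean, Pi.smul_apply, smul_eq_mul, ← mul_add, ← Finset.mul_sum]; ring
    · simp

theorem cutOp_apply (g : Sets α k → ℝ) (S : Sets α k) : cutOp g S = ∑ x, ∑ y,
    if x ∈ S.1 ∧ y ∉ S.1 then (g S - g (exch x y S)) / 2 - cutMean g x y else 0 := rfl

theorem ip_cutOp (f g : Sets α k → ℝ) :
    ip f (cutOp g) = ∑ x, ∑ y, ∑ S ∈ cutSets k x y,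
      ((f S - f (exch x y S)) * (g S - g (exch x y S)) / 4 - cutMean f x y * cutMean g x y) := by
  obtain ⟨T, hT⟩ : ∃ T : α → α → ℝ, T = fun x y => ∑ S ∈ cutSets k x y,
      f S * ((g S - g (exch x y S)) / 2 - cutMean g x y) := ⟨_, rfl⟩
  have h1 : ip f (cutOp g) = ∑ x, ∑ y, T x y := by
    simp only [ip, cutOp_apply, Finset.mul_sum, hT, cutSets, Finset.sum_filter]
    rw [Finset.sum_comm]
    refine Finset.sum_congr rfl fun x _ => ?_
    rw [Finset.sum_comm]
    exact Finset.sum_congr rfl fun y _ => Finset.sum_congr rfl fun S _ => by split_ifs <;> ring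
  have h2 : ∀ x y, T x y + T y x = 2 * ∑ S ∈ cutSets k x y,
      ((f S - f (exch x y S)) * (g S - g (exch x y S)) / 4 - cutMean f x y * cutMean g x y) := by
    intro x y
    have e : T y x = ∑ S ∈ cutSets k x y,
        f (exch x y S) * ((g (exch x y S) - g S) / 2 - cutMean g x y) := by
      rw [hT]
      simp only
      rw [← Finset.sum_equiv (exchEquiv x y) (fun _ => exch_mem_cutSets.symm) fun S _ => rfl,
        cutMean_comm]
      refine Finset.sum_congr rfl fun S _ => ?_
      show f (exch x y S) * ((g (exch x y S) - g (exch y x (exch x y S))) / 2 - _) = _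
      rw [exch_comm x y (exch x y S), exch_exch]
    rw [e, hT]
    simp only
    rw [← Finset.sum_add_distrib, Finset.sum_congr rfl fun S _ => (by ring :
      f S * ((g S - g (exch x y S)) / 2 - cutMean g x y)
        + f (exch x y S) * ((g (exch x y S) - g S) / 2 - cutMean g x y)
      = (f S - f (exch x y S)) * (g S - g (exch x y S)) / 2
        - (f S + f (exch x y S)) * cutMean g x y), Finset.sum_sub_distrib, ← Finset.sum_mul,
      ← two_card_mul_cutMean f x y]
    simp only [Finset.sum_sub_distrib, Finset.sum_const, nsmul_eq_mul, ← Finset.sum_div]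
    ring
  have h3 : ∑ x, ∑ y, T x y = ∑ x, ∑ y, T y x := Finset.sum_comm
  have h4 : 2 * ∑ x, ∑ y, T x y = ∑ x, ∑ y, (T x y + T y x) := by
    simp only [Finset.sum_add_distrib]; rw [← h3]; ring
  simp only [h2, ← Finset.mul_sum] at h4
  rw [h1]
  linarith

/-- The cut averages of two neighbouring pairs differ by at most half the oscillation. -/
theorem abs_cutMean_sub_le (g : Sets α k → ℝ) {D : ℝ} (hD0 : 0 ≤ D)
    (hD : ∀ x y S, |g (exch x y S) - g S| ≤ D) {c e y : α} (hcy : y ≠ c) (hey : y ≠ e) :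
    |cutMean g c y - cutMean g e y| ≤ D / 2 := by
  have hπy : Equiv.swap c e y = y := Equiv.swap_apply_of_ne_of_ne hcy hey
  have hmem : ∀ S, S ∈ cutSets k c y ↔ exch c e S ∈ cutSets k e y := fun S => by
    simp [mem_cutSets, mem_exch, hπy]
  have hcard : (cutSets k e y).card = (cutSets k c y).card :=
    (Finset.card_equiv (exchEquiv c e) hmem).symm
  have hconj : ∀ S : Sets α k, exch e y (exch c e S) = exch c e (exch c y S) := fun S => by
    have := exch_conj c e c y S
    rwa [Equiv.swap_apply_left, hπy] at this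
  have he : cutMean g e y = (∑ S ∈ cutSets k c y, (g (exch c e S) + g (exch c e (exch c y S))))
      / (2 * (cutSets k c y).card) := by
    rw [cutMean, hcard, ← Finset.sum_equiv (exchEquiv c e) hmem fun S _ => rfl]
    congr 1
    exact Finset.sum_congr rfl fun S _ => by
      show g (exch c e S) + g (exch e y (exch c e S)) = _
      rw [hconj]
  rcases (cutSets k c y).eq_empty_or_nonempty with h0 | h0
  · have h0' : cutSets k e y = ∅ := Finset.card_eq_zero.1 (by rw [hcard, h0, Finset.card_empty])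
    simp only [cutMean, h0, h0', Finset.sum_empty, zero_div, sub_self, abs_zero]
    linarith
  have hn : (0 : ℝ) < (cutSets k c y).card := Nat.cast_pos.2 h0.card_pos
  rw [he, cutMean, ← sub_div, ← Finset.sum_sub_distrib, abs_div,
    abs_of_pos (by positivity : (0 : ℝ) < 2 * (cutSets k c y).card), div_le_iff₀ (by positivity)]
  refine (Finset.abs_sum_le_sum_abs _ _).trans
    ((Finset.sum_le_card_nsmul _ _ D fun S hS => ?_).trans_eq ?_)
  · obtain ⟨hc, hy⟩ := mem_cutSets.1 hS
    by_cases he' : e ∈ S.1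
    · rw [exch_eq_self (S := S) (x := c) (y := e) (by simp [hc, he']), add_sub_add_left_eq_sub,
        abs_sub_comm]
      exact hD c e (exch c y S)
    · rw [exch_eq_self (S := exch c y S) (x := c) (y := e) (by
        simp [mem_exch, Equiv.swap_apply_of_ne_of_ne (Ne.intro fun h : e = c => he' (h ▸ hc))
          hey.symm, hy, he']), add_sub_add_right_eq_sub, abs_sub_comm]
      exact hD c e S
  · rw [nsmul_eq_mul]; ring

/-- An eigenfunction with eigenvalue below one is constant. -/
theorem exch_invariant_of_cutOp {g : Sets α k → ℝ} {μ : ℝ} (hμ : μ < 1) (hg : cutOp g = μ • g)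
    (c e : α) (S : Sets α k) : g (exch c e S) = g S := by
  have : Nonempty (α × α × Sets α k) := ⟨(c, e, S)⟩
  obtain ⟨⟨c₁, e₁, S₁⟩, hmax⟩ := Finite.exists_max fun z : α × α × Sets α k =>
    |g (exch z.1 z.2.1 z.2.2) - g z.2.2|
  obtain ⟨D, hD0⟩ : ∃ D, D = |g (exch c₁ e₁ S₁) - g S₁| := ⟨_, rfl⟩
  have hD : ∀ x y T, |g (exch x y T) - g T| ≤ D := fun x y T => by
    rw [hD0]; exact hmax (x, y, T)
  by_contra hne
  have hDp : 0 < D := (abs_pos.2 (sub_ne_zero.2 hne)).trans_le (hD c e S)
  obtain ⟨c₀, e₀, S₀, hc, he, hδ⟩ : ∃ c₀ e₀ S₀, c₀ ∈ (S₀ : Sets α k).1 ∧ e₀ ∉ S₀.1 ∧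
      g S₀ - g (exch c₀ e₀ S₀) = D := by
    obtain ⟨c₂, e₂, S₂, h2⟩ : ∃ c₂ e₂ S₂, g S₂ - g (exch c₂ e₂ S₂) = D := by
      rcases le_total (g (exch c₁ e₁ S₁)) (g S₁) with h | h
      · exact ⟨c₁, e₁, S₁, by rw [hD0, abs_of_nonpos (by linarith), neg_sub]⟩
      · exact ⟨c₁, e₁, exch c₁ e₁ S₁, by rw [exch_exch, hD0, abs_of_nonneg (by linarith)]⟩
    by_cases hc : c₂ ∈ S₂.1 <;> by_cases he : e₂ ∈ S₂.1
    · rw [exch_eq_self (by simp [hc, he]), sub_self] at h2; linarith
    · exact ⟨c₂, e₂, S₂, hc, he, h2⟩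
    · exact ⟨e₂, c₂, S₂, he, hc, by rw [exch_comm]; exact h2⟩
    · rw [exch_eq_self (by simp [hc, he]), sub_self] at h2; linarith
  obtain ⟨π, hπ⟩ : ∃ π, π = Equiv.swap c₀ e₀ := ⟨_, rfl⟩
  obtain ⟨φ, hφ⟩ : ∃ φ : α × α → ℝ, φ = fun p => if p.1 ∈ S₀.1 ∧ p.2 ∉ S₀.1 then
      ((g S₀ - g (exch p.1 p.2 S₀)) - (g (exch c₀ e₀ S₀) - g (exch c₀ e₀ (exch p.1 p.2 S₀)))) / 2
        - (cutMean g p.1 p.2 - cutMean g (π p.1) (π p.2)) else 0 := ⟨_, rfl⟩
  have e1 : μ * D = ∑ p, φ p := by
    have ha := congrFun hg S₀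
    have hb := congrFun hg (exch c₀ e₀ S₀)
    simp only [cutOp_apply, Pi.smul_apply, smul_eq_mul, ← Fintype.sum_prod_type'] at ha hb
    rw [← Equiv.sum_comp (π.prodCongr π)] at hb
    rw [← hδ, mul_sub, ← ha, ← hb, ← Finset.sum_sub_distrib]
    refine Finset.sum_congr rfl fun p _ => ?_
    simp only [hφ, hπ, Equiv.prodCongr_apply, Prod.map_fst, Prod.map_snd, mem_exch,
      Equiv.swap_apply_self, exch_conj]
    split_ifs <;> ring
  have hnn : ∀ p, 0 ≤ φ p := by
    intro p
    simp only [hφ]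
    split_ifs with h
    swap
    · exact le_rfl
    obtain ⟨hx, hy⟩ := h
    have hce : c₀ ≠ e₀ := fun h => he (h ▸ hc)
    by_cases h1 : p.1 = c₀ <;> by_cases h2 : p.2 = e₀
    · rw [hπ, h1, h2, Equiv.swap_apply_left, Equiv.swap_apply_right, cutMean_comm g c₀ e₀,
        exch_exch, hδ]
      linarith
    · have n2 : p.2 ≠ c₀ := fun h => hy (h ▸ hc)
      have hfix : exch c₀ e₀ (exch p.1 p.2 S₀) = exch p.1 p.2 S₀ := exch_eq_self (by
        simp [mem_exch, h1, he, hy, Equiv.swap_apply_of_ne_of_ne hce.symm (Ne.symm h2)])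
      have hb := abs_cutMean_sub_le g hDp.le hD (c := c₀) (e := e₀) n2 h2
      rw [hfix, hπ, h1, Equiv.swap_apply_left, Equiv.swap_apply_of_ne_of_ne n2 h2]
      linarith [(abs_le.1 hb).2]
    · have n1 : p.1 ≠ e₀ := fun h => he (h ▸ hx)
      have hfix : exch c₀ e₀ (exch p.1 p.2 S₀) = exch p.1 p.2 S₀ := exch_eq_self (by
        simp [mem_exch, h2, hc, hx, Equiv.swap_apply_of_ne_of_ne (Ne.symm h1) hce])
      have hb := abs_cutMean_sub_le g hDp.le hD (c := c₀) (e := e₀) h1 n1
      rw [hfix, hπ, h2, Equiv.swap_apply_right, Equiv.swap_apply_of_ne_of_ne h1 n1,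
        ← cutMean_comm g p.1 e₀, ← cutMean_comm g p.1 c₀]
      linarith [(abs_le.1 hb).1]
    · have n1 : p.1 ≠ e₀ := fun h => he (h ▸ hx)
      have n2 : p.2 ≠ c₀ := fun h => hy (h ▸ hc)
      rw [hπ, Equiv.swap_apply_of_ne_of_ne h1 n1, Equiv.swap_apply_of_ne_of_ne n2 h2, sub_self]
      have := (abs_le.1 (hD c₀ e₀ (exch p.1 p.2 S₀))).1
      linarith
  have h0 : φ (c₀, e₀) = D := by
    simp only [hφ, hπ, hc, he, Equiv.swap_apply_left, Equiv.swap_apply_right, exch_exch,
      not_false_eq_true, and_self, if_true, cutMean_comm g c₀ e₀]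
    linarith
  have := Finset.single_le_sum (fun p _ => hnn p) (Finset.mem_univ (c₀, e₀))
  rw [h0, ← e1] at this
  nlinarith

/-- A function unchanged by every exchange is constant. -/
theorem eq_of_exch_invariant {g : Sets α k → ℝ} (h : ∀ c e S, g (exch c e S) = g S)
    (S T : Sets α k) : g S = g T := by
  obtain ⟨N, hN⟩ : ∃ N, (S.1 \ T.1).card = N := ⟨_, rfl⟩
  induction N using Nat.strong_induction_on generalizing S with
  | _ N ih =>
    rcases (S.1 \ T.1).eq_empty_or_nonempty with h0 | ⟨c, hc⟩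
    · congr 1
      exact Subtype.ext (Finset.eq_of_subset_of_card_le (Finset.sdiff_eq_empty_iff_subset.1 h0)
        (by rw [S.2, T.2]))
    · obtain ⟨hcS, hcT⟩ := Finset.mem_sdiff.1 hc
      obtain ⟨e, he⟩ : (T.1 \ S.1).Nonempty := by
        rw [← Finset.card_pos, Finset.card_sdiff_comm (T.2.trans S.2.symm), Finset.card_pos]
        exact ⟨c, hc⟩
      obtain ⟨heT, heS⟩ := Finset.mem_sdiff.1 he
      rw [← h c e S]
      refine ih _ ?_ _ rfl
      rw [← hN]
      refine Finset.card_lt_card (Finset.ssubset_iff_of_subset ?_ |>.2 ⟨c, hc, ?_⟩)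
      · intro z hz
        simp only [Finset.mem_sdiff, mem_exch] at hz ⊢
        rcases eq_or_ne z c with rfl | h1
        · exact ⟨hcS, hcT⟩
        rcases eq_or_ne z e with rfl | h2
        · exact absurd heT hz.2
        rwa [Equiv.swap_apply_of_ne_of_ne h1 h2] at hz
      · simp [mem_exch, heS]

/-- The cut inequality: the exchanges pay for the cut averages and the norm. -/
theorem cut_gap {g : Sets α k → ℝ} (hg : ∑ S, g S = 0) :
    ip g g ≤ ∑ x, ∑ y, ∑ S ∈ cutSets k x y,
      ((g S - g (exch x y S)) ^ 2 / 4 - cutMean g x y ^ 2) := by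
  have e : ∑ x, ∑ y, ∑ S ∈ cutSets k x y,
      ((g S - g (exch x y S)) ^ 2 / 4 - cutMean g x y ^ 2) = ip g (cutOp g) := by
    rw [ip_cutOp]
    exact Finset.sum_congr rfl fun x _ => Finset.sum_congr rfl fun y _ =>
      Finset.sum_congr rfl fun S _ => by rw [sq, sq]
  rw [e]
  obtain ⟨N, b, l, hev, hne, -, hn, h1, -⟩ := exists_eigen (A := cutOp (α := α) (k := k))
    fun f h => by
      rw [ip_comm, ip_cutOp, ip_cutOp]
      exact Finset.sum_congr rfl fun x _ => Finset.sum_congr rfl fun y _ =>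
        Finset.sum_congr rfl fun S _ => by ring
  rw [hn, h1]
  refine Finset.sum_le_sum fun i _ => ?_
  rcases le_or_gt 1 (l i) with hl | hl
  · exact le_mul_of_one_le_left (sq_nonneg _) hl
  · have hc : ip (b i) g = 0 := by
      rcases isEmpty_or_nonempty (Sets α k) with hE | ⟨⟨S₀⟩⟩
      · simp [ip]
      · have : ip (b i) g = b i S₀ * ∑ S, g S := by
          rw [Finset.mul_sum]
          exact Finset.sum_congr rfl fun S _ => by
            rw [eq_of_exch_invariant (exch_invariant_of_cutOp hl (hev i)) S S₀]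
        rw [this, hg, mul_zero]
    simp [hc]

end Vale.P335
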