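import Vale.Agent.P335.Spectral

/-!
# From a spectral gap to a mixing bound

For a symmetric stochastic kernel which is positive semidefinite, a gap `g` on the functions of mean
zero makes every row of the `t`-th power close to uniform once `g t` exceeds half the logarithm of
the number of states.
-/

noncomputable section

namespace Vale.P335

open Finset Matrix

variable {Ω : Type*} [Fintype Ω] [DecidableEq Ω]

omit [DecidableEq Ω] in
/-- A positive symmetric kernel with gap `g` contracts functions of mean zero. -/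
theorem contract {P : Matrix Ω Ω ℝ} (hsym : P.IsSymm) (hrow : ∀ x, ∑ y, P x y = 1)
    (hpos : ∀ f : Ω → ℝ, 0 ≤ ip f (P *ᵥ f)) {g : ℝ}
    (hgap : ∀ f : Ω → ℝ, ∑ x, f x = 0 → ip f (P *ᵥ f) ≤ (1 - g) * ip f f) {f : Ω → ℝ}
    (hf : ∑ x, f x = 0) :
    ∑ x, (P *ᵥ f) x = 0 ∧ ip (P *ᵥ f) (P *ᵥ f) ≤ (1 - g) ^ 2 * ip f f := by
  have hmove : ∀ u v : Ω → ℝ, ip (P *ᵥ u) v = ip u (P *ᵥ v) := fun u v => by
    simp only [ip, Matrix.mulVec, dotProduct, Finset.sum_mul, Finset.mul_sum]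
    rw [Finset.sum_comm]
    refine Finset.sum_congr rfl fun x _ => Finset.sum_congr rfl fun y _ => ?_
    rw [hsym.apply x y]
    ring
  have hsum : ∑ x, (P *ᵥ f) x = 0 := by
    simp only [Matrix.mulVec, dotProduct]
    rw [Finset.sum_comm]
    simp only [← Finset.sum_mul]
    have : ∀ y, ∑ x, P x y = 1 := fun y => by
      simp_rw [← hsym.apply _ y]; exact hrow y
    simp [this, hf]
  refine ⟨hsum, ?_⟩
  obtain ⟨u, hu⟩ : ∃ u, u = P *ᵥ f := ⟨_, rfl⟩
  rw [← hu] at hsum ⊢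
  have a0 := hpos f
  have b0 := hpos u
  have a1 := hgap f hf
  have b1 := hgap u hsum
  have c : ∀ s : ℝ, 0 ≤ ip f (P *ᵥ f) - 2 * s * ip u u + s ^ 2 * ip u (P *ᵥ u) := by
    intro s
    have h := hpos (f - s • u)
    rw [Matrix.mulVec_sub, Matrix.mulVec_smul, ip_sub_left, ip_sub_right, ip_sub_right,
      ip_smul_left, ip_smul_left, ip_smul_right, ip_smul_right, ← hmove f u, ← hu] at h
    rw [← hu]
    linarith
  rcases (ip_self_nonneg u).lt_or_eq with hp | hp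
  · rcases b0.lt_or_eq with hb | hb
    · have h := c (ip u u / ip u (P *ᵥ u))
      have e : ip f (P *ᵥ f) - 2 * (ip u u / ip u (P *ᵥ u)) * ip u u
          + (ip u u / ip u (P *ᵥ u)) ^ 2 * ip u (P *ᵥ u)
          = ip f (P *ᵥ f) - ip u u ^ 2 / ip u (P *ᵥ u) := by field_simp; ring
      rw [e, sub_nonneg, div_le_iff₀ hb] at h
      have := mul_le_mul a1 b1 hb.le (a0.trans a1)
      nlinarith
    · have h := c ((ip f (P *ᵥ f) + 1) / (2 * ip u u))
      rw [← hb] at h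
      have e : 2 * ((ip f (P *ᵥ f) + 1) / (2 * ip u u)) * ip u u = ip f (P *ᵥ f) + 1 := by
        field_simp
      rw [e] at h
      linarith
  · rw [← hp]
    exact mul_nonneg (sq_nonneg _) (ip_self_nonneg f)

/-- The mixing bound from the gap, in total variation. -/
theorem tv_le_quarter {P : Matrix Ω Ω ℝ} (hsym : P.IsSymm) (hrow : ∀ x, ∑ y, P x y = 1)
    (hpos : ∀ f : Ω → ℝ, 0 ≤ ip f (P *ᵥ f)) {g : ℝ}
    (hgap : ∀ f : Ω → ℝ, ∑ x, f x = 0 → ip f (P *ᵥ f) ≤ (1 - g) * ip f f) {t : ℕ}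
    (ht : 4 * (Fintype.card Ω : ℝ) * (1 - g) ^ (2 * t) ≤ 1) (x : Ω) :
    (1 / 2 : ℝ) * ∑ y, |(P ^ t) x y - 1 / (Fintype.card Ω : ℝ)| ≤ 1 / 4 := by
  have hN : (0 : ℝ) < Fintype.card Ω := by exact_mod_cast Fintype.card_pos_iff.2 ⟨x⟩
  obtain ⟨f, hf⟩ : ∃ f : ℕ → Ω → ℝ,
      f = fun s y => (P ^ s) y x - 1 / (Fintype.card Ω : ℝ) := ⟨_, rfl⟩
  have hstep : ∀ s, f (s + 1) = P *ᵥ f s := fun s => by
    funext y
    simp only [hf, pow_succ', Matrix.mul_apply, Matrix.mulVec, dotProduct, mul_sub,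
      Finset.sum_sub_distrib, ← Finset.sum_mul, hrow, one_mul]
  have h0 : ∑ y, f 0 y = 0 := by
    simp [hf, Matrix.one_apply, Finset.sum_sub_distrib, hN.ne']
  have h1 : ip (f 0) (f 0) ≤ 1 := by
    have : ip (f 0) (f 0) = 1 - 1 / (Fintype.card Ω : ℝ) := by
      have e : ∀ y, f 0 y * f 0 y = (if y = x then 1 - 2 / (Fintype.card Ω : ℝ) else 0)
          + 1 / (Fintype.card Ω : ℝ) ^ 2 := fun y => by
        by_cases h : y = x <;> simp [hf, h] <;> ring
      simp only [ip, e, Finset.sum_add_distrib, Finset.sum_ite_eq', Finset.mem_univ, if_true,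
        Finset.sum_const, Finset.card_univ, nsmul_eq_mul]
      field_simp
      ring
    rw [this]
    have := one_div_pos.2 hN
    linarith
  have main : ∀ s, ∑ y, f s y = 0 ∧ ip (f s) (f s) ≤ (1 - g) ^ (2 * s) := by
    intro s
    induction s with
    | zero => exact ⟨h0, by simpa using h1⟩
    | succ s ih =>
      rw [hstep]
      obtain ⟨a, b⟩ := contract hsym hrow hpos hgap ih.1
      refine ⟨a, b.trans ?_⟩
      rw [show 2 * (s + 1) = 2 + 2 * s by omega, pow_add]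
      exact mul_le_mul_of_nonneg_left ih.2 (sq_nonneg _)
  have hy : ∀ y, (P ^ t) x y - 1 / (Fintype.card Ω : ℝ) = f t y := fun y => by
    rw [hf, ← (hsym.pow t).apply x y]
  simp_rw [hy]
  have cs := Finset.sum_mul_sq_le_sq_mul_sq Finset.univ (fun _ : Ω => (1 : ℝ)) fun y => |f t y|
  simp only [one_mul, one_pow, sq_abs, Finset.sum_const, Finset.card_univ, nsmul_eq_mul,
    mul_one] at cs
  have hq : ∑ y, f t y ^ 2 = ip (f t) (f t) := Finset.sum_congr rfl fun y _ => sq _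
  rw [hq] at cs
  have := cs.trans (mul_le_mul_of_nonneg_left (main t).2 hN.le)
  have h3 : 0 ≤ ∑ y, |f t y| := Finset.sum_nonneg fun y _ => abs_nonneg _
  nlinarith

/-- Natural numbers of steps after which a gap `g` suffices for a set of at most `2 ^ k` states. -/
theorem four_mul_card_le {g : ℝ} (hg : g ≤ 1) {N k t : ℕ} (hN : N ≤ 2 ^ k)
    (ht : (k : ℝ) + 2 ≤ g * t) : 4 * (N : ℝ) * (1 - g) ^ (2 * t) ≤ 1 := by
  have h1 : (1 - g) ≤ Real.exp (-g) := by linarith [Real.add_one_le_exp (-g)]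
  have h2 : (1 - g) ^ (2 * t) ≤ Real.exp (-g) ^ (2 * t) := pow_le_pow_left₀ (by linarith) h1 _
  rw [← Real.exp_nat_mul] at h2
  have h3 : Real.exp ((2 * t : ℕ) * -g) ≤ Real.exp (-((k + 2 : ℕ) : ℝ)) :=
    Real.exp_le_exp.2 (by push_cast; nlinarith)
  have h4 : (2 : ℝ) ^ (k + 2) ≤ Real.exp ((k + 2 : ℕ) : ℝ) := by
    rw [← mul_one ((k + 2 : ℕ) : ℝ), Real.exp_nat_mul]
    exact pow_le_pow_left₀ (by norm_num) (by linarith [Real.add_one_le_exp (1 : ℝ)]) _
  have h5 : 4 * (N : ℝ) ≤ 2 ^ (k + 2) := by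
    rw [pow_add]
    have : (N : ℝ) ≤ 2 ^ k := by exact_mod_cast hN
    linarith
  rw [Real.exp_neg] at h3
  calc 4 * (N : ℝ) * (1 - g) ^ (2 * t)
      ≤ Real.exp ((k + 2 : ℕ) : ℝ) * (Real.exp ((k + 2 : ℕ) : ℝ))⁻¹ :=
        mul_le_mul (h5.trans h4) (h2.trans h3) (pow_nonneg (by linarith) _)
          (Real.exp_pos _).le
    _ = 1 := mul_inv_cancel₀ (Real.exp_pos _).ne'

end Vale.P335
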