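import Vale.Agent.P335.Disjoint
import Vale.Agent.P335.Johnson

/-!
# The fibre of one pair

A class of a pair `{u, v}` is the family of `k`-subsets of the exclusive neighbours, and the switches
and partial averages against the disjoint pairs become the exchanges and cut averages.
-/

noncomputable section

set_option linter.unusedSectionVars false

namespace Vale.P335

open Finset

variable {n : ℕ} {d : Fin n → ℕ}

/-- The exclusive neighbours of `u` and `v`. -/
def excl (u v : Fin n) (G : Omega d) : Finset (Fin n) :=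
  univ.filter fun w => w ≠ u ∧ w ≠ v ∧ adjB G u w ≠ adjB G v w

/-- The number of exclusive neighbours of `v` and `u` held by `u`. -/
def exclCount (u v : Fin n) (G : Omega d) : ℕ :=
  (univ.filter fun w : excl u v G => adjB G u w.1 = true).card

section Fibre

variable {u v : Fin n} (huv : u ≠ v) {G₀ G : Omega d}
  (hG : G ∈ cls (pairKey {u, v}) G₀)

include huv hG

theorem cls_col {w : Fin n} (h1 : w ≠ u) (h2 : w ≠ v) :
    (adjB G u w).toNat + (adjB G v w).toNat = (adjB G₀ u w).toNat + (adjB G₀ v w).toNat := by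
  have := colSum_eq (mem_cls.1 hG) (w := w) (by simp [h1, h2])
  rwa [Finset.sum_pair huv, Finset.sum_pair huv] at this

theorem cls_not_excl {w : Fin n} (h1 : w ≠ u) (h2 : w ≠ v) (hw : w ∉ excl u v G₀) :
    adjB G u w = adjB G₀ u w ∧ adjB G v w = adjB G₀ v w := by
  have hc := cls_col huv hG h1 h2
  have he : adjB G₀ u w = adjB G₀ v w := by
    by_contra hne; exact hw (by simp [excl, h1, h2, hne])
  revert hc he
  cases adjB G u w <;> cases adjB G v w <;> cases adjB G₀ u w <;> cases adjB G₀ v w <;> simp

theorem cls_excl {w : Fin n} (hw : w ∈ excl u v G₀) : adjB G v w = !adjB G u w := by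
  simp only [excl, Finset.mem_filter, Finset.mem_univ, true_and] at hw
  have hc := cls_col huv hG hw.1 hw.2.1
  have he := hw.2.2
  revert hc he
  cases adjB G u w <;> cases adjB G v w <;> cases adjB G₀ u w <;> cases adjB G₀ v w <;> simp

theorem cls_count :
    (univ.filter fun w : excl u v G₀ => adjB G u w.1 = true).card = exclCount u v G₀ := by
  have h1 := sum_adjB G u
  have h2 := sum_adjB G₀ u
  rw [← Finset.sum_add_sum_compl (excl u v G₀)] at h1 h2
  have h3 : ∑ w ∈ (excl u v G₀)ᶜ, (adjB G u w).toNat = ∑ w ∈ (excl u v G₀)ᶜ, (adjB G₀ u w).toNat := by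
    refine Finset.sum_congr rfl fun w hw => ?_
    by_cases h : w = u ∨ w = v
    · rw [outsideE_eq_iff.1 (mem_cls.1 hG) u w (by rcases h with rfl | rfl <;> simp [crossE])]
    · push Not at h
      rw [(cls_not_excl huv hG h.1 h.2 (Finset.mem_compl.1 hw)).1]
  have e : ∀ H : Omega d, (univ.filter fun w : excl u v G₀ => adjB H u w.1 = true).card
      = ∑ w ∈ excl u v G₀, (adjB H u w).toNat := fun H => by
    rw [Finset.card_eq_sum_ones, Finset.sum_filter, ← Finset.sum_coe_sort (excl u v G₀)]
    exact Finset.sum_congr rfl fun w _ => by cases adjB H u w.1 <;> simp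
  rw [exclCount, e, e]
  omega

end Fibre

/-- The side of `u` in a realisation of the class. -/
def toSets {u v : Fin n} (huv : u ≠ v) (G₀ : Omega d)
    (G : {G // G ∈ cls (pairKey {u, v}) G₀}) :
    Sets (excl u v G₀) (exclCount u v G₀) :=
  ⟨univ.filter fun w => adjB G.1 u w.1 = true, cls_count huv G.2⟩

theorem mem_toSets {u v : Fin n} (huv : u ≠ v) (G₀ : Omega d)
    (G : {G // G ∈ cls (pairKey {u, v}) G₀}) (w : excl u v G₀) :
    w ∈ (toSets huv G₀ G).1 ↔ adjB G.1 u w.1 = true := by simp [toSets]

theorem toSets_bijective {u v : Fin n} (huv : u ≠ v) (G₀ : Omega d) :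
    Function.Bijective (toSets huv G₀) := by
  constructor
  · intro G H h
    refine Subtype.ext (omega_ext fun i j => ?_)
    have hu : ∀ w ∈ excl u v G₀, adjB G.1 u w = adjB H.1 u w := fun w hw => by
      have := congrArg (fun S : Sets (excl u v G₀) (exclCount u v G₀) =>
        decide ((⟨w, hw⟩ : excl u v G₀) ∈ S.1)) h
      simpa [mem_toSets] using this
    have hrow : ∀ w, w ≠ u → w ≠ v →
        adjB G.1 u w = adjB H.1 u w ∧ adjB G.1 v w = adjB H.1 v w := fun w h1 h2 => by
      by_cases hw : w ∈ excl u v G₀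
      · exact ⟨hu w hw, by rw [cls_excl huv G.2 hw, cls_excl huv H.2 hw, hu w hw]⟩
      · obtain ⟨a, b⟩ := cls_not_excl huv G.2 h1 h2 hw
        obtain ⟨a', b'⟩ := cls_not_excl huv H.2 h1 h2 hw
        exact ⟨a.trans a'.symm, b.trans b'.symm⟩
    cases hc : crossE {u, v} i j
    · rw [outsideE_eq_iff.1 (mem_cls.1 G.2) i j hc, outsideE_eq_iff.1 (mem_cls.1 H.2) i j hc]
    · simp only [crossE, Finset.mem_insert, Finset.mem_singleton] at hc
      by_cases hi : i = u ∨ i = v
      · have hj : j ≠ u ∧ j ≠ v := by simpa [hi] using hc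
        rcases hi with rfl | rfl
        exacts [(hrow j hj.1 hj.2).1, (hrow j hj.1 hj.2).2]
      · have hj : j = u ∨ j = v := by simpa [hi] using hc
        push Not at hi
        rw [adjB_comm G.1, adjB_comm H.1]
        rcases hj with rfl | rfl
        exacts [(hrow i hi.1 hi.2).1, (hrow i hi.1 hi.2).2]
  · intro S
    obtain ⟨sel, hsel⟩ : ∃ sel : Fin n → Bool,
        sel = fun w => decide (∃ h : w ∈ excl u v G₀, (⟨w, h⟩ : excl u v G₀) ∈ S.1) := ⟨_, rfl⟩
    obtain ⟨A, hA⟩ : ∃ A : Fin n → Fin n → Bool, A = fun i j =>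
        if i = u ∧ j ∈ excl u v G₀ then sel j else if j = u ∧ i ∈ excl u v G₀ then sel i
        else if i = v ∧ j ∈ excl u v G₀ then !sel j else if j = v ∧ i ∈ excl u v G₀ then !sel i
        else adjB G₀ i j := ⟨_, rfl⟩
    have hnu : u ∉ excl u v G₀ := by simp [excl]
    have hnv : v ∉ excl u v G₀ := by simp [excl]
    have hsym : ∀ i j, A i j = A j i := fun i j => by
      simp only [hA, adjB_comm G₀ j i]
      by_cases h1 : i = u <;> by_cases h2 : j = u <;> by_cases h3 : i = v <;> by_cases h4 : j = v <;>
        simp_all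
    have hloop : ∀ i, A i i = false := fun i => by
      simp only [hA]
      by_cases h1 : i = u <;> by_cases h3 : i = v <;> simp_all [adjB_self]
    have hsum : ∑ w ∈ excl u v G₀, (sel w).toNat = exclCount u v G₀ := by
      rw [← S.2, Finset.card_eq_sum_ones, ← Finset.sum_coe_sort (excl u v G₀),
        ← Finset.sum_subset (Finset.subset_univ S.1) fun w _ hw => by simp [hsel, hw]]
      exact Finset.sum_congr rfl fun w hw => by simp [hsel, hw]
    have hcnt : exclCount u v G₀ = ∑ w ∈ excl u v G₀, (adjB G₀ u w).toNat := by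
      rw [exclCount, Finset.card_eq_sum_ones, Finset.sum_filter,
        ← Finset.sum_coe_sort (excl u v G₀)]
      exact Finset.sum_congr rfl fun w _ => by cases adjB G₀ u w.1 <;> simp
    have hdeg : ∀ i, ∑ j, (A i j).toNat = d i := by
      intro i
      rw [← sum_adjB G₀ i]
      by_cases hiu : i = u
      · subst hiu
        rw [← Finset.sum_add_sum_compl (excl i v G₀),
          ← Finset.sum_add_sum_compl (excl i v G₀) fun j => (adjB G₀ i j).toNat, ← hcnt, ← hsum]
        refine congrArg₂ (· + ·) (Finset.sum_congr rfl fun j hj => ?_)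
          (Finset.sum_congr rfl fun j hj => ?_)
        · simp [hA, hj]
        · simp [hA, Finset.mem_compl.1 hj, hnu, huv]
      by_cases hiv : i = v
      · subst hiv
        rw [← Finset.sum_add_sum_compl (excl u i G₀),
          ← Finset.sum_add_sum_compl (excl u i G₀) fun j => (adjB G₀ i j).toNat]
        refine congrArg₂ (· + ·) ?_ (Finset.sum_congr rfl fun j hj => ?_)
        · have h1 : ∀ w ∈ excl u i G₀, (adjB G₀ i w).toNat + (adjB G₀ u w).toNat = 1 :=
            fun w hw => by
              simp only [excl, Finset.mem_filter] at hw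
              have := hw.2.2.2
              revert this
              cases adjB G₀ u w <;> cases adjB G₀ i w <;> simp
          have h2 : ∀ w ∈ excl u i G₀, (A i w).toNat + (sel w).toNat = 1 := fun w hw => by
            simp [hA, hw, huv.symm, hnv, hnu]
            cases sel w <;> simp
          have e1 := Finset.sum_congr rfl h1
          have e2 := Finset.sum_congr rfl h2
          rw [Finset.sum_add_distrib, ← hcnt, ← hsum] at e1
          rw [Finset.sum_add_distrib] at e2
          omega
        · simp [hA, Finset.mem_compl.1 hj, hnu, hnv, huv.symm]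
      by_cases hie : i ∈ excl u v G₀
      · have hi0 : adjB G₀ i u ≠ adjB G₀ i v := by
          rw [adjB_comm G₀ i u, adjB_comm G₀ i v]
          exact (Finset.mem_filter.1 hie).2.2.2
        rw [← Finset.sum_add_sum_compl {u, v}, ← Finset.sum_add_sum_compl {u, v} fun j =>
          (adjB G₀ i j).toNat, Finset.sum_pair huv, Finset.sum_pair huv]
        refine congrArg₂ (· + ·) ?_ (Finset.sum_congr rfl fun j hj => ?_)
        · simp [hA, hiu, hiv, hie, huv, huv.symm, hnu, hnv]
          revert hi0
          cases adjB G₀ i u <;> cases adjB G₀ i v <;> cases sel i <;> simp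
        · simp only [Finset.mem_compl, Finset.mem_insert, Finset.mem_singleton, not_or] at hj
          simp [hA, hiu, hiv, hj.1, hj.2]
      · exact Finset.sum_congr rfl fun j _ => by simp [hA, hiu, hiv, hie]
    obtain ⟨G, hG⟩ : ∃ G : Omega d, G = mkOmega A hsym hloop hdeg := ⟨_, rfl⟩
    have hGc : G ∈ cls (pairKey {u, v}) G₀ := mem_cls.2 (outsideE_eq_iff.2 fun i j hc => by
      rw [hG, adjB_mkOmega, hA]
      simp only [crossE, Finset.mem_insert, Finset.mem_singleton] at hc
      by_cases h1 : i = u <;> by_cases h2 : j = u <;> by_cases h3 : i = v <;>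
        by_cases h4 : j = v <;> simp_all)
    refine ⟨⟨G, hGc⟩, Subtype.ext (Finset.ext fun w => ?_)⟩
    rw [mem_toSets]
    show adjB G u w.1 = true ↔ _
    rw [hG, adjB_mkOmega, hA]
    simp [w.2, hsel]

/-- The disjoint pairs with diagonal block are the cuts of the exclusive neighbours. -/
theorem sum_disjoint_diag {u v : Fin n} (huv : u ≠ v) (G₀ : Omega d)
    (G : {G // G ∈ cls (pairKey {u, v}) G₀}) (F : Finset (Fin n) → ℝ)
    (hF : ∀ Q, Disjoint {u, v} Q → ¬Diag {u, v} Q G.1 → F Q = 0) :
    ∑ Q ∈ ((univ : Finset (Fin n)).powersetCard 2).filter (Disjoint {u, v}), F Q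
      = ∑ x, ∑ y, if x ∈ (toSets huv G₀ G).1 ∧ y ∉ (toSets huv G₀ G).1
          then F {(x : excl u v G₀).1, (y : excl u v G₀).1} else 0 := by
  classical
  rw [← Finset.sum_filter_of_ne (p := fun Q => Diag {u, v} Q G.1)
    fun Q hQ hne => by by_contra h; exact hne (hF Q (Finset.mem_filter.1 hQ).2 h), ← Fintype.sum_prod_type']
  rw [← Finset.sum_filter]
  symm
  refine Finset.sum_bij (fun p _ => ({p.1.1, p.2.1} : Finset (Fin n))) ?_ ?_ ?_ fun _ _ => rfl
  · rintro ⟨x, y⟩ hp
    simp only [Finset.mem_filter, Finset.mem_univ, true_and, mem_toSets] at hp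
    obtain ⟨hx, hy⟩ := hp
    rw [Bool.not_eq_true] at hy
    have hxy : x.1 ≠ y.1 := fun h => by rw [h, hy] at hx; exact Bool.false_ne_true hx
    have hx' := (Finset.mem_filter.1 x.2).2
    have hy' := (Finset.mem_filter.1 y.2).2
    have ex := cls_excl huv G.2 x.2
    have ey := cls_excl huv G.2 y.2
    simp only [Finset.mem_filter, Finset.mem_powersetCard, Finset.subset_univ,
      Finset.card_pair hxy, true_and, and_assoc, Diag, Finset.forall_mem_insert,
      Finset.mem_singleton, forall_eq, Finset.sum_pair hxy, Finset.sum_pair huv]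
    simp [hx, hy, ex, ey, hx'.1.symm, hx'.2.1.symm, hy'.1.symm, hy'.2.1.symm, hx'.1, hx'.2.1,
      hy'.1, hy'.2.1]
  · rintro ⟨x, y⟩ hp ⟨x', y'⟩ hp' h
    simp only [Finset.mem_filter, Finset.mem_univ, true_and, mem_toSets] at hp hp'
    simp only at h
    have h1 : x.1 ∈ ({x'.1, y'.1} : Finset (Fin n)) := h ▸ Finset.mem_insert_self _ _
    have h2 : y.1 ∈ ({x'.1, y'.1} : Finset (Fin n)) := by rw [← h]; simp
    simp only [Finset.mem_insert, Finset.mem_singleton] at h1 h2
    refine Prod.ext (Subtype.ext (h1.resolve_right fun e => hp'.2 (e ▸ hp.1)))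
      (Subtype.ext (h2.resolve_left fun e => hp.2 (e ▸ hp'.1)))
  · intro Q hQ
    simp only [Finset.mem_filter, Finset.mem_powersetCard] at hQ
    obtain ⟨⟨⟨-, hcard⟩, hdis⟩, hd⟩ := hQ
    have hin : ∀ w ∈ Q, w ∈ excl u v G₀ := fun w hw => by
      have h1 : w ≠ u := fun e => Finset.disjoint_left.1 hdis (Finset.mem_insert_self u _) (e ▸ hw)
      have h2 : w ≠ v := fun e => Finset.disjoint_left.1 hdis
        (Finset.mem_insert_of_mem (Finset.mem_singleton_self v)) (e ▸ hw)
      have hs := hd.2 w hw
      rw [Finset.sum_pair huv] at hs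
      by_contra hne
      obtain ⟨a, b⟩ := cls_not_excl huv G.2 h1 h2 hne
      have he : adjB G₀ u w = adjB G₀ v w := by
        by_contra h; exact hne (by simp [excl, h1, h2, h])
      rw [a, b, he] at hs
      omega
    obtain ⟨a, b, hab, rfl⟩ := Finset.card_eq_two.1 hcard
    have hs := hd.1 u (Finset.mem_insert_self u _)
    rw [Finset.sum_pair hab] at hs
    cases ha : adjB G.1 u a
    · refine ⟨(⟨b, hin b (by simp)⟩, ⟨a, hin a (by simp)⟩), ?_, Finset.pair_comm b a⟩
      simp only [Finset.mem_filter, Finset.mem_univ, true_and, mem_toSets]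
      rw [ha] at hs
      exact ⟨by revert hs; cases adjB G.1 u b <;> simp, by simp [ha]⟩
    · refine ⟨(⟨a, hin a (by simp)⟩, ⟨b, hin b (by simp)⟩), ?_, rfl⟩
      simp only [Finset.mem_filter, Finset.mem_univ, true_and, mem_toSets]
      rw [ha] at hs
      exact ⟨ha, by revert hs; cases adjB G.1 u b <;> simp⟩

/-- The switches against the disjoint pairs pay for the partial averages and the pair complement. -/
theorem pair_energy {P : Finset (Fin n)} (hP : P.card = 2) (f : Omega d → ℝ) :
    ip f (gdev P f) ≤ ∑ Q ∈ ((univ : Finset (Fin n)).powersetCard 2).filter (Disjoint P),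
      (1 / 4 * ip (zdiff P Q f) (zdiff P Q f)
        - ip (avg (partKey P Q) (zbar P Q (gdev P f)))
          (avg (partKey P Q) (zbar P Q (gdev P f)))) := by
  classical
  obtain ⟨u, v, huv, rfl⟩ := Finset.card_eq_two.1 hP
  obtain ⟨g, hg⟩ : ∃ g, g = gdev {u, v} f := ⟨_, rfl⟩
  obtain ⟨φ, hφ⟩ : ∃ φ : Omega d → ℝ, φ = fun G =>
      (∑ Q ∈ ((univ : Finset (Fin n)).powersetCard 2).filter (Disjoint {u, v}),
        (1 / 4 * (zdiff {u, v} Q f G * zdiff {u, v} Q f G)
          - avg (partKey {u, v} Q) (zbar {u, v} Q g) G * avg (partKey {u, v} Q) (zbar {u, v} Q g) G))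
        - g G * g G := ⟨_, rfl⟩
  have hmain : 0 ≤ ∑ G, φ G := by
    refine sum_nonneg_of_cls (pairKey {u, v}) fun G₀ => ?_
    obtain ⟨e, he⟩ : ∃ e, e = (Equiv.ofBijective _ (toSets_bijective huv G₀)).symm := ⟨_, rfl⟩
    have hes : ∀ S, toSets huv G₀ (e S) = S := fun S => by
      rw [he]; exact (Equiv.ofBijective _ (toSets_bijective huv G₀)).apply_symm_apply S
    obtain ⟨γ, hγ⟩ : ∃ γ, γ = fun S => g (e S).1 := ⟨_, rfl⟩
    rw [← Finset.sum_coe_sort (cls (pairKey {u, v}) G₀), ← Equiv.sum_comp e]
    have hmean : ∑ S, γ S = 0 := by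
      rw [hγ, Equiv.sum_comp e fun G => g G.1, Finset.sum_coe_sort (cls (pairKey {u, v}) G₀) g, hg]
      simp only [gdev, dev_apply, Pi.sub_apply, Finset.sum_sub_distrib]
      rw [Finset.sum_congr rfl fun G (hG : G ∈ cls (pairKey {u, v}) G₀) =>
        avg_congr (pairKey {u, v}) f (mem_cls.1 hG), Finset.sum_const, nsmul_eq_mul, avg_apply,
        mul_div_cancel₀ _ (card_cls_pos _ G₀).ne', sub_self]
    have hcut := cut_gap hmean
    have hpt : ∀ S, φ (e S).1 = (∑ x, ∑ y, if x ∈ S.1 ∧ y ∉ S.1
        then (γ S - γ (exch x y S)) ^ 2 / 4 - cutMean γ x y ^ 2 else 0) - γ S * γ S := by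
      intro S
      simp only [hφ]
      rw [sum_disjoint_diag huv G₀ (e S) _ (fun Q hdis hQ => ?_), hes S]
      swap
      · have hz : avg (partKey {u, v} Q) (zbar {u, v} Q g) (e S).1 = 0 := by
          rw [avg_apply, Finset.sum_eq_zero, zero_div]
          intro H hH
          refine if_neg fun hH' => hQ ?_
          have : ∀ i ∈ ({u, v} : Finset (Fin n)), ∀ j ∈ Q,
              adjB H i j = adjB (e S).1 i j := fun i hi j hj => by
            refine outsideE_eq_iff.1 (mem_cls.1 hH) i j ?_
            have hiQ' : i ∉ Q := Finset.disjoint_left.1 hdis hi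
            have hjP' : j ∉ ({u, v} : Finset (Fin n)) := Finset.disjoint_right.1 hdis hj
            simp [partE, crossE, hi, hj, hjP', hiQ']
          exact ⟨fun i hi => (Finset.sum_congr rfl fun j hj => by rw [this i hi j hj]).trans
            (hH'.1 i hi), fun j hj => (Finset.sum_congr rfl fun i hi => by
              rw [this i hi j hj]).trans (hH'.2 j hj)⟩
        simp [zdiff, hQ, hz]
      congr 1
      swap
      · rw [hγ]
      refine Finset.sum_congr rfl fun x _ => Finset.sum_congr rfl fun y _ => ?_
      by_cases hxy : x ∈ S.1 ∧ y ∉ S.1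
      swap
      · rw [if_neg hxy, if_neg hxy]
      rw [if_pos hxy, if_pos hxy]
      have hx' := (Finset.mem_filter.1 x.2).2
      have hy' := (Finset.mem_filter.1 y.2).2
      have hxy' : x.1 ≠ y.1 := fun h => hxy.2 (Subtype.ext h ▸ hxy.1)
      have h2 : TwoPairs {u, v} {x.1, y.1} := ⟨Finset.card_pair huv, Finset.card_pair hxy', by
        simp [hx'.1.symm, hx'.2.1.symm, hy'.1.symm, hy'.2.1.symm, hx'.1, hx'.2.1, hy'.1, hy'.2.1]⟩
      have memT : ∀ T z, z ∈ T.1 ↔ adjB (e T).1 u z.1 = true := fun T z =>
        (iff_of_eq (congrArg (fun U : Sets (excl u v G₀) (exclCount u v G₀) => z ∈ U.1)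
          (hes T).symm)).trans (mem_toSets huv G₀ (e T) z)
      have mem : ∀ T, (x ∈ T.1 ↔ adjB (e T).1 u x.1 = true) ∧
          (y ∈ T.1 ↔ adjB (e T).1 u y.1 = true) := fun T => ⟨memT T x, memT T y⟩
      have hdiag : ∀ T, x ∈ T.1 ∧ y ∉ T.1 → Diag {u, v} {x.1, y.1} (e T).1 := fun T hT => by
        have a := (mem T).1.1 hT.1
        have b : adjB (e T).1 u y.1 = false := by
          rw [Bool.eq_false_iff]; exact fun h => hT.2 ((mem T).2.2 h)
        simp only [Diag, Finset.forall_mem_insert, Finset.mem_singleton, forall_eq,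
          Finset.sum_pair hxy', Finset.sum_pair huv, cls_excl huv (e T).2 x.2,
          cls_excl huv (e T).2 y.2]
        simp [a, b]
      have hflip : ∀ T, x ∈ T.1 ∧ y ∉ T.1 →
          flipPQ {u, v} {x.1, y.1} (e T).1 = (e (exch x y T)).1 := fun T hT => by
        have hmem : flipPQ {u, v} {x.1, y.1} (e T).1 ∈ cls (pairKey {u, v}) G₀ :=
          mem_cls.2 ((pairKey_flip h2 _).trans (mem_cls.1 (e T).2))
        have : toSets huv G₀ ⟨_, hmem⟩ = exch x y T := by
          refine Subtype.ext (Finset.ext fun w => ?_)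
          rw [mem_toSets, mem_exch, memT, adjB_flip h2]
          have hw' := (Finset.mem_filter.1 w.2).2
          have a := (mem T).1.1 hT.1
          have b : adjB (e T).1 u y.1 = false := by
            rw [Bool.eq_false_iff]; exact fun h => hT.2 ((mem T).2.2 h)
          simp only [hdiag T hT, true_and]
          rcases eq_or_ne w x with rfl | n1
          · simp [blockE, crossE, hw'.1, hw'.2.1, hw'.1.symm, hy'.1.symm, a, b]
          rcases eq_or_ne w y with rfl | n2
          · simp [blockE, crossE, hw'.1, hw'.2.1, hw'.1.symm, hx'.1.symm, a, b]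
          have m1 : w.1 ≠ x.1 := fun h => n1 (Subtype.ext h)
          have m2 : w.1 ≠ y.1 := fun h => n2 (Subtype.ext h)
          simp [blockE, crossE, Equiv.swap_apply_of_ne_of_ne n1 n2, m1, m2, hx'.1.symm,
            hy'.1.symm]
        have := congrArg (fun G => (e G).1) this
        simp only [he, Equiv.ofBijective_symm_apply_apply] at this
        rw [he]; exact this
      have hmeanxy : avg (partKey {u, v} {x.1, y.1}) (zbar {u, v} {x.1, y.1} g) (e S).1
          = cutMean γ x y := by
        have hiff : ∀ T, T ∈ cutSets (exclCount u v G₀) x y ↔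
            (e T).1 ∈ cls (partKey {u, v} {x.1, y.1}) (e S).1 := by
          intro T
          rw [mem_cutSets, mem_cls]
          constructor
          · intro hT
            refine outsideE_eq_iff.2 fun i j hij => ?_
            cases hc : crossE {u, v} i j
            · rw [outsideE_eq_iff.1 (mem_cls.1 (e T).2) i j hc,
                outsideE_eq_iff.1 (mem_cls.1 (e S).2) i j hc]
            have hq : crossE {x.1, y.1} i j = true := by simpa [partE, hc] using hij
            have vals : ∀ T, x ∈ T.1 ∧ y ∉ T.1 →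
                adjB (e T).1 u x.1 = true ∧ adjB (e T).1 u y.1 = false ∧
                  adjB (e T).1 v x.1 = false ∧ adjB (e T).1 v y.1 = true := fun T hT => by
              have a := (mem T).1.1 hT.1
              have b : adjB (e T).1 u y.1 = false := by
                rw [Bool.eq_false_iff]; exact fun h => hT.2 ((mem T).2.2 h)
              simp [cls_excl huv (e T).2 x.2, cls_excl huv (e T).2 y.2, a, b]
            obtain ⟨a1, a2, a3, a4⟩ := vals T hT
            obtain ⟨b1, b2, b3, b4⟩ := vals S hxy
            simp only [crossE, Finset.mem_insert, Finset.mem_singleton] at hc hq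
            by_cases hi : i = u ∨ i = v
            · have hj : j = x.1 ∨ j = y.1 := by
                rcases hi with rfl | rfl <;>
                  simpa [hx'.1.symm, hy'.1.symm, hx'.2.1.symm, hy'.2.1.symm] using hq
              rcases hi with rfl | rfl <;> rcases hj with rfl | rfl <;>
                first | rw [a1, b1] | rw [a2, b2] | rw [a3, b3] | rw [a4, b4]
            · have hj : j = u ∨ j = v := by simpa [hi] using hc
              have hi' : i = x.1 ∨ i = y.1 := by
                rcases hj with rfl | rfl <;>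
                  simpa [hx'.1.symm, hy'.1.symm, hx'.2.1.symm, hy'.2.1.symm] using hq
              rcases hi' with rfl | rfl <;> rcases hj with rfl | rfl <;>
                (rw [adjB_comm (e T).1, adjB_comm (e S).1]
                 first | rw [a1, b1] | rw [a2, b2] | rw [a3, b3] | rw [a4, b4])
          · intro hT
            have a := outsideE_eq_iff.1 hT u x.1 (by simp [partE, crossE, hx'.1, hx'.2.1,
              hx'.1.symm, hy'.1.symm])
            have b := outsideE_eq_iff.1 hT u y.1 (by simp [partE, crossE, hy'.1, hy'.2.1,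
              hx'.1.symm, hy'.1.symm])
            rw [(mem T).1, (mem T).2, a, b, ← (mem S).1, ← (mem S).2]
            exact hxy
        have hsub : ∀ H ∈ cls (partKey {u, v} {x.1, y.1}) (e S).1,
            H ∈ cls (pairKey {u, v}) G₀ := fun H hH => mem_cls.2 ((outsideE_mono (fun i j h => by
              simp only [partE, Bool.and_eq_true] at h; exact h.1) (mem_cls.1 hH)).trans
            (mem_cls.1 (e S).2))
        rw [avg_apply, cutMean]
        have hcard : (cutSets (exclCount u v G₀) x y).card
            = (cls (partKey {u, v} {x.1, y.1}) (e S).1).card :=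
          Finset.card_bij (fun T _ => (e T).1) (fun T hT => (hiff T).1 hT)
            (fun T _ T' _ h => e.injective (Subtype.ext h)) fun H hH =>
            ⟨e.symm ⟨H, hsub H hH⟩, (hiff _).2 (by rw [e.apply_symm_apply]; exact hH),
              by rw [e.apply_symm_apply]⟩
        have hsumeq : ∑ T ∈ cutSets (exclCount u v G₀) x y, (γ T + γ (exch x y T)) / 2
            = ∑ H ∈ cls (partKey {u, v} {x.1, y.1}) (e S).1, zbar {u, v} {x.1, y.1} g H := by
          refine Finset.sum_bij (fun T _ => (e T).1) (fun T hT => (hiff T).1 hT)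
            (fun T _ T' _ h => e.injective (Subtype.ext h)) (fun H hH =>
            ⟨e.symm ⟨H, hsub H hH⟩, (hiff _).2 (by rw [e.apply_symm_apply]; exact hH),
              by rw [e.apply_symm_apply]⟩) fun T hT => ?_
          rw [zbar, if_pos (hdiag T (mem_cutSets.1 hT)), hflip T (mem_cutSets.1 hT), hγ]
        rw [← hsumeq, ← hcard, ← Finset.sum_div, div_div]
      have hdiff : zdiff {u, v} {x.1, y.1} f (e S).1 = γ S - γ (exch x y S) := by
        rw [← zdiff_gdev h2, ← hg, zdiff, if_pos (hdiag S hxy), hflip S hxy, hγ]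
      rw [hdiff, hmeanxy]
      ring
    have hswap : ∑ x, ∑ y, ∑ S ∈ cutSets (exclCount u v G₀) x y,
        ((γ S - γ (exch x y S)) ^ 2 / 4 - cutMean γ x y ^ 2)
        = ∑ S, ∑ x, ∑ y, if x ∈ S.1 ∧ y ∉ S.1
          then (γ S - γ (exch x y S)) ^ 2 / 4 - cutMean γ x y ^ 2 else 0 := by
      simp only [cutSets, Finset.sum_filter]
      symm
      rw [Finset.sum_comm]
      exact Finset.sum_congr rfl fun x _ => Finset.sum_comm
    rw [Finset.sum_congr rfl fun S _ => hpt S, Finset.sum_sub_distrib, ← hswap]
    exact sub_nonneg.2 hcut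
  have e1 : ∑ G, φ G = (∑ Q ∈ ((univ : Finset (Fin n)).powersetCard 2).filter (Disjoint {u, v}),
      (1 / 4 * ip (zdiff {u, v} Q f) (zdiff {u, v} Q f)
        - ip (avg (partKey {u, v} Q) (zbar {u, v} Q g))
          (avg (partKey {u, v} Q) (zbar {u, v} Q g)))) - ip g g := by
    simp only [hφ, ip, Finset.mul_sum, Finset.sum_sub_distrib]
    congr 1
    rw [Finset.sum_comm, Finset.sum_comm (γ := Omega d) (f := fun G Q => avg (partKey {u, v} Q)
      (zbar {u, v} Q g) G * avg (partKey {u, v} Q) (zbar {u, v} Q g) G)]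
  rw [e1, hg] at hmain
  have : ip f (gdev {u, v} f) = ip (gdev {u, v} f) (gdev {u, v} f) := ip_dev_self _ f
  linarith

end Vale.P335
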