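import Vale.Agent.P335.GraphDefs

/-!
# Averages over free edge slots

Averages over finer classes absorb, and averages over disjoint symmetric sets of slots commute.
-/

noncomputable section

set_option linter.unusedSectionVars false

namespace Vale.P335

open Finset

section General

variable {Ω κ κ' : Type*} [Fintype Ω] [DecidableEq κ] [DecidableEq κ']

theorem eq_of_ip {f g : Ω → ℝ} (h : ∀ u, ip f u = ip g u) : f = g := by
  classical
  funext x
  simpa [ip] using h fun y => if y = x then 1 else 0

theorem avg_avg_coarse {r : Ω → κ} {s : Ω → κ'} (h : ∀ x y, r y = r x → s y = s x) (f : Ω → ℝ) :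
    avg r (avg s f) = avg s f :=
  avg_eq_self fun x y e => avg_congr s f (h x y e)

theorem avg_avg_fine {r : Ω → κ} {s : Ω → κ'} (h : ∀ x y, r y = r x → s y = s x) (f : Ω → ℝ) :
    avg s (avg r f) = avg s f :=
  eq_of_ip fun u => by rw [ip_avg, ip_avg, avg_avg_coarse h, ← ip_avg s]

theorem avg_fine_comm {r : Ω → κ} {s : Ω → κ'} (h : ∀ x y, r y = r x → s y = s x) (f : Ω → ℝ) :
    avg r (avg s f) = avg s (avg r f) := by
  rw [avg_avg_coarse h, avg_avg_fine h]

theorem ip_eq_avg_add_dev (key : Ω → κ) (f : Ω → ℝ) :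
    ip f f = ip (avg key f) (avg key f) + ip (dev key f) (dev key f) := by
  rw [← ip_dev_self, ip_avg, avg_avg, ← ip_add_right, dev_apply, add_sub_cancel]

theorem ip_avg_self_le (key : Ω → κ) (f : Ω → ℝ) : ip (avg key f) (avg key f) ≤ ip f f := by
  rw [ip_eq_avg_add_dev key f]
  linarith [ip_self_nonneg (dev key f)]

theorem sum_nonneg_of_cls (key : Ω → κ) {φ : Ω → ℝ} (h : ∀ x, 0 ≤ ∑ y ∈ cls key x, φ y) :
    0 ≤ ∑ x, φ x := by
  have e1 : ∀ u : Ω → ℝ, ∑ x, u x = ip (fun _ => 1) u := fun u => by simp [ip]
  rw [e1, show (fun _ : Ω => (1 : ℝ)) = avg key fun _ => 1 from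
    (avg_eq_self fun _ _ _ => rfl).symm, ip_avg, ← e1]
  exact Finset.sum_nonneg fun x _ => div_nonneg (h x) (Nat.cast_nonneg _)

theorem avg_comp_invol {key : Ω → κ} {σ : Ω → Ω} (hσ : Function.Involutive σ)
    (h : ∀ x y, key y = key x → key (σ y) = key (σ x)) (f : Ω → ℝ) :
    avg key (fun z => f (σ z)) = fun x => avg key f (σ x) := by
  funext x
  have hm : ∀ y, y ∈ cls key x ↔ hσ.toPerm σ y ∈ cls key (σ x) := fun y => by
    simp only [mem_cls, Function.Involutive.coe_toPerm]
    refine ⟨h x y, fun e => ?_⟩
    have := h (σ x) (σ y) e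
    rwa [hσ x, hσ y] at this
  rw [avg_apply, avg_apply, Finset.card_equiv (hσ.toPerm σ) hm]
  congr 1
  exact Finset.sum_equiv (hσ.toPerm σ) hm fun y _ => rfl

theorem avg_indicator {key : Ω → κ} (p : Ω → Prop) [DecidablePred p]
    (hp : ∀ x y, key y = key x → (p y ↔ p x)) (f : Ω → ℝ) :
    avg key (fun x => if p x then f x else 0) = fun x => if p x then avg key f x else 0 := by
  funext x
  by_cases h : p x
  · rw [if_pos h, avg_apply, avg_apply]
    congr 1
    exact Finset.sum_congr rfl fun y hy => if_pos ((hp x y (mem_cls.1 hy)).2 h)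
  · rw [if_neg h, avg_apply, Finset.sum_eq_zero, zero_div]
    exact fun y hy => if_neg fun e => h ((hp x y (mem_cls.1 hy)).1 e)

end General

variable {n : ℕ} {d : Fin n → ℕ}

theorem outsideE_mono {F G' : Fin n → Fin n → Bool} (h : ∀ i j, F i j = true → G' i j = true)
    {G H : Omega d} (e : outsideE F G = outsideE F H) : outsideE G' G = outsideE G' H := by
  refine outsideE_eq_iff.2 fun i j hG' => outsideE_eq_iff.1 e i j ?_
  cases hF : F i j
  · rfl
  · rw [h i j hF] at hG'; exact Bool.noConfusion hG'

/-- Equal outside the free slots, two realisations have equal sums over the free slots. -/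
theorem sum_free_eq {F : Fin n → Fin n → Bool} {G H : Omega d}
    (e : outsideE F G = outsideE F H) (i : Fin n) :
    ∑ j with F i j = true, (adjB G i j).toNat = ∑ j with F i j = true, (adjB H i j).toNat := by
  have h1 := sum_adjB G i
  have h2 := sum_adjB H i
  rw [← Finset.sum_filter_add_sum_filter_not univ fun j => F i j = true] at h1 h2
  have h3 : ∑ j with ¬F i j = true, (adjB G i j).toNat = ∑ j with ¬F i j = true, (adjB H i j).toNat :=
    Finset.sum_congr rfl fun j hj => by
      rw [outsideE_eq_iff.1 e i j (Bool.eq_false_iff.2 (Finset.mem_filter.1 hj).2)]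
  omega

/-- Disjoint symmetric sets of slots recombine. -/
theorem exists_slots_recombine {F F' : Fin n → Fin n → Bool}
    (hs' : ∀ i j, F' i j = F' j i) (hd : ∀ i j, F i j = true → F' i j = false)
    {X Y Z : Omega d} (hY : outsideE F Y = outsideE F X) (hZ : outsideE F' Z = outsideE F' Y) :
    ∃ W : Omega d, outsideE F' W = outsideE F' X ∧ outsideE F Z = outsideE F W := by
  have hXY : ∀ i, ∑ j with F' i j = true, (adjB X i j).toNat
      = ∑ j with F' i j = true, (adjB Y i j).toNat := fun i => Finset.sum_congr rfl fun j hj => by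
    rw [outsideE_eq_iff.1 hY i j]
    cases h : F i j
    · rfl
    · simp [hd i j h] at hj
  refine ⟨mkOmega (fun i j => if F' i j then adjB Z i j else adjB X i j)
    (fun i j => by rw [hs' i j, adjB_comm Z, adjB_comm X])
    (fun i => by simp [adjB_self]) (fun i => ?_), outsideE_eq_iff.2 fun i j h => ?_,
    outsideE_eq_iff.2 fun i j h => ?_⟩
  · have h1 := sum_adjB X i
    rw [← Finset.sum_filter_add_sum_filter_not univ fun j => F' i j = true] at h1 ⊢
    have e2 := sum_free_eq hZ i
    rw [← hXY i] at e2
    rw [Finset.sum_congr rfl fun j (hj : j ∈ univ.filter fun j => F' i j = true) =>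
      congrArg Bool.toNat (if_pos (Finset.mem_filter.1 hj).2),
      Finset.sum_congr rfl fun j (hj : j ∈ univ.filter fun j => ¬F' i j = true) =>
      congrArg Bool.toNat (if_neg (Finset.mem_filter.1 hj).2), e2]
    exact h1
  · simp [adjB_mkOmega, h]
  · rw [adjB_mkOmega]
    cases h' : F' i j
    · simp only [Bool.false_eq_true, if_false]
      rw [outsideE_eq_iff.1 hZ i j h', outsideE_eq_iff.1 hY i j h]
    · simp

open scoped Classical in
/-- Averages over disjoint symmetric sets of slots commute. -/
theorem avg_slots_comm {F F' : Fin n → Fin n → Bool} (hs : ∀ i j, F i j = F j i)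
    (hs' : ∀ i j, F' i j = F' j i) (hd : ∀ i j, F i j = true → F' i j = false)
    (f : Omega d → ℝ) :
    avg (outsideE F) (avg (outsideE F') f) = avg (outsideE F') (avg (outsideE F) f) := by
  have hd' : ∀ i j, F' i j = true → F i j = false := fun i j h => by
    cases hF : F i j
    · rfl
    · rw [hd i j hF] at h; exact h.symm
  refine avg_comm (fun X Y h1 h2 => omega_ext fun i j => ?_)
    (fun X Y Z h1 h2 => exists_slots_recombine hs' hd h1 h2)
    (fun X Y Z h1 h2 => exists_slots_recombine hs hd' h1 h2) f
  cases h : F i j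
  · exact outsideE_eq_iff.1 h1 i j h
  · exact outsideE_eq_iff.1 h2 i j (hd i j h)

theorem crossE_comm (P : Finset (Fin n)) (i j : Fin n) : crossE P i j = crossE P j i := by
  simp [crossE, bne_comm]

end Vale.P335
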