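import Mathlib

/-!
# Quadratic forms of finite symmetric operators

Two directions between the inequality `⟨f, A f⟩ ≤ ⟨A f, A f⟩` and the absence of eigenvalues
strictly between zero and one, and the passage from a spectral gap to a mixing bound.
-/

noncomputable section

namespace Vale.P335

open Finset

variable {Ω : Type*} [Fintype Ω]

/-- The inner product of two functions on a finite set. -/
def ip (f g : Ω → ℝ) : ℝ := ∑ x, f x * g x

theorem ip_comm (f g : Ω → ℝ) : ip f g = ip g f := Finset.sum_congr rfl fun _ _ => mul_comm _ _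

theorem ip_self_nonneg (f : Ω → ℝ) : 0 ≤ ip f f :=
  Finset.sum_nonneg fun _ _ => mul_self_nonneg _

theorem ip_add_left (f g h : Ω → ℝ) : ip (f + g) h = ip f h + ip g h := by
  simp [ip, add_mul, Finset.sum_add_distrib]

theorem ip_add_right (f g h : Ω → ℝ) : ip f (g + h) = ip f g + ip f h := by
  simp [ip, mul_add, Finset.sum_add_distrib]

theorem ip_sub_left (f g h : Ω → ℝ) : ip (f - g) h = ip f h - ip g h := by
  simp [ip, sub_mul, Finset.sum_sub_distrib]

theorem ip_sub_right (f g h : Ω → ℝ) : ip f (g - h) = ip f g - ip f h := by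
  simp [ip, mul_sub, Finset.sum_sub_distrib]

theorem ip_smul_left (c : ℝ) (f g : Ω → ℝ) : ip (c • f) g = c * ip f g := by
  simp [ip, Finset.mul_sum, mul_assoc]

theorem ip_smul_right (c : ℝ) (f g : Ω → ℝ) : ip f (c • g) = c * ip f g := by
  simp [ip, Finset.mul_sum, mul_left_comm]

theorem ip_sum_left {ι : Type*} (s : Finset ι) (F : ι → Ω → ℝ) (g : Ω → ℝ) :
    ip (∑ i ∈ s, F i) g = ∑ i ∈ s, ip (F i) g := by
  simp only [ip, Finset.sum_apply, Finset.sum_mul]
  exact Finset.sum_comm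

theorem ip_sum_right {ι : Type*} (s : Finset ι) (F : ι → Ω → ℝ) (g : Ω → ℝ) :
    ip g (∑ i ∈ s, F i) = ∑ i ∈ s, ip g (F i) := by
  simp only [ip, Finset.sum_apply, Finset.mul_sum]
  exact Finset.sum_comm

/-- An orthonormal family of eigenfunctions of a symmetric operator, with the three expansions. -/
theorem exists_eigen {A : (Ω → ℝ) →ₗ[ℝ] Ω → ℝ} (hA : ∀ f g, ip (A f) g = ip f (A g)) :
    ∃ (N : ℕ) (b : Fin N → Ω → ℝ) (l : Fin N → ℝ), (∀ i, A (b i) = l i • b i) ∧
      (∀ i, b i ≠ 0) ∧ (∀ f, f = ∑ i, ip (b i) f • b i) ∧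
      (∀ f, ip f f = ∑ i, ip (b i) f ^ 2) ∧
      (∀ f, ip f (A f) = ∑ i, l i * ip (b i) f ^ 2) ∧
      (∀ f, ip (A f) (A f) = ∑ i, l i ^ 2 * ip (b i) f ^ 2) := by
  classical
  obtain ⟨T, hT⟩ : ∃ T : EuclideanSpace ℝ Ω →ₗ[ℝ] EuclideanSpace ℝ Ω,
      T = ((WithLp.linearEquiv 2 ℝ (Ω → ℝ)).symm.toLinearMap.comp A).comp
        (WithLp.linearEquiv 2 ℝ (Ω → ℝ)).toLinearMap := ⟨_, rfl⟩
  have hin : ∀ u v : EuclideanSpace ℝ Ω, inner ℝ u v = ip u.ofLp v.ofLp := fun u v => by
    simp [PiLp.inner_apply, ip, mul_comm]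
  have hTa : ∀ u, (T u).ofLp = A u.ofLp := fun u => by rw [hT]; rfl
  have hsym : T.IsSymmetric := fun u v => by rw [hin, hin, hTa, hTa, hA]
  obtain ⟨B, hB⟩ : ∃ B, B = hsym.eigenvectorBasis (rfl : Module.finrank ℝ _ = _) := ⟨_, rfl⟩
  refine ⟨_, fun i => (B i).ofLp, hsym.eigenvalues rfl, fun i => ?_, fun i h => ?_, ?_⟩
  · have := congrArg WithLp.ofLp (hsym.apply_eigenvectorBasis rfl i)
    rw [← hB] at this
    simpa [hTa] using this
  · exact B.orthonormal.ne_zero i (WithLp.ofLp_injective 2 (by simpa using h))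
  have hev : ∀ i, A (B i).ofLp = hsym.eigenvalues rfl i • (B i).ofLp := fun i => by
    have := congrArg WithLp.ofLp (hsym.apply_eigenvectorBasis rfl i)
    rw [← hB] at this
    simpa [hTa] using this
  have hexp : ∀ f : Ω → ℝ, f = ∑ i, ip (B i).ofLp f • (B i).ofLp := fun f => by
    have := congrArg WithLp.ofLp (B.sum_repr' (WithLp.toLp 2 f))
    simpa [hin] using this.symm
  have hpar : ∀ f g : Ω → ℝ, ip f g = ∑ i, ip (B i).ofLp f * ip (B i).ofLp g := fun f g => by
    conv_lhs => rw [hexp f]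
    rw [ip_sum_left]
    exact Finset.sum_congr rfl fun i _ => ip_smul_left _ _ _
  have hco : ∀ i f, ip (B i).ofLp (A f) = hsym.eigenvalues rfl i * ip (B i).ofLp f := fun i f => by
    rw [← hA, hev, ip_smul_left]
  refine ⟨hexp, fun f => ?_, fun f => ?_, fun f => ?_⟩
  · rw [hpar]; exact Finset.sum_congr rfl fun i _ => by ring
  · rw [hpar]; exact Finset.sum_congr rfl fun i _ => by rw [hco]; ring
  · rw [hpar]; exact Finset.sum_congr rfl fun i _ => by rw [hco]; ring

/-- If zero is the only eigenvalue below one then the operator is at most its square. -/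
theorem le_sq_of_eigen {A : (Ω → ℝ) →ₗ[ℝ] Ω → ℝ} (hA : ∀ f g, ip (A f) g = ip f (A g))
    (h : ∀ (c : ℝ) (f : Ω → ℝ), A f = c • f → c < 1 → A f = 0) (f : Ω → ℝ) :
    ip f (A f) ≤ ip (A f) (A f) := by
  obtain ⟨N, b, l, hev, hne, -, -, h1, h2⟩ := exists_eigen hA
  rw [h1, h2]
  refine Finset.sum_le_sum fun i _ => mul_le_mul_of_nonneg_right ?_ (sq_nonneg _)
  rcases le_or_gt 1 (l i) with hl | hl
  · nlinarith
  · have := h _ _ (hev i) hl
    rw [hev i, smul_eq_zero] at this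
    rw [this.resolve_right (hne i)]
    norm_num

/-- A positive operator at most its square has gap one off its kernel. -/
theorem gap_of_le_sq_orth {A : (Ω → ℝ) →ₗ[ℝ] Ω → ℝ} (hA : ∀ f g, ip (A f) g = ip f (A g))
    (hpos : ∀ f, 0 ≤ ip f (A f)) (hsq : ∀ f, ip f (A f) ≤ ip (A f) (A f)) {f : Ω → ℝ}
    (hker : ∀ g, A g = 0 → ip g f = 0) : ip f f ≤ ip f (A f) := by
  obtain ⟨N, b, l, hev, hne, -, hn, h1, -⟩ := exists_eigen hA
  rw [hn, h1]
  refine Finset.sum_le_sum fun i _ => ?_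
  have hb : 0 < ip (b i) (b i) := by
    refine lt_of_le_of_ne (ip_self_nonneg _) fun e => hne i ?_
    have := (Finset.sum_eq_zero_iff_of_nonneg fun x _ => mul_self_nonneg (b i x)).1 e.symm
    exact funext fun x => mul_self_eq_zero.1 (this x (Finset.mem_univ x))
  have e1 : ip (b i) (A (b i)) = l i * ip (b i) (b i) := by rw [hev, ip_smul_right]
  have e2 : ip (A (b i)) (A (b i)) = l i ^ 2 * ip (b i) (b i) := by
    rw [hev, ip_smul_left, ip_smul_right]; ring
  have hl : 0 ≤ l i := by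
    refine nonneg_of_mul_nonneg_left ?_ hb
    rw [← e1]; exact hpos _
  rcases hl.lt_or_eq with hl | hl
  · have h := hsq (b i)
    rw [e1, e2, mul_le_mul_iff_left₀ hb] at h
    exact le_mul_of_one_le_left (sq_nonneg _) (by nlinarith)
  · have hz : A (b i) = 0 := by rw [hev, ← hl, zero_smul]
    simp [hker _ hz]

/-- A positive operator at most its square has gap one off the constants. -/
theorem gap_of_le_sq {A : (Ω → ℝ) →ₗ[ℝ] Ω → ℝ} (hA : ∀ f g, ip (A f) g = ip f (A g))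
    (hpos : ∀ f, 0 ≤ ip f (A f)) (hsq : ∀ f, ip f (A f) ≤ ip (A f) (A f))
    (hker : ∀ f, A f = 0 → ∀ x y, f x = f y) {f : Ω → ℝ} (hf : ∑ x, f x = 0) :
    ip f f ≤ ip f (A f) := by
  refine gap_of_le_sq_orth hA hpos hsq fun g hg => ?_
  rcases isEmpty_or_nonempty Ω with hE | ⟨⟨x₀⟩⟩
  · simp [ip]
  · have : ip g f = g x₀ * ∑ x, f x := by
      rw [Finset.mul_sum]
      exact Finset.sum_congr rfl fun x _ => by rw [hker _ hg x x₀]
    rw [this, hf, mul_zero]

end Vale.P335
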