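import Vale.Agent.P335.Gap
import Vale.Agent.P335.Chain

/-!
# Split degree vectors

When one realisation has a clique `A` whose complement is independent, every realisation has, and
the realisations are the tables between `A` and its complement with prescribed margins.
-/

noncomputable section

namespace Vale.P335

open Finset

variable {n : ℕ}

/-- Some realisation of `d` consists of a clique on `A`, an independent set on the complement of
`A`, and arbitrary edges between the two. -/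
def SplitAt (d : Fin n → ℕ) (A : Finset (Fin n)) : Prop :=
  ∃ G : SimpleGraph (Fin n), (∀ v, (G.neighborSet v).ncard = d v) ∧
    (∀ u ∈ A, ∀ v ∈ A, u ≠ v → G.Adj u v) ∧ ∀ u, u ∉ A → ∀ v, v ∉ A → ¬G.Adj u v

open scoped Classical in
theorem sum_adj {G : SimpleGraph (Fin n)} {d : Fin n → ℕ} (hG : ∀ v, (G.neighborSet v).ncard = d v)
    (v : Fin n) : ∑ u, (decide (G.Adj v u)).toNat = d v := by
  rw [← hG v, show G.neighborSet v = {u | G.Adj v u} from rfl, Set.ncard_eq_toFinset_card',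
    Finset.card_eq_sum_ones]
  simp only [Set.toFinset_ofPred, Finset.sum_filter]
  exact Finset.sum_congr rfl fun u _ => by by_cases h : G.Adj v u <;> simp [h]

theorem split_of_splitAt {d : Fin n → ℕ} {A : Finset (Fin n)} (h : SplitAt d A)
    {G : SimpleGraph (Fin n)} (hG : ∀ v, (G.neighborSet v).ncard = d v) :
    (∀ u ∈ A, ∀ v ∈ A, u ≠ v → G.Adj u v) ∧ ∀ u, u ∉ A → ∀ v, v ∉ A → ¬G.Adj u v := by
  classical
  obtain ⟨G₀, hG₀, hA, hB⟩ := h
  have bal : ∀ G : SimpleGraph (Fin n), (∀ v, (G.neighborSet v).ncard = d v) →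
      ∑ v ∈ A, d v + ∑ v ∈ Aᶜ, ∑ u ∈ Aᶜ, (decide (G.Adj v u)).toNat
        = ∑ v ∈ Aᶜ, d v + ∑ v ∈ A, ∑ u ∈ A, (decide (G.Adj v u)).toNat := by
    intro G hG
    have e : ∀ S : Finset (Fin n), ∑ v ∈ S, d v = ∑ v ∈ S, ∑ u ∈ A, (decide (G.Adj v u)).toNat
        + ∑ v ∈ S, ∑ u ∈ Aᶜ, (decide (G.Adj v u)).toNat := fun S => by
      rw [← Finset.sum_add_distrib]
      exact Finset.sum_congr rfl fun v _ => by rw [Finset.sum_add_sum_compl, sum_adj hG v]
    have sym : ∑ v ∈ Aᶜ, ∑ u ∈ A, (decide (G.Adj v u)).toNat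
        = ∑ v ∈ A, ∑ u ∈ Aᶜ, (decide (G.Adj v u)).toNat := by
      rw [Finset.sum_comm]
      simp only [G.adj_comm]
    rw [e A, e Aᶜ, sym]; ring
  have h1 := bal G hG
  have h0 := bal G₀ hG₀
  have le : ∀ v ∈ A, ∀ u ∈ A, (decide (G.Adj v u)).toNat ≤ (decide (G₀.Adj v u)).toNat := by
    intro v hv u hu
    by_cases h : v = u
    · subst h; simp
    · simp [hA v hv u hu h, Bool.toNat_le]
  have z : ∀ v ∈ Aᶜ, ∀ u ∈ Aᶜ, (decide (G₀.Adj v u)).toNat = 0 := fun v hv u hu => by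
    simp [hB v (Finset.mem_compl.1 hv) u (Finset.mem_compl.1 hu)]
  have z0 : ∑ v ∈ Aᶜ, ∑ u ∈ Aᶜ, (decide (G₀.Adj v u)).toNat = 0 :=
    Finset.sum_eq_zero fun v hv => Finset.sum_eq_zero (z v hv)
  have l0 := Finset.sum_le_sum fun v hv => Finset.sum_le_sum (le v hv)
  have eB : ∑ v ∈ Aᶜ, ∑ u ∈ Aᶜ, (decide (G.Adj v u)).toNat = 0 := by omega
  have eA : ∑ v ∈ A, ∑ u ∈ A, (decide (G.Adj v u)).toNat
      = ∑ v ∈ A, ∑ u ∈ A, (decide (G₀.Adj v u)).toNat := by omega
  refine ⟨fun u hu v hv hne => ?_, fun u hu v hv hadj => ?_⟩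
  · have e := (Finset.sum_eq_sum_iff_of_le (le u hu)).1
      ((Finset.sum_eq_sum_iff_of_le fun v hv => Finset.sum_le_sum (le v hv)).1 eA u hu) v hv
    by_contra hno
    simp [hno, hA u hu v hv hne] at e
  · have := Finset.sum_eq_zero_iff.1 (Finset.sum_eq_zero_iff.1 eB u (Finset.mem_compl.2 hu)) v
      (Finset.mem_compl.2 hv)
    simp [hadj] at this

variable (A : Finset (Fin n))

/-- The row sums between the clique and its complement. -/
def rowS (d : Fin n → ℕ) (i : A) : ℕ := d i.1 - (A.card - 1)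

/-- The column sums between the clique and its complement. -/
def colS (d : Fin n → ℕ) (c : (Aᶜ : Finset (Fin n))) : ℕ := d c.1

open scoped Classical in
theorem rowS_eq {d : Fin n → ℕ} (h : SplitAt d A) {G : SimpleGraph (Fin n)}
    (hG : ∀ v, (G.neighborSet v).ncard = d v) (i : A) :
    ∑ c : (Aᶜ : Finset (Fin n)), (decide (G.Adj i c)).toNat = rowS A d i := by
  obtain ⟨hA, -⟩ := split_of_splitAt h hG
  have hcount : ∑ u ∈ A, (decide (G.Adj i u)).toNat = A.card - 1 := by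
    rw [← Finset.add_sum_erase _ _ i.2]
    simp only [G.irrefl, decide_false, Bool.toNat_false, Nat.zero_add]
    rw [← Finset.card_erase_of_mem i.2, Finset.card_eq_sum_ones]
    exact Finset.sum_congr rfl fun u hu => by
      simp [hA i.1 i.2 u (Finset.mem_of_mem_erase hu) (Finset.ne_of_mem_erase hu).symm]
  have := sum_adj hG i.1
  rw [← Finset.sum_add_sum_compl A, hcount, ← Finset.sum_coe_sort Aᶜ] at this
  unfold rowS
  omega

open scoped Classical in
/-- A realisation as a table. -/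
def toTable {d : Fin n → ℕ} (h : SplitAt d A) (G : Omega d) : Table (rowS A d) (colS A d) :=
  ⟨fun c i => decide (G.1.Adj i c), fun i => rowS_eq A h G.2 i, fun c => by
    obtain ⟨-, hB⟩ := split_of_splitAt h G.2
    rw [colS, ← sum_adj G.2 c.1, ← Finset.sum_add_sum_compl A, ← Finset.sum_coe_sort A,
      Finset.sum_eq_zero (s := Aᶜ) (fun u hu => by
        simp [hB c.1 (Finset.mem_compl.1 c.2) u (Finset.mem_compl.1 hu)]), Nat.add_zero]
    simp only [G.1.adj_comm]⟩

/-- The graph of a table. -/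
def tableGraph {d : Fin n → ℕ} (X : Table (rowS A d) (colS A d)) : SimpleGraph (Fin n) where
  Adj u v := u ≠ v ∧ ((u ∈ A ∧ v ∈ A) ∨
    (∃ (hu : u ∈ A) (hv : v ∈ Aᶜ), X.1 ⟨v, hv⟩ ⟨u, hu⟩ = true) ∨
    ∃ (hv : v ∈ A) (hu : u ∈ Aᶜ), X.1 ⟨u, hu⟩ ⟨v, hv⟩ = true)
  symm := ⟨fun _ _ h => ⟨h.1.symm, h.2.imp (fun h => ⟨h.2, h.1⟩) Or.symm⟩⟩
  loopless := ⟨fun _ h => h.1 rfl⟩

theorem tableGraph_adj_cross {d : Fin n → ℕ} (X : Table (rowS A d) (colS A d)) (i : A)
    (c : (Aᶜ : Finset (Fin n))) : (tableGraph A X).Adj i c ↔ X.1 c i = true := by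
  have hc := Finset.mem_compl.1 c.2
  constructor
  · rintro ⟨-, ⟨-, h⟩ | ⟨_, _, h⟩ | ⟨hv, _, -⟩⟩
    exacts [absurd h hc, h, absurd hv hc]
  · exact fun h => ⟨fun e => hc (e ▸ i.2), Or.inr (Or.inl ⟨i.2, c.2, h⟩)⟩

open scoped Classical in
theorem tableGraph_degree {d : Fin n → ℕ} (h : SplitAt d A) (X : Table (rowS A d) (colS A d))
    (v : Fin n) : ((tableGraph A X).neighborSet v).ncard = d v := by
  rw [show (tableGraph A X).neighborSet v = {u | (tableGraph A X).Adj v u} from rfl,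
    Set.ncard_eq_toFinset_card', Finset.card_eq_sum_ones]
  simp only [Set.toFinset_ofPred, Finset.sum_filter]
  rw [← Finset.sum_add_sum_compl A]
  by_cases hv : v ∈ A
  · obtain ⟨G₀, hG₀, hA, -⟩ := id h
    have e1 : ∀ u ∈ A, (if (tableGraph A X).Adj v u then 1 else 0)
        = (decide (G₀.Adj v u)).toNat := by
      intro u hu
      by_cases he : v = u
      · subst he; simp
      · rw [if_pos ⟨he, Or.inl ⟨hv, hu⟩⟩]; simp [hA v hv u hu he]
    have e2 : ∑ u ∈ Aᶜ, (if (tableGraph A X).Adj v u then 1 else 0) = rowS A d ⟨v, hv⟩ := by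
      rw [← X.2.1 ⟨v, hv⟩, ← Finset.sum_coe_sort Aᶜ]
      refine Finset.sum_congr rfl fun c _ => ?_
      have := tableGraph_adj_cross A X ⟨v, hv⟩ c
      cases hx : X.1 c ⟨v, hv⟩ <;> simp [hx] at this ⊢ <;> simp [this]
    rw [Finset.sum_congr rfl e1, e2, ← rowS_eq A h hG₀ ⟨v, hv⟩,
      Finset.sum_coe_sort Aᶜ fun c => (decide (G₀.Adj v c)).toNat, Finset.sum_add_sum_compl,
      sum_adj hG₀ v]
  · have hvc : v ∈ Aᶜ := Finset.mem_compl.2 hv
    rw [Finset.sum_eq_zero (s := Aᶜ) (fun u hu => if_neg ?_), Nat.add_zero,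
      ← Finset.sum_coe_sort A]
    · refine (Finset.sum_congr rfl fun i _ => ?_).trans (X.2.2 ⟨v, hvc⟩)
      have := tableGraph_adj_cross A X i ⟨v, hvc⟩
      rw [SimpleGraph.adj_comm] at this
      cases hx : X.1 ⟨v, hvc⟩ i <;> simp [hx] at this ⊢ <;> simp [this]
    · rintro ⟨-, ⟨h1, -⟩ | ⟨h1, -, -⟩ | ⟨h1, -, -⟩⟩
      exacts [hv h1, hv h1, Finset.mem_compl.1 hu h1]

open scoped Classical in
/-- The realisations of a split degree vector are the tables. -/
def splitEquiv {d : Fin n → ℕ} (h : SplitAt d A) : Omega d ≃ Table (rowS A d) (colS A d) where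
  toFun := toTable A h
  invFun X := ⟨tableGraph A X, tableGraph_degree A h X⟩
  right_inv X := Subtype.ext (funext fun c => funext fun i => by
    have := tableGraph_adj_cross A X i c
    cases hx : X.1 c i <;> simp [hx] at this <;> simp [toTable, this])
  left_inv G := by
    obtain ⟨hA, hB⟩ := split_of_splitAt h G.2
    refine Subtype.ext ?_
    ext u v
    constructor
    · rintro ⟨hne, ⟨hu, hv⟩ | ⟨hu, hv, hx⟩ | ⟨hv, hu, hx⟩⟩
      · exact hA u hu v hv hne
      · exact of_decide_eq_true hx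
      · exact (of_decide_eq_true hx).symm
    · intro hadj
      refine ⟨hadj.ne, ?_⟩
      by_cases hu : u ∈ A <;> by_cases hv : v ∈ A
      · exact Or.inl ⟨hu, hv⟩
      · exact Or.inr (Or.inl ⟨hu, Finset.mem_compl.2 hv, decide_eq_true hadj⟩)
      · exact Or.inr (Or.inr ⟨hv, Finset.mem_compl.2 hu, decide_eq_true hadj.symm⟩)
      · exact absurd hadj (hB u hu v hv)

/-- A table exchange which moves is a switch of the graphs. -/
theorem switches_of_sw {d : Fin n → ℕ} (X : Table (rowS A d) (colS A d)) {a b : A}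
    {c e : (Aᶜ : Finset (Fin n))} (h1 : X.1 c a = true) (h2 : X.1 e b = true)
    (h3 : X.1 e a = false) (h4 : X.1 c b = false) (σ : Fin 4 ↪ Fin n) (s0 : σ 0 = a.1)
    (s1 : σ 1 = c.1) (s2 : σ 2 = e.1) (s3 : σ 3 = b.1) :
    Switches σ (tableGraph A X) (tableGraph A (sw {a, b} c e X)) := by
  have hab : a ≠ b := fun h => by rw [← h, h3] at h2; exact Bool.false_ne_true h2
  have hce : c ≠ e := fun h => by rw [← h, h1] at h3; exact Bool.false_ne_true h3.symm
  have hcnt : cnt {a, b} X.1 c = cnt {a, b} X.1 e := by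
    simp [cnt, Finset.sum_pair hab, h1, h2, h3, h4]
  simp only [Switches, s0, s1, s2, s3]
  refine ⟨(tableGraph_adj_cross A X a c).2 h1, ((tableGraph_adj_cross A X b e).2 h2).symm,
    fun h => ?_, fun h => ?_, ?_⟩
  · rw [tableGraph_adj_cross A X a e, h3] at h; exact Bool.false_ne_true h
  · have h' := h.symm
    rw [tableGraph_adj_cross A X b c, h4] at h'; exact Bool.false_ne_true h'
  have cross : ∀ (i : A) (p : (Aᶜ : Finset (Fin n))), i.1 ≠ p.1 :=
    fun i p h => Finset.mem_compl.1 p.2 (h ▸ i.2)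
  have main : ∀ (i : A) (p : (Aᶜ : Finset (Fin n))),
      (sw {a, b} c e X).1 p i = true ↔
        (X.1 p i = true ∧ ¬(i = a ∧ p = c ∨ i = b ∧ p = e)) ∨ (i = a ∧ p = e ∨ i = b ∧ p = c) := by
    intro i p
    rw [sw_apply]
    by_cases hia : i = a
    · subst hia
      rcases eq_or_ne p c with rfl | n1
      · simp [hcnt, h3, hab, hce]
      rcases eq_or_ne p e with rfl | n2
      · simp [hcnt, h1]
      simp [hcnt, Equiv.swap_apply_of_ne_of_ne n1 n2, n1, n2]
    by_cases hib : i = b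
    · subst hib
      rcases eq_or_ne p c with rfl | n1
      · simp [hcnt, h2]
      rcases eq_or_ne p e with rfl | n2
      · simp [hcnt, h4, hce.symm, hab.symm]
      simp [hcnt, Equiv.swap_apply_of_ne_of_ne n1 n2, n1, n2]
    simp [hia, hib]
  have crossPair : ∀ (i a' : A) (p c' : (Aᶜ : Finset (Fin n))),
      s(i.1, p.1) = s(a'.1, c'.1) ↔ i = a' ∧ p = c' := fun i a' p c' => by
    rw [Sym2.eq_iff]
    constructor
    · rintro (⟨x, y⟩ | ⟨x, -⟩)
      exacts [⟨Subtype.ext x, Subtype.ext y⟩, absurd x (cross i c')]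
    · rintro ⟨rfl, rfl⟩; exact Or.inl ⟨rfl, rfl⟩
  have swp : ∀ u v : Fin n, s(u, v) = s(v, u) := fun u v => Sym2.eq_swap
  ext z
  induction z using Sym2.ind with
  | _ u v =>
    simp only [Set.mem_union, Set.mem_sdiff, pairSet, Set.mem_insert_iff, Set.mem_singleton_iff,
      SimpleGraph.mem_edgeSet, swp e.1 b.1, swp c.1 b.1]
    by_cases hu : u ∈ A <;> by_cases hv : v ∈ A
    · have no : ∀ (i : A) (p : (Aᶜ : Finset (Fin n))), s(u, v) ≠ s(i.1, p.1) := fun i p h => by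
        rcases Sym2.eq_iff.1 h with ⟨-, y⟩ | ⟨x, -⟩
        exacts [cross ⟨v, hv⟩ p y, cross ⟨u, hu⟩ p x]
      simp [no a c, no b e, no a e, no b c, tableGraph, hu, hv]
    · obtain ⟨i, hi⟩ : ∃ i : A, i.1 = u := ⟨⟨u, hu⟩, rfl⟩
      obtain ⟨p, hp⟩ : ∃ p : (Aᶜ : Finset (Fin n)), p.1 = v := ⟨⟨v, Finset.mem_compl.2 hv⟩, rfl⟩
      subst hi hp
      rw [tableGraph_adj_cross, tableGraph_adj_cross, main, crossPair, crossPair, crossPair,
        crossPair]
    · obtain ⟨i, hi⟩ : ∃ i : A, i.1 = v := ⟨⟨v, hv⟩, rfl⟩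
      obtain ⟨p, hp⟩ : ∃ p : (Aᶜ : Finset (Fin n)), p.1 = u := ⟨⟨u, Finset.mem_compl.2 hu⟩, rfl⟩
      subst hi hp
      rw [swp p.1 i.1, SimpleGraph.adj_comm, tableGraph_adj_cross,
        SimpleGraph.adj_comm (tableGraph A X), tableGraph_adj_cross, main, crossPair, crossPair,
        crossPair, crossPair]
    · have no : ∀ (i : A) (p : (Aᶜ : Finset (Fin n))), s(u, v) ≠ s(i.1, p.1) := fun i p h => by
        rcases Sym2.eq_iff.1 h with ⟨x, -⟩ | ⟨-, y⟩
        exacts [hu (x ▸ i.2), hv (y ▸ i.2)]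
      simp [no a c, no b e, no a e, no b c, tableGraph, hu, hv]

/-- The exchange `(a, b, c, e)` moves the table `X`, with `a` holding the first column. -/
def Moves {d : Fin n → ℕ} (z : A × A × (Aᶜ : Finset (Fin n)) × (Aᶜ : Finset (Fin n)) ×
    Table (rowS A d) (colS A d)) : Prop :=
  z.2.2.2.2.1 z.2.2.1 z.1 = true ∧ z.2.2.2.2.1 z.2.2.2.1 z.2.1 = true ∧
    z.2.2.2.2.1 z.2.2.2.1 z.1 = false ∧ z.2.2.2.2.1 z.2.2.1 z.2.1 = false

/-- The gap of the switch chain of a split degree vector. -/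
theorem split_dirichlet (hn : 4 ≤ n) {d : Fin n → ℕ} (h : SplitAt d A) {f : Omega d → ℝ}
    (hf : ∑ G, f G = 0) :
    4 * ip f f ≤ (Fintype.card (Fin 4 ↪ Fin n) : ℝ) / 2 * (2 * dirichlet d f) := by
  classical
  have h0 : 0 < Fintype.card (Fin 4 ↪ Fin n) :=
    Fintype.card_pos_iff.2 ⟨Fin.castLEEmb hn⟩
  obtain ⟨e0, he0⟩ : ∃ e0, e0 = (splitEquiv A h).symm := ⟨_, rfl⟩
  obtain ⟨F, hF⟩ : ∃ F : Table (rowS A d) (colS A d) → ℝ, F = fun X => f (e0 X) := ⟨_, rfl⟩
  have hgap := switch_gap (f := F) (by rw [hF, Equiv.sum_comp e0 f, hf])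
  have hip : ip F F = ip f f := by rw [hF]; exact Equiv.sum_comp e0 fun G => f G * f G
  rw [hip] at hgap
  refine hgap.trans ?_
  obtain ⟨w, hw⟩ : ∃ w : (Fin 4 ↪ Fin n) × Omega d × Omega d → ℝ,
      w = fun z => if Switches z.1 z.2.1.1 z.2.2.1 then (f z.2.1 - f z.2.2) ^ 2 else 0 := ⟨_, rfl⟩
  have hT : (Fintype.card (Fin 4 ↪ Fin n) : ℝ) / 2 * (2 * dirichlet d f)
      = (1 / 2) * ∑ z, w z := by
    have hw' : ∀ G H : Omega d, (weight G.1 H.1 : ℝ) * (f G - f H) ^ 2 = ∑ σ, w (σ, G, H) :=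
      fun G H => by
        simp only [hw, weight, ← Finset.sum_filter, Finset.sum_const, nsmul_eq_mul]
    have hT0 : (Fintype.card (Fin 4 ↪ Fin n) : ℝ) ≠ 0 := by exact_mod_cast h0.ne'
    rw [Fintype.sum_prod_type, Finset.sum_comm, Fintype.sum_prod_type]
    simp only [dirichlet, moveProb, ← hw']
    simp only [Finset.mul_sum]
    refine Finset.sum_congr rfl fun G _ => Finset.sum_congr rfl fun H _ => ?_
    field_simp
  rw [hT]
  obtain ⟨g, hg⟩ : ∃ g : A × A × (Aᶜ : Finset (Fin n)) × (Aᶜ : Finset (Fin n)) ×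
      Table (rowS A d) (colS A d) → ℝ,
      g = fun z => (F z.2.2.2.2 - F (sw {z.1, z.2.1} z.2.2.1 z.2.2.2.1 z.2.2.2.2)) ^ 2 := ⟨_, rfl⟩
  -- every moving exchange has an orientation
  have step1 : ∑ p ∈ (univ : Finset A).powersetCard 2, 2 * ip F (lap p F)
      ≤ ∑ z ∈ univ.filter (Moves A (d := d)), g z := by
    simp only [ip_lap_self, ← Fintype.sum_prod_type' (f := fun c e =>
      ∑ X, (F X - F (sw _ c e X)) ^ 2)]
    simp only [← Fintype.sum_prod_type' (f := fun (ce : (Aᶜ : Finset (Fin n)) ×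
      (Aᶜ : Finset (Fin n))) X => (F X - F (sw _ ce.1 ce.2 X)) ^ 2)]
    rw [← Finset.sum_product' (f := fun p (y : ((Aᶜ : Finset (Fin n)) × (Aᶜ : Finset (Fin n))) ×
      Table (rowS A d) (colS A d)) => (F y.2 - F (sw p y.1.1 y.1.2 y.2)) ^ 2)]
    obtain ⟨π, hπ⟩ : ∃ π : A × A × (Aᶜ : Finset (Fin n)) × (Aᶜ : Finset (Fin n)) ×
        Table (rowS A d) (colS A d) → Finset A × ((Aᶜ : Finset (Fin n)) × (Aᶜ : Finset (Fin n))) ×
        Table (rowS A d) (colS A d),
        π = fun z => ({z.1, z.2.1}, (z.2.2.1, z.2.2.2.1), z.2.2.2.2) := ⟨_, rfl⟩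
    have hsub : ∀ y ∈ (univ : Finset A).powersetCard 2 ×ˢ (univ : Finset (((Aᶜ : Finset (Fin n)) ×
        (Aᶜ : Finset (Fin n))) × Table (rowS A d) (colS A d))),
        (F y.2.2 - F (sw y.1 y.2.1.1 y.2.1.2 y.2.2)) ^ 2 ≠ 0 →
        y ∈ (univ.filter (Moves A (d := d))).image π := by
      rintro ⟨p, ⟨c, e⟩, X⟩ hy hne
      obtain ⟨a, b, hab, rfl⟩ :=
        Finset.card_eq_two.1 (Finset.mem_powersetCard.1 (Finset.mem_product.1 hy).1).2
      simp only at hne
      have hcnt : cnt {a, b} X.1 c = cnt {a, b} X.1 e := by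
        by_contra h; exact hne (by rw [sw_of_ne h]; ring)
      have hag : ¬(X.1 c a = X.1 e a ∧ X.1 c b = X.1 e b) := fun h =>
        hne (by rw [sw_of_agree (by simp [h.1, h.2])]; ring)
      rw [cnt_pair hab, cnt_pair hab] at hcnt
      simp only [Finset.mem_image, Finset.mem_filter, Finset.mem_univ, true_and, hπ]
      cases p1 : X.1 c a <;> cases p2 : X.1 c b <;> cases p3 : X.1 e a <;> cases p4 : X.1 e b <;>
        simp [p1, p2, p3, p4] at hag hcnt
      · exact ⟨(b, a, c, e, X), by simp [Moves, p1, p2, p3, p4], by simp [Finset.pair_comm b a]⟩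
      · exact ⟨(a, b, c, e, X), by simp [Moves, p1, p2, p3, p4], rfl⟩
    rw [← Finset.sum_filter_ne_zero]
    refine (Finset.sum_le_sum_of_subset_of_nonneg (t := (univ.filter (Moves A (d := d))).image π)
      (fun y hy => hsub y (Finset.mem_filter.1 hy).1 (Finset.mem_filter.1 hy).2)
      fun y _ _ => sq_nonneg _).trans ?_
    refine (Finset.sum_image_le_of_nonneg fun _ _ => sq_nonneg _).trans_eq ?_
    simp [hπ, hg]
  -- a moving exchange is a switch, and different exchanges give different switches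
  have cross : ∀ (i : A) (p : (Aᶜ : Finset (Fin n))), i.1 ≠ p.1 :=
    fun i p h => Finset.mem_compl.1 p.2 (h ▸ i.2)
  have hinj : ∀ z, Moves A (d := d) z →
      Function.Injective ![z.1.1, z.2.2.1.1, z.2.2.2.1.1, z.2.1.1] := by
    rintro ⟨a, b, c, e, X⟩ ⟨h1, h2, h3, h4⟩
    simp only at h1 h2 h3 h4
    have hab : a.1 ≠ b.1 := fun h => by
      rw [← Subtype.ext h, h3] at h2; exact Bool.false_ne_true h2
    have hce : c.1 ≠ e.1 := fun h => by
      rw [← Subtype.ext h, h1] at h3; exact Bool.false_ne_true h3.symm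
    intro x y hxy
    fin_cases x <;> fin_cases y <;>
      simp [hab, hab.symm, hce, hce.symm, cross a c, cross a e, cross b c, cross b e,
        (cross a c).symm, (cross a e).symm, (cross b c).symm, (cross b e).symm] at hxy ⊢
  have step2 : ∑ z ∈ univ.filter (Moves A (d := d)), g z ≤ ∑ z, w z := by
    refine le_of_eq_of_le ?_ (Finset.sum_le_univ_sum_of_nonneg
      (s := ((univ.filter (Moves A (d := d))).attach).image fun z =>
        ((⟨_, hinj z.1 (Finset.mem_filter.1 z.2).2⟩ : Fin 4 ↪ Fin n), e0 z.1.2.2.2.2,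
          e0 (sw {z.1.1, z.1.2.1} z.1.2.2.1 z.1.2.2.2.1 z.1.2.2.2.2)))
      fun z => by rw [hw]; exact ite_nonneg (sq_nonneg _) le_rfl)
    rw [Finset.sum_image, ← Finset.sum_attach (univ.filter (Moves A (d := d)))]
    · refine Finset.sum_congr rfl fun z _ => ?_
      obtain ⟨⟨a, b, c, e, X⟩, hz⟩ := z
      obtain ⟨h1, h2, h3, h4⟩ := (Finset.mem_filter.1 hz).2
      simp only [hw, hg, hF]
      rw [if_pos]
      rw [he0]
      exact switches_of_sw A X h1 h2 h3 h4 _ rfl rfl rfl rfl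
    · rintro ⟨⟨a, b, c, e, X⟩, hz⟩ _ ⟨⟨a', b', c', e', X'⟩, hz'⟩ _ heq
      simp only [Prod.mk.injEq, EmbeddingLike.apply_eq_iff_eq] at heq
      obtain ⟨hσ, hX, -⟩ := heq
      have hv := fun i => DFunLike.congr_fun hσ i
      have k0 := hv 0; have k1 := hv 1; have k2 := hv 2; have k3 := hv 3
      simp at k0 k1 k2 k3
      simp only [Subtype.mk.injEq, Prod.mk.injEq]
      exact ⟨k0, k3, k1, k2, hX⟩
  rw [← Finset.mul_sum] at step1
  linarith

open scoped Classical in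
/-- The switch chain of a split degree vector mixes within `n ^ 6` steps. -/
theorem split_tv (hn : 4 ≤ n) {d : Fin n → ℕ} {A : Finset (Fin n)} (h : SplitAt d A)
    {t : ℕ} (ht : n ^ 6 ≤ t) (G : Omega d) :
    (1 / 2 : ℝ) * ∑ H, |(switchChain d ^ t) G H - 1 / (Fintype.card (Omega d) : ℝ)| ≤ 1 / 4 := by
  classical
  obtain ⟨T, hT⟩ : ∃ T : ℕ, T = Fintype.card (Fin 4 ↪ Fin n) := ⟨_, rfl⟩
  have hT24 : 24 ≤ T := by
    rw [hT, Fintype.card_embedding_eq, Fintype.card_fin, Fintype.card_fin]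
    calc 24 = Nat.descFactorial 4 4 := by rfl
      _ ≤ Nat.descFactorial n 4 := Nat.descFactorial_le 4 hn
  have hTle : T ≤ n ^ 4 := by
    rw [hT, Fintype.card_embedding_eq, Fintype.card_fin, Fintype.card_fin]
    exact Nat.descFactorial_le_pow n 4
  have hT0 : (0 : ℝ) < T := by exact_mod_cast (by omega : 0 < T)
  refine tv_of_dirichlet d (g := 2 / T) ?_ (fun f hf => ?_) ?_ G
  · rw [div_le_one hT0]; exact_mod_cast (by omega : 2 ≤ T)
  · have := split_dirichlet A hn h hf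
    rw [← hT] at this
    rw [div_mul_eq_mul_div, div_le_iff₀ hT0]
    linarith
  · have h1 : (n * n + 2) * T ≤ 2 * t := by
      calc (n * n + 2) * T ≤ (2 * n ^ 2) * n ^ 4 := Nat.mul_le_mul (by nlinarith) hTle
        _ = 2 * n ^ 6 := by ring
        _ ≤ 2 * t := Nat.mul_le_mul_left 2 ht
    rw [div_mul_eq_mul_div, le_div_iff₀ hT0]
    exact_mod_cast h1

end Vale.P335
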