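import Vale.Agent.P335.Proj

/-!
# Tables with prescribed margins and their row classes

A table assigns to every column the set of rows where it has a one. For a set `S` of rows, two
tables are `S`-equivalent when they agree outside the rows in `S`.
-/

noncomputable section

set_option linter.unusedSectionVars false

namespace Vale.P335

open Finset

variable {R C : Type*} [Fintype R] [Fintype C] [DecidableEq R] [DecidableEq C]

/-- The zero-one tables with row sums `r` and column sums `s`. -/
abbrev Table (r : R → ℕ) (s : C → ℕ) :=
  {X : C → R → Bool // (∀ i, ∑ c, (X c i).toNat = r i) ∧ ∀ c, ∑ i, (X c i).toNat = s c}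

variable {r : R → ℕ} {s : C → ℕ}

/-- The part of a table outside the rows in `S`. -/
def outside (S : Finset R) (X : Table r s) : C → R → Bool := fun c i => decide (i ∉ S) && X.1 c i

theorem outside_eq_iff {S : Finset R} {X Y : Table r s} :
    outside S X = outside S Y ↔ ∀ c, ∀ i, i ∉ S → X.1 c i = Y.1 c i := by
  constructor
  · intro h c i hi
    have := congrFun (congrFun h c) i
    simpa [outside, hi] using this
  · intro h
    funext c i
    by_cases hi : i ∈ S <;> simp [outside, hi, h c i]

/-- The number of ones of a column within `S`. -/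
def cnt (S : Finset R) (X : C → R → Bool) (c : C) : ℕ := ∑ i ∈ S, (X c i).toNat

theorem cnt_add_compl (S : Finset R) (X : Table r s) (c : C) :
    cnt S X.1 c + cnt Sᶜ X.1 c = s c := by
  rw [cnt, cnt, Finset.sum_add_sum_compl, X.2.2 c]

theorem cnt_eq_of_outside {S : Finset R} {X Y : Table r s} (h : outside S X = outside S Y)
    (c : C) : cnt S X.1 c = cnt S Y.1 c := by
  have e : cnt Sᶜ X.1 c = cnt Sᶜ Y.1 c := Finset.sum_congr rfl fun i hi => by
    rw [outside_eq_iff.1 h c i (Finset.mem_compl.1 hi)]
  have := cnt_add_compl S X c
  have := cnt_add_compl S Y c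
  omega

/-- Exchange the `S`-parts of two columns. -/
def swRaw (S : Finset R) (c e : C) (X : C → R → Bool) : C → R → Bool := fun d i =>
  if i ∈ S ∧ cnt S X c = cnt S X e then X (Equiv.swap c e d) i else X d i

theorem swRaw_margins (S : Finset R) (c e : C) (X : Table r s) :
    (∀ i, ∑ d, (swRaw S c e X.1 d i).toNat = r i) ∧
      ∀ d, ∑ i, (swRaw S c e X.1 d i).toNat = s d := by
  refine ⟨fun i => ?_, fun d => ?_⟩
  · by_cases h : i ∈ S ∧ cnt S X.1 c = cnt S X.1 e
    · simp only [swRaw, if_pos h]
      rw [Equiv.sum_comp (Equiv.swap c e) fun d => (X.1 d i).toNat, X.2.1 i]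
    · simp only [swRaw, if_neg h]; exact X.2.1 i
  · by_cases h : cnt S X.1 c = cnt S X.1 e
    · have hd : cnt S X.1 (Equiv.swap c e d) = cnt S X.1 d := by
        rcases eq_or_ne d c with rfl | h1
        · simp [h]
        rcases eq_or_ne d e with rfl | h2
        · simp [h]
        rw [Equiv.swap_apply_of_ne_of_ne h1 h2]
      rw [← Finset.sum_add_sum_compl S, ← X.2.2 d, ← Finset.sum_add_sum_compl S]
      refine congrArg₂ (· + ·) ?_ (Finset.sum_congr rfl fun i hi => ?_)
      · exact (Finset.sum_congr rfl fun i hi => by simp [swRaw, hi, h]).trans hd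
      · simp [swRaw, Finset.mem_compl.1 hi]
    · simp only [swRaw, h, and_false, if_false]; exact X.2.2 d

/-- Exchange the `S`-parts of two columns, where this respects the margins. -/
def sw (S : Finset R) (c e : C) (X : Table r s) : Table r s :=
  ⟨swRaw S c e X.1, swRaw_margins S c e X⟩

theorem sw_apply (S : Finset R) (c e : C) (X : Table r s) (d : C) (i : R) :
    (sw S c e X).1 d i
      = if i ∈ S ∧ cnt S X.1 c = cnt S X.1 e then X.1 (Equiv.swap c e d) i else X.1 d i := rfl

theorem sw_of_ne {S : Finset R} {c e : C} {X : Table r s} (h : cnt S X.1 c ≠ cnt S X.1 e) :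
    sw S c e X = X := Subtype.ext (funext fun d => funext fun i => by simp [sw_apply, h])

theorem sw_of_agree {S : Finset R} {c e : C} {X : Table r s}
    (h : ∀ i ∈ S, X.1 c i = X.1 e i) : sw S c e X = X := by
  refine Subtype.ext (funext fun d => funext fun i => ?_)
  rw [sw_apply]
  split_ifs with hi
  · rcases eq_or_ne d c with rfl | h1
    · simp [h i hi.1]
    rcases eq_or_ne d e with rfl | h2
    · simp [h i hi.1]
    rw [Equiv.swap_apply_of_ne_of_ne h1 h2]
  · rfl

theorem sw_comm (S : Finset R) (c e : C) (X : Table r s) : sw S e c X = sw S c e X :=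
  Subtype.ext (funext fun d => funext fun i => by simp [sw_apply, Equiv.swap_comm e c, eq_comm])

theorem outside_sw (S : Finset R) (c e : C) (X : Table r s) :
    outside S (sw S c e X) = outside S X :=
  outside_eq_iff.2 fun d i hi => by simp [sw_apply, hi]

theorem outside_mono {S T : Finset R} (h : S ⊆ T) {X Y : Table r s}
    (e : outside S X = outside S Y) : outside T X = outside T Y :=
  outside_eq_iff.2 fun c i hi => outside_eq_iff.1 e c i fun hS => hi (h hS)

theorem cnt_sw (S : Finset R) (c e : C) (X : Table r s) (d : C) :
    cnt S (sw S c e X).1 d = cnt S X.1 d := cnt_eq_of_outside (outside_sw S c e X) d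

theorem sw_sw (S : Finset R) (c e : C) (X : Table r s) : sw S c e (sw S c e X) = X := by
  refine Subtype.ext (funext fun d => funext fun i => ?_)
  by_cases h : i ∈ S ∧ cnt S X.1 c = cnt S X.1 e <;> simp [sw_apply, cnt_sw, h]

/-- The exchange as a permutation of the tables. -/
def swEquiv (S : Finset R) (c e : C) : Table r s ≃ Table r s :=
  ⟨sw S c e, sw S c e, sw_sw S c e, sw_sw S c e⟩

/-- Exchanges within `T` carry the classes of a subset of `T` to classes. -/
theorem outside_sw_sw {S T : Finset R} (hST : S ⊆ T) (c e : C) {X Y : Table r s}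
    (h : outside S Y = outside S X) :
    outside S (sw T c e Y) = outside S (sw T c e X) := by
  have hT : ∀ d, cnt T Y.1 d = cnt T X.1 d := cnt_eq_of_outside (outside_mono hST h)
  refine outside_eq_iff.2 fun d i hi => ?_
  simp only [sw_apply, hT]
  split_ifs <;> exact outside_eq_iff.1 h _ i hi

/-- Two rows of a class may be recombined with two other rows. -/
theorem exists_recombine {p q : Finset R} (hpq : Disjoint p q) {X Y Z : Table r s}
    (hY : outside p Y = outside p X) (hZ : outside q Z = outside q Y) :
    ∃ W : Table r s, outside q W = outside q X ∧ outside p Z = outside p W := by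
  have hqp : q ⊆ pᶜ := fun i hi => Finset.mem_compl.2 (Finset.disjoint_right.1 hpq hi)
  refine ⟨⟨fun c i => if i ∈ q then Z.1 c i else X.1 c i, fun i => ?_, fun c => ?_⟩,
    outside_eq_iff.2 fun c i hi => if_neg hi, outside_eq_iff.2 fun c i hi => ?_⟩
  · by_cases hi : i ∈ q <;> simp [hi, X.2.1, Z.2.1]
  · have e1 : cnt q Z.1 c = cnt q X.1 c := by
      rw [cnt_eq_of_outside hZ c]
      exact Finset.sum_congr rfl fun i hi => by
        rw [outside_eq_iff.1 hY c i (Finset.mem_compl.1 (hqp hi))]
    rw [← X.2.2 c, ← Finset.sum_add_sum_compl q, ← Finset.sum_add_sum_compl q fun i =>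
      (X.1 c i).toNat]
    refine congrArg₂ (· + ·) ?_ (Finset.sum_congr rfl fun i hi => ?_)
    · exact (Finset.sum_congr rfl fun i hi => by simp [hi]).trans e1
    · simp [Finset.mem_compl.1 hi]
  · show Z.1 c i = if i ∈ q then Z.1 c i else X.1 c i
    by_cases hq : i ∈ q
    · simp [hq]
    · rw [if_neg hq, outside_eq_iff.1 hZ c i hq, outside_eq_iff.1 hY c i hi]

/-- Disjoint sets of rows give commuting averages. -/
theorem avg_outside_comm {p q : Finset R} (hpq : Disjoint p q) (f : Table r s → ℝ) :
    avg (outside p) (avg (outside q) f) = avg (outside q) (avg (outside p) f) := by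
  refine avg_comm (fun X Y hp hq => ?_) (fun X Y Z h1 h2 => exists_recombine hpq h1 h2)
    (fun X Y Z h1 h2 => exists_recombine hpq.symm h1 h2) f
  refine Subtype.ext (funext fun c => funext fun i => ?_)
  by_cases hi : i ∈ p
  · exact outside_eq_iff.1 hq c i (Finset.disjoint_left.1 hpq hi)
  · exact outside_eq_iff.1 hp c i hi

/-- A function unchanged by the exchanges within a pair of rows is constant on their classes. -/
theorem eq_of_sw_invariant {a b : R} (hab : a ≠ b) {f : Table r s → ℝ} (P : C → Prop)
    (hf : ∀ c e X, P c → P e → f (sw {a, b} c e X) = f X) {X Y : Table r s}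
    (h : outside {a, b} Y = outside {a, b} X) (hP : ∀ c, X.1 c a ≠ Y.1 c a → P c) :
    f Y = f X := by
  obtain ⟨N, hN⟩ : ∃ N, (Finset.univ.filter fun c => X.1 c a ≠ Y.1 c a).card = N := ⟨_, rfl⟩
  induction N using Nat.strong_induction_on generalizing X with
  | _ N ih =>
    by_cases hall : ∀ c, X.1 c a = Y.1 c a
    · congr 1
      refine Subtype.ext (funext fun c => funext fun i => ?_)
      rcases eq_or_ne i a with rfl | hia
      · exact (hall c).symm
      rcases eq_or_ne i b with rfl | hib
      · have := cnt_eq_of_outside h c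
        simp only [cnt, Finset.sum_pair hab, hall c, Nat.add_left_cancel_iff] at this
        revert this
        cases Y.1 c i <;> cases X.1 c i <;> simp
      exact outside_eq_iff.1 h c i (by simp [hia, hib])
    · push Not at hall
      have hsum := (X.2.1 a).trans (Y.2.1 a).symm
      have hex : ∀ {U V : Table r s}, (∑ c, (U.1 c a).toNat) = ∑ c, (V.1 c a).toNat →
          (∀ c, U.1 c a = true → V.1 c a = true) → ∀ c, U.1 c a = V.1 c a := by
        intro U V he hle c
        have := (Finset.sum_eq_sum_iff_of_le fun c _ => by
          cases hu : U.1 c a <;> simp [hle c, hu]).1 he c (Finset.mem_univ c)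
        revert this
        cases U.1 c a <;> cases V.1 c a <;> simp
      obtain ⟨d0, hd0⟩ := hall
      obtain ⟨d, hd1, hd2⟩ : ∃ d, X.1 d a = true ∧ Y.1 d a = false := by
        by_contra hno
        push Not at hno
        exact hd0 (hex hsum (fun c hc => by simpa using hno c hc) d0)
      obtain ⟨e, he1, he2⟩ : ∃ e, Y.1 e a = true ∧ X.1 e a = false := by
        by_contra hno
        push Not at hno
        exact hd0 (hex hsum.symm (fun c hc => by simpa using hno c hc) d0).symm
      have hd : X.1 d b = false := by
        have := cnt_eq_of_outside h d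
        simp only [cnt, Finset.sum_pair hab, hd1, hd2] at this
        revert this
        cases X.1 d b <;> cases Y.1 d b <;> simp
      have he : X.1 e b = true := by
        have := cnt_eq_of_outside h e
        simp only [cnt, Finset.sum_pair hab, he1, he2] at this
        revert this
        cases X.1 e b <;> cases Y.1 e b <;> simp
      have hcnt : cnt {a, b} X.1 d = cnt {a, b} X.1 e := by
        simp [cnt, Finset.sum_pair hab, hd1, hd, he2, he]
      have hPd := hP d (by simp [hd1, hd2])
      have hPe := hP e (by simp [he1, he2])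
      rw [← hf d e X hPd hPe]
      have hval : ∀ c, (sw {a, b} d e X).1 c a = if c = d ∨ c = e then Y.1 c a else X.1 c a := by
        intro c
        rw [sw_apply, if_pos ⟨Finset.mem_insert_self a _, hcnt⟩]
        rcases eq_or_ne c d with rfl | h1
        · simp [he2, hd2]
        rcases eq_or_ne c e with rfl | h2
        · simp [hd1, he1]
        simp [Equiv.swap_apply_of_ne_of_ne h1 h2, h1, h2]
      refine ih _ ?_ (h.trans (outside_sw _ d e X).symm) (fun c hc => ?_) rfl
      · rw [← hN]
        refine Finset.card_lt_card (Finset.ssubset_iff_of_subset ?_ |>.2 ⟨d, ?_, ?_⟩)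
        · intro c hc
          simp only [Finset.mem_filter, Finset.mem_univ, true_and, hval] at hc ⊢
          by_cases h' : c = d ∨ c = e
          · rw [if_pos h'] at hc; exact absurd rfl hc
          · rwa [if_neg h'] at hc
        · simp [hd1, hd2]
        · simp [hval]
      · refine hP c fun heq => hc ?_
        rw [hval]; split_ifs <;> simp [heq]

end Vale.P335
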